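import Vale.Agent.P281.H716.Sys
import Vale.Agent.P285.H591.TM.Cv

/-! P281, theorem SAL: the metric of `O(k)` defined by sections generating `m (K_X + Δ)` and the
form `θ`. -/

open scoped Manifold ContDiff Topology ComplexOrder Matrix
open Set Filter Vale.Agent.P281 Vale.Agent.P272.K Vale.Agent.P299.H223
open Vale.Agent.P284.H248 Vale.Agent.P285.TM Vale.Agent.P285.H591.TM
open Vale.Agent.P281.H949.SA
open Vale.Agent.P272.K.AMP (hess)

set_option linter.all false

noncomputable section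

namespace Vale.Agent.P281.H716

namespace IsSys

variable {n : ℕ} {X : Type} [TopologicalSpace X] [ChartedSpace (Cm n) X]
  [IsManifold 𝓘(ℂ, Cm n) ω X] {κ : Type} {eqn : κ → X → (X → ℂ) → Prop} {T : Finset κ}
  {e e' : Chart n X} {x : X}

/-- the determinant of a change of charts, as a function on `X` -/
lemma holV_jac (hx : At e x) (hx' : At e' x) :
    HolV (Cm n) (fun y => (jacM e e' y).det) x := by
  have h1 := jacM_det_holo hx hx'
  have h2 : HolV (Cm n) (fun y => (jacM e e' (e.symm (e y))).det) x := by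
    have h3 : HolV (Cm n) (e : X → Cm n) x := chart_contMDiffAt hx
    exact HolV.comp_contDiff (G := fun z => (jacM e e' (e.symm z)).det) h1 h3
  refine h2.congr ?_
  filter_upwards [e.open_source.mem_nhds hx.2] with y hy
  rw [e.left_inv hy]

lemma at_ev (hx : At e x) : ∀ᶠ y in 𝓝 x, At e y := by
  filter_upwards [e.open_source.mem_nhds hx.2] with y hy using ⟨hx.1, hy⟩

lemma dom_ev (h : IsSys n eqn T) {i : X} (hi : x ∈ h.dom i) : ∀ᶠ y in 𝓝 x, y ∈ h.dom i :=
  isOpen_interior.mem_nhds hi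

/-- the coefficient of the section `s` of `m K + ∑ k(D) D` in the chart `e` for the frame at `i` -/
def cR (eqn : κ → X → (X → ℂ) → Prop) (T : Finset κ) (G : X → ℂ) (m : ℕ) (s : X → ℂ)
    (e : Chart n X) : X → ℂ :=
  ext (off eqn T) (fun y => s y * G y / dj e y ^ m)

/-- the section `s` has the local expression `a` (of `IsSection` or `Generates`) at `x` -/
lemma rep (h : IsSys n eqn T) {k : κ → ℕ} (hk : ∀ D, k D ≠ 0 → D ∈ T) {m : ℕ} {s : X → ℂ}
    {T' : Finset κ} {g : κ → X → ℂ} {a : X → ℂ} (hT' : ∀ D, k D ≠ 0 → D ∈ T')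
    (hg : ∀ D ∈ T', eqn D x (g D)) (ha : HolV (Cm n) a x)
    (hev : ∀ᶠ z in 𝓝 x, ∏ D ∈ T', g D z ^ k D ≠ 0 → s z * ∏ D ∈ T', g D z ^ k D =
      a z * dj (chartAt (Cm n) x) z ^ m) {i : X} (hi : x ∈ h.dom i) (he : At e x) :
    ∃ H, HolV (Cm n) H x ∧ (a x ≠ 0 → H x ≠ 0) ∧
      cR eqn T (h.GG k i) m s e =ᶠ[𝓝 x] H ∧
      ∀ᶠ z in 𝓝 x, z ∈ off eqn T → s z * h.GG k i z = H z * dj e z ^ m := by
  obtain ⟨w, hw, hw0, hwe⟩ := h.prod_unit hk hT' hg hi
  have hc : At (chartAt (Cm n) x) x := ⟨chart_mem_atlas _ _, mem_chart_source _ _⟩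
  set c : Chart n X := chartAt (Cm n) x with hcd
  set H : X → ℂ := fun z => a z / w z * (jacM e c z).det ^ m with hH
  have hHol : HolV (Cm n) H x := (ha.div hw hw0).mul ((holV_jac he hc).pow m)
  have hkey : ∀ᶠ z in 𝓝 x, z ∈ off eqn T → s z * h.GG k i z = H z * dj e z ^ m := by
    filter_upwards [hev, hwe, h.prod_ne hk hg, hw.continuousAt.eventually_ne hw0, at_ev he,
      at_ev hc] with z h1 h2 h3 h4 h5 h6 hz
    have h7 := h1 (h3 hz)
    rw [h2, dj_eq h5 h6] at h7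
    have h8 : w z * (s z * h.GG k i z) = a z * ((jacM e c z).det * dj e z) ^ m := by
      rw [← h7]; ring
    rw [hH]
    have h9 : s z * h.GG k i z = a z * ((jacM e c z).det * dj e z) ^ m / w z := by
      rw [eq_div_iff h4, mul_comm]; exact h8
    rw [h9, mul_pow]
    ring
  refine ⟨H, hHol, fun h0 => ?_, ext_ev h.dense_off hHol ?_, hkey⟩
  · rw [hH]
    exact mul_ne_zero (div_ne_zero h0 hw0) (pow_ne_zero _ (jacM_det_ne_zero he hc))
  · filter_upwards [hkey, at_ev he] with z h1 h2 hz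
    rw [h1 hz, mul_div_assoc, div_self (pow_ne_zero _ (dj_ne_zero h2)), mul_one]

lemma rep_sec (h : IsSys n eqn T) {k : κ → ℕ} (hk : ∀ D, k D ≠ 0 → D ∈ T) {m : ℕ} {s : X → ℂ}
    (hs : J.IsSection (Cm n) eqn m k s) {i : X} (hi : x ∈ h.dom i) (he : At e x) :
    ∃ H, HolV (Cm n) H x ∧ cR eqn T (h.GG k i) m s e =ᶠ[𝓝 x] H ∧
      ∀ᶠ z in 𝓝 x, z ∈ off eqn T → s z * h.GG k i z = H z * dj e z ^ m := by
  obtain ⟨T', g, a, hT', hg, ha, hev⟩ := hs x
  obtain ⟨H, h1, -, h2, h3⟩ := h.rep hk hT' hg ha hev hi he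
  exact ⟨H, h1, h2, h3⟩

lemma cR_hol (h : IsSys n eqn T) {k : κ → ℕ} (hk : ∀ D, k D ≠ 0 → D ∈ T) {m : ℕ} {s : X → ℂ}
    (hs : J.IsSection (Cm n) eqn m k s) {i : X} (hi : x ∈ h.dom i) (he : At e x) :
    HolV (Cm n) (cR eqn T (h.GG k i) m s e) x := by
  obtain ⟨H, h1, h2, -⟩ := h.rep_sec hk hs hi he
  exact h1.congr h2

lemma cR_ne (h : IsSys n eqn T) {k : κ → ℕ} (hk : ∀ D, k D ≠ 0 → D ∈ T) {m : ℕ} {s : X → ℂ}
    (hs : Generates (Cm n) eqn m k s x) {i : X} (hi : x ∈ h.dom i) (he : At e x) :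
    cR eqn T (h.GG k i) m s e x ≠ 0 := by
  obtain ⟨T', g, a, hT', hg, ha, ha0, hev⟩ := hs
  obtain ⟨H, -, h1, h2, -⟩ := h.rep hk hT' hg ha hev hi he
  rw [h2.self_of_nhds]
  exact h1 ha0

/-- off the divisors -/
lemma cR_eq (h : IsSys n eqn T) {k : κ → ℕ} (hk : ∀ D, k D ≠ 0 → D ∈ T) {m : ℕ} {s : X → ℂ}
    (hs : J.IsSection (Cm n) eqn m k s) {i : X} (hi : x ∈ h.dom i) (he : At e x)
    (hx : x ∈ off eqn T) : cR eqn T (h.GG k i) m s e x = s x * h.GG k i x / dj e x ^ m := by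
  obtain ⟨H, -, h1, h2⟩ := h.rep_sec hk hs hi he
  rw [h1.self_of_nhds, h2.self_of_nhds hx, mul_div_assoc,
    div_self (pow_ne_zero _ (dj_ne_zero he)), mul_one]

lemma cR_change (h : IsSys n eqn T) {k : κ → ℕ} (hk : ∀ D, k D ≠ 0 → D ∈ T) {m : ℕ} {s : X → ℂ}
    (hs : J.IsSection (Cm n) eqn m k s) {i : X} (hi : x ∈ h.dom i) (he : At e x)
    (he' : At e' x) : cR eqn T (h.GG k i) m s e x =
      (jacM e e' x).det ^ m * cR eqn T (h.GG k i) m s e' x := by
  refine eq_of_dense (g := fun x => (jacM e e' x).det ^ m * cR eqn T (h.GG k i) m s e' x)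
    h.dense_off (h.cR_hol hk hs hi he).continuousAt
    (((holV_jac he he').pow m).mul (h.cR_hol hk hs hi he')).continuousAt ?_
  filter_upwards [at_ev he, at_ev he', h.dom_ev hi] with z h1 h2 h3 hz
  rw [h.cR_eq hk hs h3 h1 hz, h.cR_eq hk hs h3 h2 hz, dj_eq h1 h2]
  have h4 := dj_ne_zero h1
  have h5 := jacM_det_ne_zero h1 h2
  rw [mul_pow]
  field_simp

lemma cR_glue (h : IsSys n eqn T) {k : κ → ℕ} (hk : ∀ D, k D ≠ 0 → D ∈ T) {m : ℕ} {s : X → ℂ}
    (hs : J.IsSection (Cm n) eqn m k s) {i j : X} (hi : x ∈ h.dom i) (hj : x ∈ h.dom j)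
    (he : At e x) : cR eqn T (h.GG k i) m s e x =
      (h.OL k).g i j x * cR eqn T (h.GG k j) m s e x := by
  have hg : HolV (Cm n) ((h.OL k).g i j) x := HolV.prod fun D hD => (h.uu_hol hD hi hj).pow _
  refine eq_of_dense (g := fun x => (h.OL k).g i j x * cR eqn T (h.GG k j) m s e x)
    h.dense_off (h.cR_hol hk hs hi he).continuousAt
    (hg.mul (h.cR_hol hk hs hj he)).continuousAt ?_
  filter_upwards [at_ev he, h.dom_ev hi, h.dom_ev hj] with z h1 h2 h3 hz
  rw [h.cR_eq hk hs h2 h1 hz, h.cR_eq hk hs h3 h1 hz, h.GG_eq k h2 h3]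
  ring

/-! ### the metric -/

lemma two_le_infty : (2 : WithTop ℕ∞) ≤ ∞ := by
  have h : ((2 : ℕ∞) : WithTop ℕ∞) ≤ ((⊤ : ℕ∞) : WithTop ℕ∞) := WithTop.coe_le_coe.2 le_top
  exact h

section metric

variable {M : ℕ}

/-- the coefficients of the sections `r c` -/
def Fr (h : IsSys n eqn T) (k : κ → ℕ) (m : ℕ) (r : Fin M → X → ℂ) (i : X) (e : Chart n X)
    (z : Cm n) : Fin M → ℂ := fun c => cR eqn T (h.GG k i) m (r c) e (e.symm z)

/-- sections generating `m K + ∑ k(D) D` -/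
structure Gen (n : ℕ) {X : Type} [TopologicalSpace X] [ChartedSpace (Cm n) X] {κ : Type}
    (eqn : κ → X → (X → ℂ) → Prop) (T : Finset κ) {M : ℕ} (k : κ → ℕ) (m : ℕ)
    (r : Fin M → X → ℂ) : Prop where
  supp : ∀ D, k D ≠ 0 → D ∈ T
  sec : ∀ c, J.IsSection (Cm n) eqn m k (r c)
  gen : ∀ x, ∃ c, Generates (Cm n) eqn m k (r c) x

variable {k : κ → ℕ} {m : ℕ} {r : Fin M → X → ℂ}

lemma Fr_hol (h : IsSys n eqn T) (hr : Gen n eqn T k m r) {i : X} (hi : x ∈ h.dom i)
    (he : At e x) : ContDiffAt ℂ ω (h.Fr k m r i e) (e x) :=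
  contDiffAt_pi.2 fun c => holV_chart he (h.cR_hol hr.supp (hr.sec c) hi he)

lemma Fr_ne (h : IsSys n eqn T) (hr : Gen n eqn T k m r) {i : X} (hi : x ∈ h.dom i)
    (he : At e x) : h.Fr k m r i e (e x) ≠ 0 := by
  obtain ⟨c, hc⟩ := hr.gen x
  intro h0
  have h1 := congrFun h0 c
  simp only [Fr, he.left_inv] at h1
  exact h.cR_ne hr.supp hc hi he h1

lemma Fr_change (h : IsSys n eqn T) (hr : Gen n eqn T k m r) {i : X} (hi : x ∈ h.dom i)
    (he : At e x) (he' : At e' x) : h.Fr k m r i e (e x) =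
      (jacM e e' x).det ^ m • h.Fr k m r i e' (e' x) := by
  funext c
  simp only [Fr, he.left_inv, he'.left_inv, Pi.smul_apply, smul_eq_mul]
  exact h.cR_change hr.supp (hr.sec c) hi he he'

lemma Fr_glue (h : IsSys n eqn T) (hr : Gen n eqn T k m r) {i j : X} (hi : x ∈ h.dom i)
    (hj : x ∈ h.dom j) (he : At e x) : h.Fr k m r i e (e x) =
      (h.OL k).g i j x • h.Fr k m r j e (e x) := by
  funext c
  simp only [Fr, he.left_inv, Pi.smul_apply, smul_eq_mul]
  exact h.cR_glue hr.supp (hr.sec c) hi hj he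

/-- the weights of the metric of `O(k)` -/
def psi (h : IsSys n eqn T) (k : κ → ℕ) (m : ℕ) (r : Fin M → X → ℂ)
    (φ : Chart n X → Cm n → ℝ) (i x : X) : ℝ :=
  Real.log (nsq (h.Fr k m r i (chartAt (Cm n) x) (chartAt (Cm n) x x))) -
    m * φ (chartAt (Cm n) x) (chartAt (Cm n) x x)

variable {φ : Chart n X → Cm n → ℝ}

lemma psi_eq (h : IsSys n eqn T) (hr : Gen n eqn T k m r) (hφ : IsCanonicalMetric φ) {i : X}
    (hi : x ∈ h.dom i) (he : At e x) : h.psi k m r φ i x =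
      Real.log (nsq (h.Fr k m r i e (e x))) - m * φ e (e x) := by
  have hc : At (chartAt (Cm n) x) x := ⟨chart_mem_atlas _ _, mem_chart_source _ _⟩
  set c : Chart n X := chartAt (Cm n) x with hcd
  have h1 := h.Fr_change hr hi hc he
  have h2 := hφ.change c e x hc he
  have h3 : (0 : ℝ) < ‖(jacM c e x).det‖ := norm_pos_iff.2 (jacM_det_ne_zero hc he)
  have h4 := nsq_pos (h.Fr_ne hr hi he)
  have h5 : (0 : ℝ) < ‖(jacM c e x).det ^ m‖ ^ 2 := by rw [norm_pow]; positivity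
  show Real.log (nsq (h.Fr k m r i c (c x))) - m * φ c (c x) = _
  rw [h1, nsq_smul, Real.log_mul h5.ne' h4.ne', h2, norm_pow, ← pow_mul, mul_comm m 2, pow_mul,
    Real.log_pow]
  ring

theorem wt_psi (h : IsSys n eqn T) (hr : Gen n eqn T k m r) (hφ : IsCanonicalMetric φ) :
    Wt (h.OL k) (h.psi k m r φ) where
  smooth i e x he hi := by
    have h1 := smooth_log_nsq (h.Fr_hol hr hi he) (h.Fr_ne hr hi he)
    have h0 : ContDiffAt ℝ ∞ (fun z => (m : ℝ) * φ e z) (e x) :=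
      contDiffAt_const.mul (hφ.smooth e x he)
    refine (h1.sub h0).congr_of_eventuallyEq ?_
    filter_upwards [mem_U_nhds (L := h.OL k) he hi, he.nhds_target] with z h2 h3
    have h4 := At.of_target he.1 h3
    have h5 := h.psi_eq hr hφ (show e.symm z ∈ h.dom i from h2) h4
    rw [e.right_inv h3] at h5
    exact h5
  change i j x hi hj := by
    have hc : At (chartAt (Cm n) x) x := ⟨chart_mem_atlas _ _, mem_chart_source _ _⟩
    have h1 : (0 : ℝ) < ‖(h.OL k).g i j x‖ ^ 2 := by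
      have := norm_pos_iff.2 ((h.OL k).ne_zero i j x hi hj)
      positivity
    rw [h.psi_eq hr hφ hi hc, h.psi_eq hr hφ hj hc, h.Fr_glue hr hi hj hc, nsq_smul,
      Real.log_mul h1.ne' (nsq_pos (h.Fr_ne hr hj hc)).ne']
    ring

lemma hess_psi (h : IsSys n eqn T) (hr : Gen n eqn T k m r) (hφ : IsCanonicalMetric φ) {i : X}
    (hi : x ∈ h.dom i) (he : At e x) : hess (h.psi k m r φ i) e (e x) =
      fsM (h.Fr k m r i e) (e x) - (m : ℂ) • cHess (φ e) (e x) := by
  have h1 := (smooth_log_nsq (h.Fr_hol hr hi he) (h.Fr_ne hr hi he)).of_le two_le_infty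
  have h2 : ContDiffAt ℝ 2 (φ e) (e x) := (hφ.smooth e x he).of_le two_le_infty
  have h3 : (fun z => h.psi k m r φ i (e.symm z)) =ᶠ[𝓝 (e x)]
      fun z => Real.log (nsq (h.Fr k m r i e z)) + (-(m : ℝ)) * φ e z := by
    filter_upwards [mem_U_nhds (L := h.OL k) he hi, he.nhds_target] with z h2 h3
    have h4 := At.of_target he.1 h3
    have h5 := h.psi_eq hr hφ (show e.symm z ∈ h.dom i from h2) h4
    rw [e.right_inv h3] at h5
    rw [h5]; ring
  show cHess (fun z => h.psi k m r φ i (e.symm z)) (e x) = _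
  rw [cHess_congr h3, cHess_add h1 (contDiffAt_const.mul h2), cHess_const_mul _ h2]
  rw [sub_eq_add_neg, ← neg_smul]
  congr 2
  push_cast
  ring

/-- a multiple of the metric -/
theorem wt_mul_psi (h : IsSys n eqn T) (hr : Gen n eqn T k m r) (hφ : IsCanonicalMetric φ)
    {k' : κ → ℕ} {c : ℝ} (hk' : ∀ D ∈ T, (k' D : ℝ) = c * k D) :
    Wt (h.OL k') (fun i x => c * h.psi k m r φ i x) where
  smooth i e x he hi := contDiffAt_const.mul ((h.wt_psi hr hφ).smooth i e x he hi)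
  change i j x hi hj := by
    rw [(h.wt_psi hr hφ).change i j x hi hj]
    have h1 : ∀ l : κ → ℕ, Real.log (‖(h.OL l).g i j x‖ ^ 2) =
        ∑ D ∈ T, (l D : ℝ) * (2 * Real.log ‖h.uu D i j x‖) := by
      intro l
      show Real.log (‖∏ D ∈ T, h.uu D i j x ^ l D‖ ^ 2) = _
      rw [Real.log_pow, norm_prod, Real.log_prod fun D hD => ?_]
      · rw [Finset.mul_sum]
        refine Finset.sum_congr rfl fun D hD => ?_
        rw [norm_pow, Real.log_pow]
        push_cast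
        ring
      · rw [norm_pow]
        exact pow_ne_zero _ (norm_ne_zero_iff.2 (h.uu_ne hD hi hj))
    rw [h1, h1, mul_add, Finset.mul_sum]
    congr 1
    refine Finset.sum_congr rfl fun D hD => ?_
    rw [hk' D hD]
    ring

/-- the form `θ`, in the class of `2 m K + ∑ k(D) D` -/
def theta (h : IsSys n eqn T) (k : κ → ℕ) (m : ℕ) (r : Fin M → X → ℂ)
    (φ : Chart n X → Cm n → ℝ) : Chart n X → Cm n → Matrix (Fin n) (Fin n) ℂ :=
  fun e z => (2 * (m : ℂ)) • cHess (φ e) z + cv (h.OL k) (h.psi k m r φ) e z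

lemma theta_closed (h : IsSys n eqn T) (hr : Gen n eqn T k m r) (hφ : IsCanonicalMetric φ) :
    INT.IsClosedForm (h.theta k m r φ) :=
  ((INT.isClosedForm_canonical hφ).smul (2 * (m : ℂ))).add (isClosedForm_cv (h.wt_psi hr hφ))

lemma theta_eq (h : IsSys n eqn T) (hr : Gen n eqn T k m r) (hφ : IsCanonicalMetric φ) {i : X}
    (hi : x ∈ h.dom i) (he : At e x) : h.theta k m r φ e (e x) =
      (m : ℂ) • cHess (φ e) (e x) + fsM (h.Fr k m r i e) (e x) := by
  unfold theta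
  rw [cv_eq (h.wt_psi hr hφ) he (i := i) hi, h.hess_psi hr hφ hi he, two_mul, add_smul]
  abel

/-- the kernel of a sum of positive semidefinite matrices -/
lemma ker_add {A B : Matrix (Fin n) (Fin n) ℂ} (hA : A.PosSemidef) (hB : B.PosSemidef)
    (v : Cm n) : (∀ j, ∑ i, v i * (A + B) i j = 0) ↔
      (∀ j, ∑ i, v i * A i j = 0) ∧ ∀ j, ∑ i, v i * B i j = 0 := by
  have key : ∀ {C : Matrix (Fin n) (Fin n) ℂ}, C.PosSemidef →
      ((∀ j, ∑ i, v i * C i j = 0) ↔ star (star v) ⬝ᵥ (C *ᵥ star v) = 0) := by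
    intro C hC
    rw [hC.dotProduct_mulVec_zero_iff, funext_iff]
    refine forall_congr' fun j => ?_
    have h2 : (C.mulVec (star v)) j = star (∑ i, v i * C i j) := by
      rw [star_sum]
      simp only [Matrix.mulVec, dotProduct]
      refine Finset.sum_congr rfl fun i _ => ?_
      rw [star_mul, Pi.star_apply]
      rw [hC.isHermitian.apply j i, mul_comm]
    rw [h2, Pi.zero_apply, star_eq_zero]
  rw [key (hA.add hB), key hA, key hB, Matrix.add_mulVec, dotProduct_add]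
  have h1 := hA.dotProduct_mulVec_nonneg (star v)
  have h2 := hB.dotProduct_mulVec_nonneg (star v)
  constructor
  · intro h
    have h3 : star (star v) ⬝ᵥ (A *ᵥ star v) = 0 := by
      refine le_antisymm ?_ h1
      rw [← h]
      exact le_add_of_nonneg_right h2
    exact ⟨h3, by rwa [h3, zero_add] at h⟩
  · rintro ⟨h3, h4⟩
    rw [h3, h4, add_zero]

lemma theta_psd (h : IsSys n eqn T) (hr : Gen n eqn T k m r) (hφ : IsCanonicalMetric φ)
    (hK : ∀ e x, At e x → (cHess (φ e) (e x)).PosSemidef) (he : At e x) :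
    (h.theta k m r φ e (e x)).PosSemidef := by
  rw [h.theta_eq hr hφ (h.self_mem_dom x) he]
  exact ((hK e x he).smul (by exact_mod_cast Nat.zero_le m)).add
    (fsM_psd (h.Fr_hol hr (h.self_mem_dom x) he) (h.Fr_ne hr (h.self_mem_dom x) he))

/-- the curvature of `K_X` is `≤ θ` -/
lemma can_le_theta (h : IsSys n eqn T) (hr : Gen n eqn T k m r) (hφ : IsCanonicalMetric φ)
    (hK : ∀ e x, At e x → (cHess (φ e) (e x)).PosSemidef) (hm : 0 < m) {C : ℝ} (hC : 1 ≤ C)
    (he : At e x) :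
    ((C : ℂ) • h.theta k m r φ e (e x) - cHess (φ e) (e x)).PosSemidef := by
  have h1 := h.theta_eq hr hφ (h.self_mem_dom x) he
  have h2 := fsM_psd (h.Fr_hol hr (h.self_mem_dom x) he) (h.Fr_ne hr (h.self_mem_dom x) he)
  rw [h1, smul_add, smul_smul]
  have hm' : (1 : ℝ) ≤ m := by exact_mod_cast hm
  have h3 : ((C : ℂ) * (m : ℂ)) • cHess (φ e) (e x) + (C : ℂ) • fsM (h.Fr k m r x e) (e x) -
      cHess (φ e) (e x) = (((C * m - 1 : ℝ)) : ℂ) • cHess (φ e) (e x) +
        (C : ℂ) • fsM (h.Fr k m r x e) (e x) := by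
    push_cast
    rw [sub_smul, one_smul]
    abel
  rw [h3]
  refine ((hK e x he).smul ?_).add (h2.smul ?_)
  · have : 0 ≤ C * m - 1 := by nlinarith
    exact_mod_cast this
  · exact_mod_cast (zero_le_one.trans hC)

/-- the curvature of `O(k')` is `≤ c θ` -/
lemma psi_le_theta (h : IsSys n eqn T) (hr : Gen n eqn T k m r) (hφ : IsCanonicalMetric φ)
    (hK : ∀ e x, At e x → (cHess (φ e) (e x)).PosSemidef) {c C : ℝ} (hc : 0 ≤ c) (hC : c ≤ C)
    {i : X} (hi : x ∈ h.dom i) (he : At e x) :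
    ((C : ℂ) • h.theta k m r φ e (e x) - hess (fun y => c * h.psi k m r φ i y) e
      (e x)).PosSemidef := by
  have h1 := h.theta_eq hr hφ hi he
  have h2 := fsM_psd (h.Fr_hol hr hi he) (h.Fr_ne hr hi he)
  have h4 : hess (fun y => c * h.psi k m r φ i y) e (e x) =
      (c : ℂ) • hess (h.psi k m r φ i) e (e x) :=
    cHess_const_mul c (((h.wt_psi hr hφ).smooth i e x he hi).of_le two_le_infty)
  rw [h1, h4, h.hess_psi hr hφ hi he]
  have h3 : (C : ℂ) • ((m : ℂ) • cHess (φ e) (e x) + fsM (h.Fr k m r i e) (e x)) -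
      (c : ℂ) • (fsM (h.Fr k m r i e) (e x) - (m : ℂ) • cHess (φ e) (e x)) =
      (((C + c) * m : ℝ) : ℂ) • cHess (φ e) (e x) +
        ((C - c : ℝ) : ℂ) • fsM (h.Fr k m r i e) (e x) := by
    push_cast
    module
  rw [h3]
  refine ((hK e x he).smul ?_).add (h2.smul ?_)
  · have : 0 ≤ (C + c) * m := mul_nonneg (by linarith) (Nat.cast_nonneg m)
    exact_mod_cast this
  · have : 0 ≤ C - c := by linarith
    exact_mod_cast this

/-- the kernel of `θ` off the divisors -/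
theorem theta_ker (h : IsSys n eqn T) (hr : Gen n eqn T k m r) (hφ : IsCanonicalMetric φ)
    (hK : ∀ e x, At e x → (cHess (φ e) (e x)).PosSemidef) (hm : 0 < m) (he : At e x)
    (hx : x ∈ off eqn T) {c₀ : Fin M} (hc₀ : r c₀ x ≠ 0) (v : Cm n) :
    (∀ j, ∑ i, v i * h.theta k m r φ e (e x) i j = 0) ↔
      (∀ j, ∑ i, v i * cHess (φ e) (e x) i j = 0) ∧
        ∀ c, fderiv ℂ (fun z => r c (e.symm z) / r c₀ (e.symm z)) (e x) v = 0 := by
  have hi := h.self_mem_dom x
  have hF := h.Fr_hol hr hi he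
  have hF0 := h.Fr_ne hr hi he
  rw [h.theta_eq hr hφ hi he, ker_add ((hK e x he).smul (by exact_mod_cast Nat.zero_le m))
    (fsM_psd hF hF0), fsM_ker hF hF0]
  have hb0 : h.Fr k m r x e (e x) c₀ ≠ 0 := by
    simp only [Fr, he.left_inv]
    rw [h.cR_eq hr.supp (hr.sec c₀) hi he hx]
    exact div_ne_zero (mul_ne_zero hc₀ (h.GG_ne hi hx k)) (pow_ne_zero _ (dj_ne_zero he))
  rw [fderiv_quot hF hb0]
  refine and_congr ?_ ?_
  · refine forall_congr' fun j => ?_
    have h2 : ∑ i, v i * ((m : ℂ) • cHess (φ e) (e x)) i j =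
        (m : ℂ) * ∑ i, v i * cHess (φ e) (e x) i j := by
      rw [Finset.mul_sum]
      refine Finset.sum_congr rfl fun i _ => ?_
      rw [Matrix.smul_apply, smul_eq_mul]
      ring
    rw [h2, mul_eq_zero, or_iff_right (by exact_mod_cast hm.ne')]
  · refine forall_congr' fun c => ?_
    have h3 : (fun y => h.Fr k m r x e y c / h.Fr k m r x e y c₀) =ᶠ[𝓝 (e x)]
        fun z => r c (e.symm z) / r c₀ (e.symm z) := by
      have h5 : Tendsto e.symm (𝓝 (e x)) (𝓝 x) := by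
        have := e.continuousAt_symm he.mem_target
        rwa [ContinuousAt, he.left_inv] at this
      filter_upwards [he.nhds_target, h5.eventually (h.dom_ev hi),
        h5.eventually (h.isOpen_off.mem_nhds hx)] with z h6 h7 h8
      have h9 := At.of_target he.1 h6
      simp only [Fr]
      rw [h.cR_eq hr.supp (hr.sec c) h7 h9 h8, h.cR_eq hr.supp (hr.sec c₀) h7 h9 h8,
        div_div_div_cancel_right₀ (pow_ne_zero _ (dj_ne_zero h9)),
        mul_div_mul_right _ _ (h.GG_ne h7 h8 k)]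
    rw [h3.fderiv_eq]

end metric

end IsSys

end Vale.Agent.P281.H716
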