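import Vale.Agent.P281.H716.Iface
import Vale.Agent.P281.H76.Ext
import Vale.Agent.P281.H949.SA.M

/-! P281, theorem SAL: divisors given by local equations, the line bundle `O(k)`. -/

open scoped Manifold ContDiff Topology ComplexOrder
open Set Filter Vale.Agent.P281 Vale.Agent.P272.K
open Vale.Agent.P284.H248 Vale.Agent.P285.TM

set_option linter.all false

noncomputable section

namespace Vale.Agent.P281.H716

variable {n : ℕ} {X : Type} [TopologicalSpace X] [ChartedSpace (Cm n) X] {κ : Type}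

/-- a finite system of divisors with local equations -/
structure IsSys (n : ℕ) {X : Type} [TopologicalSpace X] [ChartedSpace (Cm n) X] {κ : Type}
    (eqn : κ → X → (X → ℂ) → Prop) (T : Finset κ) : Prop where
  ex : ∀ D ∈ T, ∀ x, ∃ g, eqn D x g
  hol : ∀ D x g, eqn D x g → HolV (Cm n) g x
  per : ∀ D x g, eqn D x g → ∀ᶠ y in 𝓝 x, eqn D y g
  unit : ∀ D x g g', eqn D x g → eqn D x g' → ∃ w, HolV (Cm n) w x ∧ w x ≠ 0 ∧
    ∀ᶠ z in 𝓝 x, g z = w z * g' z
  nz : ∀ D ∈ T, ∀ x g, eqn D x g → ∃ᶠ z in 𝓝 x, g z ≠ 0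

namespace IsSys

variable {eqn : κ → X → (X → ℂ) → Prop} {T : Finset κ}

/-- the complement of the divisors -/
def off (eqn : κ → X → (X → ℂ) → Prop) (T : Finset κ) : Set X :=
  {x | ∀ D ∈ T, ∀ g, eqn D x g → g x ≠ 0}

lemma mem_off (h : IsSys n eqn T) {x : X} {g : κ → X → ℂ} (hg : ∀ D ∈ T, eqn D x (g D)) :
    x ∈ off eqn T ↔ ∏ D ∈ T, g D x ≠ 0 := by
  rw [Finset.prod_ne_zero_iff]
  constructor
  · exact fun hx D hD => hx D hD _ (hg D hD)
  · intro hx D hD g' hg'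
    obtain ⟨w, -, hw0, hev⟩ := h.unit D x g' (g D) hg' (hg D hD)
    rw [hev.self_of_nhds]
    exact mul_ne_zero hw0 (hx D hD)

lemma mem_off_ev (h : IsSys n eqn T) {x : X} {g : κ → X → ℂ} (hg : ∀ D ∈ T, eqn D x (g D)) :
    ∀ᶠ z in 𝓝 x, z ∈ off eqn T ↔ ∏ D ∈ T, g D z ≠ 0 := by
  have h1 : ∀ᶠ z in 𝓝 x, ∀ D ∈ T, eqn D z (g D) := by
    rw [Filter.eventually_all_finset]
    exact fun D hD => h.per D x (g D) (hg D hD)
  filter_upwards [h1] with z hz using h.mem_off hz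

/-- the chosen local equations at `i` -/
def gg (h : IsSys n eqn T) (D : κ) (i : X) : X → ℂ := by
  classical exact if hD : D ∈ T then (h.ex D hD i).choose else fun _ => 1

lemma gg_spec (h : IsSys n eqn T) {D : κ} (hD : D ∈ T) (i : X) : eqn D i (h.gg D i) := by
  unfold gg
  rw [dif_pos hD]
  exact (h.ex D hD i).choose_spec

/-- the domain of the local equations at `i` -/
def dom (h : IsSys n eqn T) (i : X) : Set X := interior {y | ∀ D ∈ T, eqn D y (h.gg D i)}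

lemma self_mem_dom (h : IsSys n eqn T) (i : X) : i ∈ h.dom i := by
  rw [dom, mem_interior_iff_mem_nhds]
  have h1 : ∀ᶠ z in 𝓝 i, ∀ D ∈ T, eqn D z (h.gg D i) := by
    rw [Filter.eventually_all_finset]
    exact fun D hD => h.per D i _ (h.gg_spec hD i)
  exact h1

lemma dom_spec (h : IsSys n eqn T) {i x : X} (hx : x ∈ h.dom i) {D : κ} (hD : D ∈ T) :
    eqn D x (h.gg D i) := (interior_subset hx : _) D hD

/-- the equation of `∑ k(D) D` -/
def GG (h : IsSys n eqn T) (k : κ → ℕ) (i x : X) : ℂ := ∏ D ∈ T, h.gg D i x ^ k D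

lemma off_iff (h : IsSys n eqn T) {i x : X} (hx : x ∈ h.dom i) :
    x ∈ off eqn T ↔ ∏ D ∈ T, h.gg D i x ≠ 0 :=
  h.mem_off fun D hD => h.dom_spec hx hD

lemma GG_ne (h : IsSys n eqn T) {i x : X} (hx : x ∈ h.dom i) (hS : x ∈ off eqn T) (k : κ → ℕ) :
    h.GG k i x ≠ 0 :=
  Finset.prod_ne_zero_iff.2 fun D hD => pow_ne_zero _ (hS D hD _ (h.dom_spec hx hD))

lemma isOpen_off (h : IsSys n eqn T) : IsOpen (off eqn T) := by
  rw [isOpen_iff_mem_nhds]
  intro x hx
  have h1 := (h.off_iff (h.self_mem_dom x)).1 hx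
  have h2 : ContinuousAt (fun z => ∏ D ∈ T, h.gg D x z) x := by
    refine tendsto_finset_prod _ fun D hD => ?_
    exact (h.hol D x _ (h.gg_spec hD x)).continuousAt
  filter_upwards [h2.eventually_ne h1, isOpen_interior.mem_nhds (h.self_mem_dom x)] with z hz hz'
  exact (h.off_iff hz').2 hz

variable [IsManifold 𝓘(ℂ, Cm n) ω X]

lemma holV_gg (h : IsSys n eqn T) {i x : X} (hx : x ∈ h.dom i) {D : κ} (hD : D ∈ T) :
    HolV (Cm n) (h.gg D i) x := h.hol D x _ (h.dom_spec hx hD)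

lemma holV_GG (h : IsSys n eqn T) {i x : X} (hx : x ∈ h.dom i) (k : κ → ℕ) :
    HolV (Cm n) (h.GG k i) x :=
  HolV.prod fun D hD => (h.holV_gg hx hD).pow _

/-- a holomorphic function not vanishing identically near any point near `x` ... -/
lemma freq_prod {ι : Type} (S : Finset ι) (f : ι → X → ℂ) (x : X)
    (hf : ∀ i ∈ S, ∀ᶠ y in 𝓝 x, HolV (Cm n) (f i) y)
    (hn : ∀ i ∈ S, ∀ᶠ y in 𝓝 x, ∃ᶠ z in 𝓝 y, f i z ≠ 0) : ∃ᶠ z in 𝓝 x, ∏ i ∈ S, f i z ≠ 0 := by
  classical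
  induction S using Finset.induction_on with
  | empty => simp
  | insert a S ha ih =>
    have h1 := ih (fun i hi => hf i (Finset.mem_insert_of_mem hi))
      (fun i hi => hn i (Finset.mem_insert_of_mem hi))
    have h2 : ∀ᶠ y in 𝓝 x, ∀ i ∈ S, HolV (Cm n) (f i) y := by
      rw [Filter.eventually_all_finset]
      exact fun i hi => hf i (Finset.mem_insert_of_mem hi)
    have h3 := hn a (Finset.mem_insert_self a S)
    have h4 := (h1.and_eventually (h2.and h3))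
    rw [← frequently_frequently_nhds]
    refine h4.mono ?_
    rintro y ⟨hy1, hy2, hy3⟩
    have hc : ContinuousAt (fun z => ∏ i ∈ S, f i z) y := by
      refine tendsto_finset_prod _ fun i hi => ?_
      exact (hy2 i hi).continuousAt
    refine (hy3.and_eventually (hc.eventually_ne hy1)).mono ?_
    rintro z ⟨hz1, hz2⟩
    rw [Finset.prod_insert ha]
    exact mul_ne_zero hz1 hz2

lemma freq_off (h : IsSys n eqn T) (x : X) : ∃ᶠ z in 𝓝 x, z ∈ off eqn T := by
  have h1 : ∃ᶠ z in 𝓝 x, ∏ D ∈ T, h.gg D x z ≠ 0 := by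
    refine freq_prod (n := n) T (fun D => h.gg D x) x (fun D hD => ?_) fun D hD => ?_
    · exact (h.hol D x _ (h.gg_spec hD x)).eventually
    · filter_upwards [h.per D x _ (h.gg_spec hD x)] with y hy
      exact h.nz D hD y _ hy
  have h2 : ∀ᶠ z in 𝓝 x, z ∈ h.dom x := isOpen_interior.mem_nhds (h.self_mem_dom x)
  refine (h1.and_eventually h2).mono ?_
  rintro z ⟨hz1, hz2⟩
  exact (h.off_iff hz2).2 hz1

lemma dense_off (h : IsSys n eqn T) : Dense (off eqn T) := fun x =>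
  mem_closure_iff_frequently.2 (h.freq_off x)

end IsSys

/-! ### the value at a point of a function defined off a thin set -/

/-- the value at `x`, by continuity, of a function defined on the dense set `S` -/
def ext (S : Set X) (f : X → ℂ) (x : X) : ℂ := limUnder (𝓝[S] x) f

lemma ext_eq {S : Set X} (hS : Dense S) {f H : X → ℂ} {x : X} (hH : ContinuousAt H x)
    (h : ∀ᶠ z in 𝓝 x, z ∈ S → f z = H z) : ext S f x = H x := by
  haveI : (𝓝[S] x).NeBot := mem_closure_iff_nhdsWithin_neBot.1 (hS x)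
  refine Tendsto.limUnder_eq ?_
  have h1 : Tendsto H (𝓝[S] x) (𝓝 (H x)) := hH.tendsto.mono_left nhdsWithin_le_nhds
  refine h1.congr' ?_
  filter_upwards [nhdsWithin_le_nhds h, self_mem_nhdsWithin] with z hz hzS using (hz hzS).symm

lemma ext_ev {S : Set X} (hS : Dense S) [IsManifold 𝓘(ℂ, Cm n) ω X] {f H : X → ℂ} {x : X}
    (hH : HolV (Cm n) H x) (h : ∀ᶠ z in 𝓝 x, z ∈ S → f z = H z) : ext S f =ᶠ[𝓝 x] H := by
  filter_upwards [hH.eventually, eventually_eventually_nhds.2 h] with z h1 h2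
  exact ext_eq hS h1.continuousAt h2

/-- continuous functions which agree on a dense set -/
lemma eq_of_dense {S : Set X} (hS : Dense S) {f g : X → ℂ} {x : X} (hf : ContinuousAt f x)
    (hg : ContinuousAt g x) (h : ∀ᶠ z in 𝓝 x, z ∈ S → f z = g z) : f x = g x := by
  rw [← ext_eq hS hf (f := f) (Eventually.of_forall fun z _ => rfl), ext_eq hS hg h]

namespace IsSys

variable {eqn : κ → X → (X → ℂ) → Prop} {T : Finset κ} [IsManifold 𝓘(ℂ, Cm n) ω X]

/-- the quotient of the local equations at `i` and `j` -/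
def uu (h : IsSys n eqn T) (D : κ) (i j : X) (x : X) : ℂ :=
  ext (off eqn T) (fun z => h.gg D i z / h.gg D j z) x

lemma uu_spec (h : IsSys n eqn T) {D : κ} (hD : D ∈ T) {i j x : X} (hi : x ∈ h.dom i)
    (hj : x ∈ h.dom j) : ∃ w, HolV (Cm n) w x ∧ w x ≠ 0 ∧ h.uu D i j =ᶠ[𝓝 x] w ∧
      ∀ᶠ z in 𝓝 x, h.gg D i z = w z * h.gg D j z := by
  obtain ⟨w, hw, hw0, hev⟩ := h.unit D x _ _ (h.dom_spec hi hD) (h.dom_spec hj hD)
  refine ⟨w, hw, hw0, ext_ev h.dense_off hw ?_, hev⟩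
  filter_upwards [hev, isOpen_interior.mem_nhds hj] with z hz hz' hzS
  have h1 : h.gg D j z ≠ 0 := hzS D hD _ (h.dom_spec hz' hD)
  rw [hz, mul_div_assoc, div_self h1, mul_one]

lemma uu_hol (h : IsSys n eqn T) {D : κ} (hD : D ∈ T) {i j x : X} (hi : x ∈ h.dom i)
    (hj : x ∈ h.dom j) : HolV (Cm n) (h.uu D i j) x := by
  obtain ⟨w, hw, -, h2, -⟩ := h.uu_spec hD hi hj
  exact hw.congr h2

lemma uu_ne (h : IsSys n eqn T) {D : κ} (hD : D ∈ T) {i j x : X} (hi : x ∈ h.dom i)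
    (hj : x ∈ h.dom j) : h.uu D i j x ≠ 0 := by
  obtain ⟨w, -, hw0, h2, -⟩ := h.uu_spec hD hi hj
  rwa [h2.self_of_nhds]

lemma uu_mul (h : IsSys n eqn T) {D : κ} (hD : D ∈ T) {i j x : X} (hi : x ∈ h.dom i)
    (hj : x ∈ h.dom j) : h.gg D i x = h.uu D i j x * h.gg D j x := by
  obtain ⟨w, -, -, h2, h3⟩ := h.uu_spec hD hi hj
  rw [h2.self_of_nhds, h3.self_of_nhds]

lemma uu_cocycle (h : IsSys n eqn T) {D : κ} (hD : D ∈ T) {i j l x : X} (hi : x ∈ h.dom i)
    (hj : x ∈ h.dom j) (hl : x ∈ h.dom l) : h.uu D i j x * h.uu D j l x = h.uu D i l x := by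
  refine eq_of_dense (f := fun x => h.uu D i j x * h.uu D j l x) h.dense_off
    ((h.uu_hol hD hi hj).continuousAt.mul (h.uu_hol hD hj hl).continuousAt)
    (h.uu_hol hD hi hl).continuousAt ?_
  filter_upwards [isOpen_interior.mem_nhds hi, isOpen_interior.mem_nhds hj,
    isOpen_interior.mem_nhds hl] with z h1 h2 h3 hzS
  have h4 : h.gg D l z ≠ 0 := hzS D hD _ (h.dom_spec h3 hD)
  refine mul_right_cancel₀ h4 ?_
  rw [mul_assoc, ← h.uu_mul hD h2 h3, ← h.uu_mul hD h1 h2, ← h.uu_mul hD h1 h3]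

lemma holV_chart {V : Type*} [NormedAddCommGroup V] [NormedSpace ℂ V] {f : X → V}
    {e : Chart n X} {x : X} (hx : At e x) (hf : HolV (Cm n) f x) :
    ContDiffAt ℂ ω (fun z => f (e.symm z)) (e x) := by
  rw [← contMDiffAt_iff_contDiffAt]
  refine ContMDiffAt.comp (e x) (g := f) ?_
    (chart_symm_contMDiffAt hx.1 hx.mem_target)
  rw [hx.left_inv]
  exact hf

/-- the line bundle `O(∑ k(D) D)` -/
def OL (h : IsSys n eqn T) (k : κ → ℕ) : LineBundle n X where
  ι := X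
  U := h.dom
  isOpen i := isOpen_interior
  cover x := ⟨x, h.self_mem_dom x⟩
  g i j x := ∏ D ∈ T, h.uu D i j x ^ k D
  holo i j e x hx hi hj := by
    have h1 : HolV (Cm n) (fun x => ∏ D ∈ T, h.uu D i j x ^ k D) x :=
      HolV.prod fun D hD => (h.uu_hol hD hi hj).pow _
    exact holV_chart hx h1
  ne_zero i j x hi hj := Finset.prod_ne_zero_iff.2 fun D hD => pow_ne_zero _ (h.uu_ne hD hi hj)
  cocycle i j l x hi hj hl := by
    rw [← Finset.prod_mul_distrib]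
    refine Finset.prod_congr rfl fun D hD => ?_
    rw [← mul_pow, h.uu_cocycle hD hi hj hl]

lemma GG_eq (h : IsSys n eqn T) (k : κ → ℕ) {i j x : X} (hi : x ∈ h.dom i) (hj : x ∈ h.dom j) :
    h.GG k i x = (h.OL k).g i j x * h.GG k j x := by
  show ∏ D ∈ T, h.gg D i x ^ k D = (∏ D ∈ T, h.uu D i j x ^ k D) * ∏ D ∈ T, h.gg D j x ^ k D
  rw [← Finset.prod_mul_distrib]
  refine Finset.prod_congr rfl fun D hD => ?_
  rw [h.uu_mul hD hi hj, mul_pow]

/-- the product of local equations, up to a unit -/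
lemma prod_unit (h : IsSys n eqn T) {k : κ → ℕ} (hk : ∀ D, k D ≠ 0 → D ∈ T) {T' : Finset κ}
    (hk' : ∀ D, k D ≠ 0 → D ∈ T') {g : κ → X → ℂ} {x : X} (hg : ∀ D ∈ T', eqn D x (g D)) {i : X}
    (hi : x ∈ h.dom i) : ∃ w, HolV (Cm n) w x ∧ w x ≠ 0 ∧
      ∀ᶠ z in 𝓝 x, ∏ D ∈ T', g D z ^ k D = w z * h.GG k i z := by
  classical
  have h1 : ∀ D ∈ T', D ∈ T → ∃ w, HolV (Cm n) w x ∧ w x ≠ 0 ∧
      ∀ᶠ z in 𝓝 x, g D z = w z * h.gg D i z := fun D hD hDT =>
    h.unit D x _ _ (hg D hD) (h.dom_spec hi hDT)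
  have h2 : ∀ D, ∃ w : X → ℂ, HolV (Cm n) w x ∧ w x ≠ 0 ∧
      ∀ᶠ z in 𝓝 x, k D ≠ 0 → g D z = w z * h.gg D i z := by
    intro D
    by_cases hkD : k D = 0
    · exact ⟨fun _ => 1, HolV.const 1 x, one_ne_zero, Eventually.of_forall fun z hz =>
        absurd hkD hz⟩
    · obtain ⟨w, hw, hw0, hev⟩ := h1 D (hk' D hkD) (hk D hkD)
      exact ⟨w, hw, hw0, hev.mono fun z hz _ => hz⟩
  choose w hw hw0 hev using h2
  refine ⟨fun z => ∏ D ∈ T, w D z ^ k D, HolV.prod fun D hD => (hw D).pow _,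
    Finset.prod_ne_zero_iff.2 fun D hD => pow_ne_zero _ (hw0 D), ?_⟩
  have h3 : ∀ᶠ z in 𝓝 x, ∀ D ∈ T, k D ≠ 0 → g D z = w D z * h.gg D i z := by
    rw [Filter.eventually_all_finset]
    exact fun D _ => hev D
  filter_upwards [h3] with z hz
  have h4 : ∏ D ∈ T', g D z ^ k D = ∏ D ∈ T, g D z ^ k D := by
    have e1 : ∏ D ∈ T', g D z ^ k D = ∏ D ∈ T' ∩ T, g D z ^ k D := by
      refine (Finset.prod_subset Finset.inter_subset_left fun D hD hD' => ?_).symm
      have : k D = 0 := by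
        by_contra hne
        exact hD' (Finset.mem_inter.2 ⟨hD, hk D hne⟩)
      rw [this, pow_zero]
    have e2 : ∏ D ∈ T, g D z ^ k D = ∏ D ∈ T' ∩ T, g D z ^ k D := by
      refine (Finset.prod_subset Finset.inter_subset_right fun D hD hD' => ?_).symm
      have : k D = 0 := by
        by_contra hne
        exact hD' (Finset.mem_inter.2 ⟨hk' D hne, hD⟩)
      rw [this, pow_zero]
    rw [e1, e2]
  rw [h4]
  show _ = (∏ D ∈ T, w D z ^ k D) * ∏ D ∈ T, h.gg D i z ^ k D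
  rw [← Finset.prod_mul_distrib]
  refine Finset.prod_congr rfl fun D hD => ?_
  by_cases hkD : k D = 0
  · rw [hkD, pow_zero, pow_zero, pow_zero, one_mul]
  · rw [hz D hD hkD, mul_pow]

/-- off the divisors, the product of local equations does not vanish -/
lemma prod_ne (h : IsSys n eqn T) {k : κ → ℕ} (hk : ∀ D, k D ≠ 0 → D ∈ T) {T' : Finset κ}
    {g : κ → X → ℂ} {x : X} (hg : ∀ D ∈ T', eqn D x (g D)) :
    ∀ᶠ z in 𝓝 x, z ∈ off eqn T → ∏ D ∈ T', g D z ^ k D ≠ 0 := by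
  have h1 : ∀ᶠ z in 𝓝 x, ∀ D ∈ T', eqn D z (g D) := by
    rw [Filter.eventually_all_finset]
    exact fun D hD => h.per D x (g D) (hg D hD)
  filter_upwards [h1] with z hz hzS
  refine Finset.prod_ne_zero_iff.2 fun D hD => ?_
  by_cases hkD : k D = 0
  · rw [hkD, pow_zero]; exact one_ne_zero
  · exact pow_ne_zero _ (hzS D (hk D hkD) _ (hz D hD))

end IsSys

end Vale.Agent.P281.H716
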