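import Vale.Agent.P281.H713.SA.Iface
import Vale.Agent.P285.TM.Defs

/-! P281, theorem SAL (`K_X` and `K_X + tΔ` semiample): the blocks of the proof, as propositions.
The case `Δ = 0` is theorem SA (`Vale.Agent.P281.H713.SA.Iface`). -/

open scoped Manifold ContDiff Topology ComplexOrder
open Set Filter Vale.Agent.P281.J Vale.Agent.P272.K Vale.Agent.P281.H713
open Vale.Agent.P284.H248 Vale.Agent.P285.TM
open Vale.Agent.P272.K.AMP (hess)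

noncomputable section

namespace Vale.Agent.P281.H716

open Vale.Agent.P299.D Vale.Agent.P281.H713.SA

universe u

/-! ### definitions used in the final statement -/

section

variable (E : Type) [NormedAddCommGroup E] [NormedSpace ℂ E] {X : Type u} [TopologicalSpace X]
  [ChartedSpace E X]

/-- The section `s` of `m (K_X + L)` (recorded as in `IsSection`) generates this line bundle at
`z₀`: `s * ∏ g_i ^ k(i) = a * (dz_1 ∧ ... ∧ dz_n) ^ m` near `z₀`, with `a(z₀) ≠ 0`. -/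
def Generates {ι : Type u} (eqn : ι → X → (X → ℂ) → Prop) (m : ℕ) (k : ι → ℕ) (s : X → ℂ)
    (z₀ : X) : Prop :=
  ∃ (T : Finset ι) (g : ι → X → ℂ) (a : X → ℂ), (∀ i, k i ≠ 0 → i ∈ T) ∧
    (∀ i ∈ T, eqn i z₀ (g i)) ∧ HolAt E a z₀ ∧ a z₀ ≠ 0 ∧
    ∀ᶠ z in 𝓝 z₀, ∏ i ∈ T, g i z ^ k i ≠ 0 → s z * ∏ i ∈ T, g i z ^ k i =
      a z * ContinuousLinearMap.det (mfderiv 𝓘(ℂ, E) 𝓘(ℂ, E) (chartAt E z₀) z : E →L[ℂ] E) ^ m

/-- `K_X + Δ` is semiample: for some `m > 0` with `m Δ` integral, the line bundle `m (K_X + Δ)` is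
generated by finitely many global sections `s b`. -/
def IsSemiamplePair (Δ : Set X → ℝ) : Prop :=
  ∃ (m N : ℕ) (k : Set X → ℕ) (s : Fin N → X → ℂ), 0 < m ∧ (∀ D, (k D : ℝ) = m * Δ D) ∧
    (∀ b, IsSection E (fun (D : Set X) z g => IsLocalEq E D g z) m k (s b)) ∧
    ∀ x, ∃ b, Generates E (fun (D : Set X) z g => IsLocalEq E D g z) m k (s b) x

end

/-! ### tensors with poles -/

/-- `τ` is a meromorphic section of the bundle of covariant q-tensors with poles of order at most `K D` along `D` -/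
structure IsTenP {n : ℕ} {X : Type} [TopologicalSpace X] [ChartedSpace (Cm n) X] (q : ℕ)
    (K : Set X → ℕ) (τ : Ten n q X) : Prop where
  holo : ∀ e x, At e x → ∀ (T : Finset (Set X)) (g : Set X → X → ℂ), (∀ D, K D ≠ 0 → D ∈ T) →
    (∀ D ∈ T, IsLocalEq (Cm n) D (g D) x) → ∀ I, ∃ a : Cm n → ℂ, AnalyticAt ℂ a (e x) ∧
      ∀ᶠ z in 𝓝 (e x), ∏ D ∈ T, g D (e.symm z) ^ K D ≠ 0 →
        τ e z I * ∏ D ∈ T, g D (e.symm z) ^ K D = a z
  change : ∀ e e' x, At e x → At e' x → (∀ D, K D ≠ 0 → x ∉ D) → ∀ I,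
    τ e (e x) I = tenPull (jacM e e' x) (τ e' (e' x)) I

/-- **Block TL** (tensors, with poles).  The pull-backs of the sections `σ` of `m (K_Y + B)`,
`B ≤ B(f, Δ')`, `Δ' = Δ|_Z`, by `f : X ⇢ Y` (holomorphic on the big open subset `Z` of `X`), are
meromorphic covariant tensors on `X` with poles `≤ m Δ`; in the chart `e` of `X` at the point `j z`
off the divisors `𝒢` and off `Δ` the tensor is `σ (f z) T e z`, where `T` does not depend on `σ`. -/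
def TensorPartL : Prop := ∀ (n p : ℕ) (X Z Y : Type)
  [TopologicalSpace X] [T2Space X] [CompactSpace X] [ConnectedSpace X]
  [ChartedSpace (Cm n) X] [IsManifold 𝓘(ℂ, Cm n) ω X]
  [TopologicalSpace Z] [ChartedSpace (Cm n) Z] [IsManifold 𝓘(ℂ, Cm n) ω Z]
  [TopologicalSpace Y] [T2Space Y] [ConnectedSpace Y]
  [ChartedSpace (Cm p) Y] [IsManifold 𝓘(ℂ, Cm p) ω Y]
  (j : Z → X) (_ : IsBigOpen (Cm n) j) (f : Z → Y) (_ : ContMDiff 𝓘(ℂ, Cm n) 𝓘(ℂ, Cm p) ω f)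
  (𝒢 : Set (Set Y)) (_ : IsDivisorial (Cm n) (Cm p) f 𝒢)
  (Δ : Set X → ℝ) (_ : IsSNC (Cm n) Δ) (Δ' : Set Z → ℝ) (_ : IsSNC (Cm n) Δ')
  (_ : IsRestriction j Δ Δ') (m : ℕ) (K : Set X → ℕ) (_ : ∀ D, (K D : ℝ) = m * Δ D)
  (k : Set Y → ℕ) (_ : ∀ G, (k G : ℝ) ≤ m * orbBase' (Cm n) (Cm p) f Δ' G)
  (_ : ∀ G, k G ≠ 0 → G ∈ 𝒢),
  ∃ (q : ℕ) (T : Chart n X → Z → (Fin q → Fin n) → ℂ),
    (∀ e z, At e (j z) → Function.Surjective (mfderiv 𝓘(ℂ, Cm n) 𝓘(ℂ, Cm p) f z) →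
      ∃ I, T e z I ≠ 0) ∧
    ∀ σ : Y → ℂ, IsSection (Cm p) (fun (D : Set Y) z g => IsLocalEq (Cm p) D g z) m k σ →
      ∃ τ : Ten n q X, IsTenP q K τ ∧
        ∀ e z, At e (j z) → f z ∉ ⋃₀ 𝒢 → (∀ D, Δ D ≠ 0 → j z ∉ D) →
          ∀ I, τ e (e (j z)) I = σ (f z) * T e z I

/-! ### line bundle valued tensors -/

/-- holomorphic sections of the bundle of L-valued covariant q-tensors -/
structure TSec {n : ℕ} {X : Type} [TopologicalSpace X] [ChartedSpace (Cm n) X]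
    (L : LineBundle n X) (q : ℕ) where
  f : L.ι → Ten n q X
  holo : ∀ i e x, At e x → x ∈ L.U i → ∀ I, AnalyticAt ℂ (fun z => f i e z I) (e x)
  change : ∀ i e e' x, At e x → At e' x → x ∈ L.U i → ∀ I,
    f i e (e x) I = tenPull (jacM e e' x) (f i e' (e' x)) I
  glue : ∀ i j e x, At e x → x ∈ L.U i → x ∈ L.U j → ∀ I,
    f i e (e x) I = L.g i j x * f j e (e x) I

/-- **Block XL** (Yau + Bochner).  `X` compact connected Kähler, `φ` a smooth metric on `K_X` with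
semipositive curvature, `L` a line bundle with a smooth metric, and `θ` a closed semipositive form,
of rank `≤ ν`, such that the curvature forms of `K_X` and `L` are `≤ C θ`; `τ1 = u τ0` proportional
holomorphic sections of the bundle of L-valued covariant q-tensors.  Then `du` vanishes on `ker θ` at the points where `θ` has
rank `ν` (and `τ0 ≠ 0`). -/
def XPartL : Prop := ∀ (n q : ℕ) (X : Type) [TopologicalSpace X] [T2Space X] [CompactSpace X]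
  [ConnectedSpace X] [ChartedSpace (Cm n) X] [IsManifold 𝓘(ℂ, Cm n) ω X]
  (χ : Chart n X → Cm n → Matrix (Fin n) (Fin n) ℂ) (_ : IsKahler χ)
  (φ : Chart n X → Cm n → ℝ) (_ : IsCanonicalMetric φ)
  (_ : ∀ e x, At e x → (cHess (φ e) (e x)).PosSemidef)
  (θ : Chart n X → Cm n → Matrix (Fin n) (Fin n) ℂ) (_ : INT.IsClosedForm θ)
  (_ : ∀ e x, At e x → (θ e (e x)).PosSemidef) (C : ℝ)
  (_ : ∀ e x, At e x → ((C : ℂ) • θ e (e x) - cHess (φ e) (e x)).PosSemidef)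
  (L : LineBundle n X) (ψ : L.ι → X → ℝ) (_ : Wt L ψ)
  (_ : ∀ i e x, At e x → x ∈ L.U i → ((C : ℂ) • θ e (e x) - hess (ψ i) e (e x)).PosSemidef)
  (ν : ℕ) (_ : ∀ e x, At e x → (θ e (e x)).rank ≤ ν)
  (τ0 τ1 : TSec L q)
  (_ : ∀ i e x, At e x → x ∈ L.U i → ∀ I J,
    τ0.f i e (e x) I * τ1.f i e (e x) J = τ0.f i e (e x) J * τ1.f i e (e x) I)
  (i : L.ι) (e : Chart n X) (x : X) (_ : At e x) (_ : x ∈ L.U i) (I : Fin q → Fin n)
  (_ : τ0.f i e (e x) I ≠ 0) (_ : (θ e (e x)).rank = ν) (v : Cm n)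
  (_ : ∀ j, ∑ i, v i * θ e (e x) i j = 0),
  fderiv ℂ (fun z => τ1.f i e z I / τ0.f i e z I) (e x) v = 0

/-- **Theorem SAL**. -/
def MainPartL : Prop := ∀ (n p d : ℕ) (_ : n = p + d) (X Z Y F : Type)
  [TopologicalSpace X] [T2Space X] [CompactSpace X] [ConnectedSpace X]
  [ChartedSpace (Cm n) X] [IsManifold 𝓘(ℂ, Cm n) ω X]
  [TopologicalSpace Z] [ChartedSpace (Cm n) Z] [IsManifold 𝓘(ℂ, Cm n) ω Z]
  [TopologicalSpace Y] [T2Space Y] [ConnectedSpace Y]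
  [ChartedSpace (Cm p) Y] [IsManifold 𝓘(ℂ, Cm p) ω Y]
  [TopologicalSpace F] [T2Space F] [CompactSpace F] [ConnectedSpace F]
  [ChartedSpace (Cm d) F] [IsManifold 𝓘(ℂ, Cm d) ω F]
  (χ : Chart n X → Cm n → Matrix (Fin n) (Fin n) ℂ) (_ : IsKahler χ)
  (Δ : Set X → ℝ) (_ : IsSNC (Cm n) Δ) (_ : IsSemiample (Cm n) X)
  (_ : ∃ t : ℝ, 0 < t ∧ t ≤ 1 ∧ IsSemiamplePair (Cm n) fun D : Set X => t * Δ D)
  (j : Z → X) (_ : IsBigOpen (Cm n) j) (f : Z → Y) (_ : ContMDiff 𝓘(ℂ, Cm n) 𝓘(ℂ, Cm p) ω f)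
  (𝒢 : Set (Set Y)) (_ : IsDivisorial (Cm n) (Cm p) f 𝒢)
  (Δ' : Set Z → ℝ) (_ : IsSNC (Cm n) Δ') (_ : IsRestriction j Δ Δ')
  (_ : ∀ G, orbBase' (Cm n) (Cm p) f Δ' G ≠ 0 → G ∈ 𝒢)
  (i : F → Z) (_ : IsSmoothFibre (Cm n) (Cm p) (Cm d) f i)
  (_ : ∀ D, Δ D ≠ 0 → ∃ t, j (i t) ∉ D),
  kod (Cm d) (fun (D : Set X) t g => ∃ e, IsLocalEq (Cm n) D e (j (i t)) ∧
      ∀ᶠ t' in 𝓝 t, g t' = e (j (i t'))) Δ +
    kod (Cm p) (fun (G : Set Y) y g => IsLocalEq (Cm p) G g y) (orbBase' (Cm n) (Cm p) f Δ') ≤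
    kod (Cm n) (fun (D : Set X) x g => IsLocalEq (Cm n) D g x) Δ

end Vale.Agent.P281.H716
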