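import Vale.Agent.P281.H716.Met

/-! P281, theorem SAL: the independence of the differentials of ratios of sections is a dense
condition. -/

open scoped Manifold ContDiff Topology ComplexOrder Matrix
open Set Filter Metric Vale.Agent.P281 Vale.Agent.P272.K
open Vale.Agent.P281.H949.SA

set_option linter.all false

noncomputable section

namespace Vale.Agent.P281.H716

section lin

variable {n a : ℕ}

/-- covectors are independent if and only if a minor does not vanish -/
theorem indep_iff_minor (W : Fin a → (Cm n →L[ℂ] ℂ)) : LinearIndependent ℂ W ↔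
    ∃ J : Fin a → Fin n, (Matrix.of fun b l => W b (Pi.single (J l) 1)).det ≠ 0 := by
  classical
  constructor
  · intro h
    by_contra hcon
    push Not at hcon
    set L : Cm n →ₗ[ℂ] (Fin a → ℂ) := LinearMap.pi fun b => (W b : Cm n →ₗ[ℂ] ℂ) with hL
    set D : MultilinearMap ℂ (fun _ : Fin a => Cm n) ℂ :=
      (Matrix.detRowAlternating (R := ℂ) (n := Fin a)).toMultilinearMap.compLinearMap
        (fun _ => L) with hD
    have hDv : ∀ v, D v = (Matrix.of fun b l => W b (v l)).det := by
      intro v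
      rw [← Matrix.det_transpose]
      rfl
    have h0 : D = 0 := by
      refine Module.Basis.ext_multilinear (fun _ => Pi.basisFun ℂ (Fin n)) fun v => ?_
      rw [hDv]
      simp only [Pi.basisFun_apply]
      exact hcon v
    have hs := JB.surjective_of_linearIndependent h
    choose v hv using fun l : Fin a => hs (Pi.single l 1)
    have h1 : D v = 1 := by
      rw [hDv]
      have h2 : (Matrix.of fun b l => W b (v l)) = (1 : Matrix (Fin a) (Fin a) ℂ) := by
        ext b l
        rw [Matrix.of_apply, Matrix.one_apply]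
        have h3 := congrFun (hv l) b
        simp only [Pi.single_apply] at h3
        exact h3
      rw [h2, Matrix.det_one]
    rw [h0] at h1
    exact zero_ne_one h1
  · rintro ⟨J, hJ⟩
    rw [Fintype.linearIndependent_iff]
    intro g hg
    have h1 : Matrix.vecMul g (Matrix.of fun b l => W b (Pi.single (J l) 1)) = 0 := by
      funext l
      have h2 := congrArg (fun A : Cm n →L[ℂ] ℂ => A (Pi.single (J l) 1)) hg
      simp only [_root_.sum_apply, ContinuousLinearMap.zero_apply] at h2
      rw [Pi.zero_apply, ← h2]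
      rfl
    have h3 := Matrix.eq_zero_of_vecMul_eq_zero hJ h1
    exact fun i => congrFun h3 i

theorem indep_comp_iff {W : Fin a → (Cm n →L[ℂ] ℂ)} {M : Cm n →L[ℂ] Cm n} (hM : M.det ≠ 0) {c : ℂ}
    (hc : c ≠ 0) : LinearIndependent ℂ (fun b => (c • W b).comp M) ↔ LinearIndependent ℂ W := by
  set Φ : (Cm n →L[ℂ] ℂ) →ₗ[ℂ] (Cm n →L[ℂ] ℂ) :=
    { toFun := fun A => (c • A).comp M
      map_add' := fun A B => by ext v; simp [mul_add]
      map_smul' := fun t A => by ext v; simp [mul_left_comm] } with hΦ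
  have hinj : LinearMap.ker Φ = ⊥ := by
    rw [LinearMap.ker_eq_bot']
    intro A hA
    have hMs : Function.Surjective M := by
      have h1 : IsUnit (LinearMap.det (M : Cm n →ₗ[ℂ] Cm n)) := isUnit_iff_ne_zero.2 hM
      exact (LinearMap.equivOfDetNeZero (M : Cm n →ₗ[ℂ] Cm n) hM).surjective
    refine ContinuousLinearMap.ext fun v => ?_
    obtain ⟨w, hw⟩ := hMs v
    have h2 := congrArg (fun B : Cm n →L[ℂ] ℂ => B w) hA
    have h3 : c * A (M w) = 0 := h2
    rw [hw] at h3
    exact (mul_eq_zero.1 h3).resolve_left hc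
  exact Φ.linearIndependent_iff hinj (v := W)

end lin

section dens

variable {E : Type} [NormedAddCommGroup E] [NormedSpace ℂ E]
  {X : Type} [TopologicalSpace X] [ChartedSpace E X] [IsManifold 𝓘(ℂ, E) ω X]
  {V : Type*} [NormedAddCommGroup V] [NormedSpace ℂ V] [CompleteSpace V]

/-- identity theorem: a nonempty set which is locally the nonvanishing set of a holomorphic
map is dense. -/
theorem dense_of_localV [PreconnectedSpace X] {S : Set X} (hne : S.Nonempty)
    (h : ∀ x, ∃ θ : X → V, HolV E θ x ∧ ∀ᶠ z in 𝓝 x, z ∈ S ↔ θ z ≠ 0) : Dense S := by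
  have hZ : IsClopen (interior Sᶜ) := by
    refine ⟨?_, isOpen_interior⟩
    refine isClosed_of_closure_subset fun x hx => ?_
    obtain ⟨θ, hθ, hS⟩ := h x
    rw [mem_interior_iff_mem_nhds]
    have hxs : x ∈ (chartAt E x).source := mem_chart_source E x
    have han : AnalyticAt ℂ (θ ∘ (chartAt E x).symm) (chartAt E x x) :=
      (hθ.rep hxs).analyticAt
    obtain ⟨ρ, hρ, hball⟩ := Metric.mem_nhds_iff.1
      (inter_mem han.eventually_analyticAt
        ((chartAt E x).open_target.mem_nhds ((chartAt E x).map_source hxs)))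
    -- neighbourhood in `X`
    obtain ⟨V, hV, hVo, hxV⟩ := eventually_nhds_iff.1 hS
    have hcs : ContinuousOn (chartAt E x).symm (chartAt E x).target :=
      (chartAt E x).continuousOn_symm
    have hev : ∀ᶠ w in 𝓝 (chartAt E x x), (chartAt E x).symm w ∈ V := by
      have hc : ContinuousAt (chartAt E x).symm (chartAt E x x) :=
        (chartAt E x).continuousAt_symm ((chartAt E x).map_source hxs)
      exact hc.eventually (by rw [(chartAt E x).left_inv hxs]; exact hVo.mem_nhds hxV)
    obtain ⟨ρ', hρ', hball'⟩ := Metric.mem_nhds_iff.1 hev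
    set σ := min ρ ρ' with hσ
    have hσpos : 0 < σ := lt_min hρ hρ'
    have hsub1 : ball (chartAt E x x) σ ⊆ ball (chartAt E x x) ρ :=
      ball_subset_ball (min_le_left _ _)
    have hsub2 : ball (chartAt E x x) σ ⊆ ball (chartAt E x x) ρ' :=
      ball_subset_ball (min_le_right _ _)
    have hana : AnalyticOnNhd ℂ (θ ∘ (chartAt E x).symm) (ball (chartAt E x x) σ) :=
      fun w hw => (hball (hsub1 hw)).1
    -- a point of `interior Sᶜ` in the neighbourhood
    have hN : (chartAt E x).source ∩ (chartAt E x) ⁻¹' (ball (chartAt E x x) σ) ∈ 𝓝 x :=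
      inter_mem ((chartAt E x).open_source.mem_nhds hxs)
        (((chartAt E x).continuousAt hxs).preimage_mem_nhds (ball_mem_nhds _ hσpos))
    obtain ⟨w, ⟨hws, hwb⟩, hwi⟩ := mem_closure_iff_nhds.1 hx _ hN
    have hzero : (θ ∘ (chartAt E x).symm) =ᶠ[𝓝 (chartAt E x w)] 0 := by
      have hc : ContinuousAt (chartAt E x).symm (chartAt E x w) :=
        (chartAt E x).continuousAt_symm ((chartAt E x).map_source hws)
      have h1 : ∀ᶠ v in 𝓝 (chartAt E x w), (chartAt E x).symm v ∈ interior Sᶜ :=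
        hc.eventually (by rw [(chartAt E x).left_inv hws]; exact isOpen_interior.mem_nhds hwi)
      have h2 : ∀ᶠ v in 𝓝 (chartAt E x w), v ∈ ball (chartAt E x x) σ :=
        isOpen_ball.mem_nhds hwb
      filter_upwards [h1, h2] with v hv1 hv2
      have hvV : (chartAt E x).symm v ∈ V := hball' (hsub2 hv2)
      have := (hV _ hvV)
      by_contra hne0
      exact (interior_subset hv1) (this.2 hne0)
    have hall := hana.eqOn_zero_of_preconnected_of_eventuallyEq_zero
      (convex_ball _ _).isPreconnected hwb hzero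
    filter_upwards [hN, hVo.mem_nhds hxV] with z hz hzV
    intro hzS
    have h3 := hall hz.2
    have h4 := (hV z hzV).1 hzS
    apply h4
    simpa [(chartAt E x).left_inv hz.1] using h3
  rcases isClopen_iff.1 hZ with h0 | h1
  · rwa [interior_eq_empty_iff_dense_compl, compl_compl] at h0
  · exfalso
    obtain ⟨x, hx⟩ := hne
    have : x ∈ interior Sᶜ := by rw [h1]; trivial
    exact (interior_subset this) hx

end dens

section ind

variable {n : ℕ} {X : Type} [TopologicalSpace X] [ChartedSpace (Cm n) X]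

/-- the ratios `s b / s 0` have independent differentials at `x` -/
def Ind (n : ℕ) {X : Type} [TopologicalSpace X] [ChartedSpace (Cm n) X] {a : ℕ}
    (s : Fin (a + 1) → X → ℂ) (x : X) : Prop :=
  s 0 x ≠ 0 ∧ LinearIndependent ℂ fun b : Fin a => dV (Cm n) (fun w => s b.succ w / s 0 w) x

variable [IsManifold 𝓘(ℂ, Cm n) ω X]

/-- the differential in a chart -/
theorem dV_eq_fderiv {V : Type*} [NormedAddCommGroup V] [NormedSpace ℂ V] {e : Chart n X} {x : X}
    (he : At e x) {u : X → V} (hu : HolV (Cm n) u x) :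
    dV (Cm n) u x = (fderiv ℂ (fun z => u (e.symm z)) (e x)).comp (De e x) := by
  have h1 : u =ᶠ[𝓝 x] fun y => (fun z => u (e.symm z)) (e y) := by
    filter_upwards [e.open_source.mem_nhds he.2] with y hy
    show u y = u (e.symm (e y))
    rw [e.left_inv hy]
  rw [dV_congr h1]
  exact dV_comp_contDiff (IsSys.holV_chart he hu) (chart_contMDiffAt he)

/-- the Wronskian covectors -/
def WW {a : ℕ} (A : Fin (a + 1) → Cm n → ℂ) (b : Fin a) (w : Cm n) : Cm n →L[ℂ] ℂ :=
  A 0 w • fderiv ℂ (A b.succ) w - A b.succ w • fderiv ℂ (A 0) w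

omit [IsManifold 𝓘(ℂ, Cm n) ω X] in
lemma fderiv_ratio {a : ℕ} {A : Fin (a + 1) → Cm n → ℂ} {w : Cm n}
    (hA : ∀ b, DifferentiableAt ℂ (A b) w) (h0 : A 0 w ≠ 0) (b : Fin a) :
    fderiv ℂ (fun z => A b.succ z / A 0 z) w = ((A 0 w ^ 2)⁻¹) • WW A b w := by
  have h1 : HasFDerivAt (fun z => (A 0 z)⁻¹) (-((A 0 w ^ 2)⁻¹) • fderiv ℂ (A 0) w) w :=
    (hasDerivAt_inv h0).comp_hasFDerivAt w (hA 0).hasFDerivAt
  have h2 : (fun z => A b.succ z / A 0 z) = fun z => A b.succ z * (A 0 z)⁻¹ := by
    funext z; rw [div_eq_mul_inv]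
  have h3 := ((hA b.succ).hasFDerivAt.mul h1).fderiv
  rw [h2]
  refine h3.trans ?_
  unfold WW
  ext v
  simp
  field_simp
  ring

namespace IsSys

variable {κ : Type} {eqn : κ → X → (X → ℂ) → Prop} {T : Finset κ} {k : κ → ℕ} {m : ℕ}

theorem ind_iff (h : IsSys n eqn T) (hk : ∀ D, k D ≠ 0 → D ∈ T) {a : ℕ} {s : Fin (a + 1) → X → ℂ}
    (hs : ∀ b, J.IsSection (Cm n) eqn m k (s b)) {i x : X} (hi : x ∈ h.dom i) {e : Chart n X}
    (he : At e x) (hx : x ∈ off eqn T) :
    Ind n s x ↔ cR eqn T (h.GG k i) m (s 0) e x ≠ 0 ∧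
      LinearIndependent ℂ fun b : Fin a => WW (fun b w => cR eqn T (h.GG k i) m (s b) e (e.symm w))
        b (e x) := by
  set A : Fin (a + 1) → Cm n → ℂ := fun b w => cR eqn T (h.GG k i) m (s b) e (e.symm w) with hA
  have hAx : ∀ b, A b (e x) = cR eqn T (h.GG k i) m (s b) e x := fun b => by
    simp only [hA, he.left_inv]
  have h1 : s 0 x ≠ 0 ↔ cR eqn T (h.GG k i) m (s 0) e x ≠ 0 := by
    rw [h.cR_eq hk (hs 0) hi he hx, div_ne_zero_iff, mul_ne_zero_iff]
    exact ⟨fun h0 => ⟨⟨h0, h.GG_ne hi hx k⟩, pow_ne_zero _ (dj_ne_zero he)⟩, fun h0 => h0.1.1⟩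
  have hAd : ∀ b, ContDiffAt ℂ ω (A b) (e x) := fun b => holV_chart he (h.cR_hol hk (hs b) hi he)
  unfold Ind
  rw [h1]
  refine and_congr_right fun h0 => ?_
  have hA0 : A 0 (e x) ≠ 0 := by rw [hAx]; exact h0
  have h5 : Tendsto e.symm (𝓝 (e x)) (𝓝 x) := by
    have := e.continuousAt_symm he.mem_target
    rwa [ContinuousAt, he.left_inv] at this
  have hu : ∀ b : Fin a, (fun z => s b.succ (e.symm z) / s 0 (e.symm z)) =ᶠ[𝓝 (e x)]
      fun z => A b.succ z / A 0 z := by
    intro b
    filter_upwards [he.nhds_target, h5.eventually (h.dom_ev hi),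
      h5.eventually (h.isOpen_off.mem_nhds hx)] with z h6 h7 h8
    have h9 := At.of_target he.1 h6
    simp only [hA]
    rw [h.cR_eq hk (hs _) h7 h9 h8, h.cR_eq hk (hs _) h7 h9 h8,
      div_div_div_cancel_right₀ (pow_ne_zero _ (dj_ne_zero h9)),
      mul_div_mul_right _ _ (h.GG_ne h7 h8 k)]
  have huh : ∀ b : Fin a, HolV (Cm n) (fun w => s b.succ w / s 0 w) x := by
    intro b
    have h2 : HolV (Cm n) (fun y => (fun z => A b.succ z / A 0 z) (e y)) x :=
      HolV.comp_contDiff (G := fun z => A b.succ z / A 0 z) ((hAd _).div (hAd _) hA0)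
        (chart_contMDiffAt he)
    refine h2.congr ?_
    have h3 : Tendsto e (𝓝 x) (𝓝 (e x)) := e.continuousAt he.2
    filter_upwards [h3.eventually (hu b), e.open_source.mem_nhds he.2] with y hy hys
    rw [e.left_inv hys] at hy
    exact hy
  have h7 : (fun b : Fin a => dV (Cm n) (fun w => s b.succ w / s 0 w) x) =
      fun b : Fin a => (((A 0 (e x)) ^ 2)⁻¹ • WW A b (e x)).comp (De e x) := by
    funext b
    rw [dV_eq_fderiv he (huh b), (hu b).fderiv_eq,
      fderiv_ratio (fun b => (hAd b).differentiableAt (by simp)) hA0]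
  rw [h7]
  exact indep_comp_iff (dj_ne_zero he) (inv_ne_zero (pow_ne_zero _ hA0))

theorem dense_ind [PreconnectedSpace X] (h : IsSys n eqn T) (hk : ∀ D, k D ≠ 0 → D ∈ T) {a : ℕ}
    {s : Fin (a + 1) → X → ℂ} (hs : ∀ b, J.IsSection (Cm n) eqn m k (s b))
    (hne : ∃ x ∈ off eqn T, Ind n s x) :
    Dense {x | x ∈ off eqn T ∧ Ind n s x} ∧ IsOpen {x | x ∈ off eqn T ∧ Ind n s x} := by
  have key : ∀ x, ∃ θ : X → ((Fin a → Fin n) → ℂ), HolV (Cm n) θ x ∧
      ∀ᶠ z in 𝓝 x, z ∈ {x | x ∈ off eqn T ∧ Ind n s x} ↔ θ z ≠ 0 := by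
    intro x
    set e : Chart n X := chartAt (Cm n) x with hed
    have he : At e x := ⟨chart_mem_atlas _ _, mem_chart_source _ _⟩
    set A : Fin (a + 1) → Cm n → ℂ := fun b w => cR eqn T (h.GG k x) m (s b) e (e.symm w) with hA
    have hAd : ∀ b, ContDiffAt ℂ ω (A b) (e x) := fun b =>
      holV_chart he (h.cR_hol hk (hs b) (h.self_mem_dom x) he)
    have hW : ∀ b, ContDiffAt ℂ ω (WW A b) (e x) := fun b =>
      ((hAd 0).smul ((hAd b.succ).fderiv_right (m := ω) (by simp))).sub
        ((hAd b.succ).smul ((hAd 0).fderiv_right (m := ω) (by simp)))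
    have hP : HolV (Cm n) (fun z => ∏ D ∈ T, h.gg D x z) x :=
      HolV.prod fun D hD => h.holV_gg (h.self_mem_dom x) hD
    refine ⟨fun z J => (∏ D ∈ T, h.gg D x z) * (A 0 (e z) *
      (Matrix.of fun b l => WW A b (e z) (Pi.single (J l) 1)).det), ?_, ?_⟩
    · refine HolV.piF fun J => hP.mul ?_
      refine HolV.comp_contDiff (G := fun w => A 0 w *
        (Matrix.of fun b l => WW A b w (Pi.single (J l) 1)).det) ((hAd 0).mul ?_)
        (chart_contMDiffAt he)
      have h2 : (fun w => (Matrix.of fun (b l : Fin a) => WW A b w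
          (Pi.single (J l) 1 : Cm n)).det) = fun w => ∑ σ : Equiv.Perm (Fin a),
          ((Equiv.Perm.sign σ : ℤ) : ℂ) * ∏ i, WW A (σ i) w (Pi.single (J i) 1) := by
        funext q
        rw [Matrix.det_apply']
        rfl
      rw [h2]
      exact ContDiffAt.sum fun σ _ => contDiffAt_const.mul (contDiffAt_prod fun i _ =>
        (hW (σ i)).clm_apply contDiffAt_const)
    · filter_upwards [at_ev he, h.dom_ev (h.self_mem_dom x)] with z h1 h2
      have hAz : A 0 (e z) = cR eqn T (h.GG k x) m (s 0) e z := by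
        simp only [hA, h1.left_inv]
      constructor
      · rintro ⟨h3, h4⟩ h0
        have h5 := (h.off_iff h2).1 h3
        obtain ⟨h6, h7⟩ := (h.ind_iff hk hs h2 h1 h3).1 h4
        obtain ⟨J, hJ⟩ := (indep_iff_minor _).1 h7
        have h8 := congrFun h0 J
        rw [← hAz] at h6
        exact mul_ne_zero h5 (mul_ne_zero h6 hJ) h8
      · intro h0
        obtain ⟨J, hJ⟩ := Function.ne_iff.1 h0
        have h5 := left_ne_zero_of_mul hJ
        have h6 := right_ne_zero_of_mul hJ
        have h7 := left_ne_zero_of_mul h6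
        have h8 := right_ne_zero_of_mul h6
        have h3 := (h.off_iff h2).2 h5
        rw [hAz] at h7
        exact ⟨h3, (h.ind_iff hk hs h2 h1 h3).2 ⟨h7, (indep_iff_minor _).2 ⟨J, h8⟩⟩⟩
  refine ⟨dense_of_localV hne key, ?_⟩
  rw [isOpen_iff_mem_nhds]
  intro x hx
  obtain ⟨θ, h1, h2⟩ := key x
  filter_upwards [h2, h1.continuousAt.eventually_ne (h2.self_of_nhds.1 hx)] with z h3 h4
  exact h3.2 h4

end IsSys

end ind

end Vale.Agent.P281.H716
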