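import Vale.Agent.P281.H716.DenseV

/-! P281, theorem SAL: linear algebra. -/

open scoped Manifold ContDiff Topology ComplexOrder Matrix
open Set Filter Vale.Agent.P281 Vale.Agent.P272.K

set_option linter.all false

noncomputable section

namespace Vale.Agent.P281.H716

variable {n : ℕ}

/-- the kernel of `v ↦ vᵀ H` -/
def KH (H : Matrix (Fin n) (Fin n) ℂ) : Submodule ℂ (Cm n) := LinearMap.ker Hᵀ.mulVecLin

lemma mem_KH {H : Matrix (Fin n) (Fin n) ℂ} {v : Cm n} :
    v ∈ KH H ↔ ∀ j, ∑ i, v i * H i j = 0 := by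
  rw [KH, LinearMap.mem_ker, Matrix.mulVecLin_apply, funext_iff]
  refine forall_congr' fun j => ?_
  have h : (Hᵀ *ᵥ v) j = ∑ i, v i * H i j := by
    simp only [Matrix.mulVec, dotProduct, Matrix.transpose_apply]
    exact Finset.sum_congr rfl fun i _ => mul_comm _ _
  rw [h, Pi.zero_apply]

lemma finrank_KH (H : Matrix (Fin n) (Fin n) ℂ) :
    H.rank + Module.finrank ℂ (KH H) = n := by
  have h := LinearMap.finrank_range_add_finrank_ker Hᵀ.mulVecLin
  have h2 : Module.finrank ℂ (LinearMap.range Hᵀ.mulVecLin) = H.rank := by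
    rw [← Matrix.rank_transpose H]; rfl
  rw [h2] at h
  rw [KH, h]
  exact Module.finrank_fin_fun ℂ

/-- the common kernel of independent covectors -/
lemma finrank_common {ν : ℕ} {B : Fin ν → (Cm n →L[ℂ] ℂ)} (hB : LinearIndependent ℂ B) :
    ν + Module.finrank ℂ (⨅ l, LinearMap.ker (B l : Cm n →ₗ[ℂ] ℂ) : Submodule ℂ (Cm n)) = n := by
  set Φ : Cm n →ₗ[ℂ] (Fin ν → ℂ) := LinearMap.pi fun b => (B b : Cm n →ₗ[ℂ] ℂ) with hΦ
  have hs : Function.Surjective Φ := JB.surjective_of_linearIndependent hB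
  have h := LinearMap.finrank_range_add_finrank_ker Φ
  rw [LinearMap.range_eq_top.2 hs, finrank_top, Module.finrank_fin_fun, Module.finrank_fin_fun] at h
  rw [← LinearMap.ker_pi]
  exact h

theorem span_of_kills {ν : ℕ} {B : Fin ν → (Cm n →L[ℂ] ℂ)} (hB : LinearIndependent ℂ B)
    {H : Matrix (Fin n) (Fin n) ℂ} (hH : H.rank ≤ ν) (hk : ∀ l, ∀ v ∈ KH H, B l v = 0) :
    H.rank = ν ∧ ∀ A : Cm n →L[ℂ] ℂ, (∀ v ∈ KH H, A v = 0) →
      A ∈ Submodule.span ℂ (range B) := by
  set Kb : Submodule ℂ (Cm n) := ⨅ l, LinearMap.ker (B l : Cm n →ₗ[ℂ] ℂ) with hKb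
  have h1 := finrank_KH H
  have h2 := finrank_common hB
  have hle : KH H ≤ Kb := by
    intro v hv
    rw [hKb, Submodule.mem_iInf]
    exact fun l => hk l v hv
  have h3 := Submodule.finrank_mono hle
  have hrk : H.rank = ν := by
    rw [← hKb] at h2
    omega
  have heq : KH H = Kb := Submodule.eq_of_le_of_finrank_eq hle (by rw [← hKb] at h2; omega)
  refine ⟨hrk, fun A hA => ?_⟩
  have h4 : (A : Cm n →ₗ[ℂ] ℂ) ∈ Submodule.span ℂ (range fun l => (B l : Cm n →ₗ[ℂ] ℂ)) := by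
    refine mem_span_of_iInf_ker_le_ker ?_
    intro v hv
    exact hA v (heq ▸ hv)
  obtain ⟨c, hc⟩ := (Submodule.mem_span_range_iff_exists_fun ℂ).1 h4
  refine (Submodule.mem_span_range_iff_exists_fun ℂ).2 ⟨c, ?_⟩
  refine ContinuousLinearMap.ext fun v => ?_
  have h5 := congrArg (fun g : Cm n →ₗ[ℂ] ℂ => g v) hc
  simp only [LinearMap.sum_apply, LinearMap.smul_apply, ContinuousLinearMap.coe_coe] at h5
  simp only [_root_.sum_apply, ContinuousLinearMap.smul_apply]
  exact h5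

theorem exists_indep {ι : Type} [Finite ι] (B : ι → (Cm n →L[ℂ] ℂ))
    {H : Matrix (Fin n) (Fin n) ℂ} (hk : ∀ v, v ∈ KH H ↔ ∀ i, B i v = 0) :
    ∃ g : Fin H.rank → ι, LinearIndependent ℂ fun l => B (g l) := by
  obtain ⟨κ, a, ha, hspan, hind⟩ := exists_linearIndependent' ℂ B
  haveI : Finite κ := Finite.of_injective a ha
  obtain ⟨ν', ⟨f⟩⟩ := Finite.exists_equiv_fin κ
  have hi2 : LinearIndependent ℂ fun l : Fin ν' => B (a (f.symm l)) :=
    hind.comp f.symm f.symm.injective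
  have h2 := finrank_common hi2
  have heq : KH H = ⨅ l, LinearMap.ker (B (a (f.symm l)) : Cm n →ₗ[ℂ] ℂ) := by
    ext v
    rw [hk, Submodule.mem_iInf]
    constructor
    · exact fun h l => h _
    · intro h i
      have h3 : B i ∈ Submodule.span ℂ (range (B ∘ a)) := by
        rw [hspan]; exact Submodule.subset_span ⟨i, rfl⟩
      have h4 : ∀ A ∈ Submodule.span ℂ (range (B ∘ a)), A v = 0 := by
        intro A hA
        induction hA using Submodule.span_induction with
        | mem A hA =>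
          obtain ⟨j, rfl⟩ := hA
          have := h (f j)
          rw [f.symm_apply_apply] at this
          exact this
        | zero => rfl
        | add A A' _ _ h1 h2 => rw [ContinuousLinearMap.add_apply, h1, h2, add_zero]
        | smul c A _ h1 => rw [ContinuousLinearMap.smul_apply, h1, smul_zero]
      exact h4 _ h3
  have h1 := finrank_KH H
  rw [heq] at h1
  have h5 : H.rank = ν' := by omega
  rw [h5]
  exact ⟨fun l => a (f.symm l), hi2⟩

/-- the rank is lower semicontinuous -/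
theorem rank_lsc {α : Type*} [TopologicalSpace α] {θ : α → Matrix (Fin n) (Fin n) ℂ} {z : α}
    (hθ : ∀ i j, ContinuousAt (fun w => θ w i j) z) {r : ℕ} (hr : r ≤ (θ z).rank) :
    ∀ᶠ w in 𝓝 z, r ≤ (θ w).rank := by
  set Λ : Matrix (Fin n) (Fin n) ℂ →ₗ[ℂ] (Cm n →L[ℂ] Cm n) :=
    (LinearMap.toContinuousLinearMap (𝕜 := ℂ) (E := Cm n) (F' := Cm n)).toLinearMap ∘ₗ
      (Matrix.toLin' (R := ℂ) (m := Fin n) (n := Fin n)).toLinearMap with hΛ
  have hc : Continuous Λ := LinearMap.continuous_of_finiteDimensional Λ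
  have h1 : ∀ A : Matrix (Fin n) (Fin n) ℂ, ∀ s : ℕ, (s : Cardinal) ≤
      ((Λ A : Cm n →L[ℂ] Cm n) : Cm n →ₗ[ℂ] Cm n).rank ↔ s ≤ A.rank := by
    intro A s
    have h2 : ((Λ A : Cm n →L[ℂ] Cm n) : Cm n →ₗ[ℂ] Cm n) = A.mulVecLin := rfl
    rw [h2, Matrix.rank, LinearMap.rank, ← Module.finrank_eq_rank, Nat.cast_le]
  have h2 : ContinuousAt (fun w => Λ (θ w)) z := by
    refine hc.continuousAt.comp ?_
    exact continuousAt_pi.2 fun i => continuousAt_pi.2 fun j => hθ i j
  have h3 := (isOpen_setOfPred_nat_le_rank (𝕜 := ℂ) (E := Cm n) (F := Cm n) r).mem_nhds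
    (x := Λ (θ z)) ((h1 _ _).2 hr)
  filter_upwards [h2.eventually h3] with w hw
  exact (h1 _ _).1 hw

end Vale.Agent.P281.H716
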