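import Vale.Agent.P281.H716.MainB

/-! P281: the abstract main part, from the constancy of the quotients of sections. -/

open scoped Manifold ContDiff Topology ComplexOrder Matrix
open Set Filter Vale.Agent.P281 Vale.Agent.P272.K Vale.Agent.P299.D
open Vale.Agent.P281.H949.SA Vale.Agent.P281.H716.IsSys Vale.Agent.P281.MF Vale.Agent.P281.ISO

set_option linter.all false

noncomputable section

namespace Vale.Agent.P281.H716

/-- the quotients `σ₁ / σ₀` of sections of `m₂ (K_Y + B)`, `B ≤ B(f, Δ')`, composed with `f`, are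
constant along the common kernel of the differentials of the `P a / P a₀`, at the points of `R` -/
def ConstY (n p : ℕ) {X Z Y : Type} [TopologicalSpace X] [ChartedSpace (Cm n) X]
    [TopologicalSpace Z] [ChartedSpace (Cm n) Z] [TopologicalSpace Y] [ChartedSpace (Cm p) Y]
    (j : Z → X) (f : Z → Y) (𝒢 : Set (Set Y)) (Δ : Set X → ℝ) (Δ' : Set Z → ℝ) {ι : Type}
    (P : ι → X → ℂ) (R : Set X) : Prop :=
  ∀ (m : ℕ) (k : Set Y → ℕ) (K : Set X → ℕ), 0 < m → (∀ D, (K D : ℝ) = m * Δ D) →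
    (∀ G, (k G : ℝ) ≤ m * J.orbBase' (Cm n) (Cm p) f Δ' G) → (∀ G, k G ≠ 0 → G ∈ 𝒢) →
    ∀ σ₀ σ₁ : Y → ℂ, J.IsSection (Cm p) (eqL p) m k σ₀ → J.IsSection (Cm p) (eqL p) m k σ₁ →
    ∀ z : Z, j z ∈ R → (∀ D, Δ D ≠ 0 → j z ∉ D) → f z ∉ ⋃₀ 𝒢 →
    Function.Surjective (dM (Cm n) (Cm p) f z) → σ₀ (f z) ≠ 0 → ∀ a₀, P a₀ (j z) ≠ 0 →
    ∀ v : Cm n, (∀ a, dif (Cm n) (fun w => P a w / P a₀ w) (j z) (dM (Cm n) (Cm n) j z v) = 0) →
    dif (Cm n) (fun z => σ₁ (f z) / σ₀ (f z)) z v = 0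

variable {n p d : ℕ} {X Z Y F : Type}
  [TopologicalSpace X] [T2Space X] [CompactSpace X] [ConnectedSpace X]
  [ChartedSpace (Cm n) X] [IsManifold 𝓘(ℂ, Cm n) ω X]
  [TopologicalSpace Z] [ChartedSpace (Cm n) Z] [IsManifold 𝓘(ℂ, Cm n) ω Z]
  [TopologicalSpace Y] [T2Space Y] [ConnectedSpace Y]
  [ChartedSpace (Cm p) Y] [IsManifold 𝓘(ℂ, Cm p) ω Y]
  [TopologicalSpace F] [T2Space F] [CompactSpace F] [ConnectedSpace F]
  [ChartedSpace (Cm d) F] [IsManifold 𝓘(ℂ, Cm d) ω F]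

theorem main_absP (hnpd : n = p + d) {Δ : Set X → ℝ} (hΔ : J.IsSNC (Cm n) Δ)
    {j : Z → X} (hj : J.IsBigOpen (Cm n) j) {f : Z → Y}
    (hf : ContMDiff 𝓘(ℂ, Cm n) 𝓘(ℂ, Cm p) ω f) {𝒢 : Set (Set Y)}
    (h𝒢 : J.IsDivisorial (Cm n) (Cm p) f 𝒢) {Δ' : Set Z → ℝ} (hΔ' : J.IsSNC (Cm n) Δ')
    (hres : J.IsRestriction j Δ Δ') (hbase : ∀ G, J.orbBase' (Cm n) (Cm p) f Δ' G ≠ 0 → G ∈ 𝒢)
    {i : F → Z} (hi : H713.IsSmoothFibre (Cm n) (Cm p) (Cm d) f i)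
    (hne : ∀ D, Δ D ≠ 0 → ∃ t, j (i t) ∉ D)
    {ι : Type} [Finite ι] {mP : ℕ} (hmP : 0 < mP) {kP : Set X → ℕ}
    (hkP : ∀ D, (kP D : ℝ) ≤ mP * Δ D) {P : ι → X → ℂ}
    (hP : ∀ a, J.IsSection (Cm n) (eqL n) mP kP (P a))
    {R : Set X} (hRo : IsOpen R) (hRd : Dense R) (hX : ConstY n p j f 𝒢 Δ Δ' P R)
    {RF : Set F} (hRFd : Dense RF)
    (hflatF : FlatSec d (eqF n (fun t => j (i t))) Δ (fun a t => P a (j (i t))) RF)
    (hP0F : ∀ t ∈ RF, ∃ a, P a (j (i t)) ≠ 0) :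
    J.kod (Cm d) (eqF n (fun t => j (i t))) Δ +
      J.kod (Cm p) (fun (G : Set Y) y g => J.IsLocalEq (Cm p) G g y)
        (J.orbBase' (Cm n) (Cm p) f Δ') ≤
      J.kod (Cm n) (eqL n) Δ := by
  classical
  rw [JB.kod_eq, JB.kod_eq, JB.kod_eq]
  refine kod_add_le fun j₁ j₂ h1 h2 => ?_
  obtain ⟨m₁, k₁, t, t₀, hm₁, hk₁, ht, hkt₀, ht0, htl⟩ := h1
  obtain ⟨m₂, k, σ, y₀, hm₂, hk, hσ, hky₀, hσ0, hσl⟩ := h2
  -- the divisors
  set T : Finset (Set X) := hΔ.1.toFinset with hTdef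
  have hTΔ : ∀ D, D ∈ T ↔ Δ D ≠ 0 := fun D => Set.Finite.mem_toFinset _
  have hTex : ∀ D ∈ T, ∀ x, ∃ g, J.IsLocalEq (Cm n) D g x := fun D hD =>
    (hΔ.2.1 D ((hTΔ D).1 hD)).2.1
  have hsX : IsSys n (eqL n) T := isSys_eqL hTex
  have hjh : ∀ z, HolM (Cm n) (Cm n) j z := fun z => hj.1 z
  have hfh : ∀ z, HolM (Cm n) (Cm p) f z := fun z => hf z
  have hih : ∀ z, HolM (Cm d) (Cm n) i z := fun z => hi.hol z
  have hρ : ∀ t, HolM (Cm d) (Cm n) (fun t => j (i t)) t := fun t =>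
    ContMDiffAt.comp t (hjh (i t)) (hih t)
  have hsF : IsSys d (eqF n (fun t => j (i t))) T := isSys_eqF hρ hTex fun D hD =>
    hne D ((hTΔ D).1 hD)
  obtain ⟨M₀, hM₀, K₀, hK₀, -⟩ := exists_denominator (JB.snc hΔ)
  obtain ⟨N₀, rfl⟩ : ∃ N₀, M₀ = N₀ + 1 := ⟨M₀ - 1, by omega⟩
  have hsupp : ∀ {m : ℕ} {k : Set X → ℕ}, (∀ D, (k D : ℝ) ≤ m * Δ D) → ∀ D, k D ≠ 0 → D ∈ T := by
    intro m k hk D hD
    refine (hTΔ D).2 fun h0 => hD ?_
    have h3 := hk D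
    rw [h0, mul_zero] at h3
    exact_mod_cast le_antisymm h3 (Nat.cast_nonneg _)
  have hkPT := hsupp hkP
  have hk₁T := hsupp fun D => (hk₁ D).le
  -- the boundary of `Y`
  set TY : Finset (Set Y) := h𝒢.1.toFinset with hTYdef
  have hTY : ∀ G, G ∈ TY ↔ G ∈ 𝒢 := fun G => Set.Finite.mem_toFinset _
  have hTYex : ∀ G ∈ TY, ∀ x, ∃ g, J.IsLocalEq (Cm p) G g x := fun G hG =>
    (h𝒢.2.1 G ((hTY G).1 hG)).2.1
  have hsY : IsSys p (eqL p) TY := isSys_eqL hTYex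
  have hkG : ∀ G, k G ≠ 0 → G ∈ 𝒢 := by
    intro G hG
    refine hbase G fun h0 => ?_
    have h3 := hk G
    rw [h0, mul_zero] at h3
    exact hG (by exact_mod_cast h3)
  have hkGT : ∀ G, k G ≠ 0 → G ∈ TY := fun G hG => (hTY G).2 (hkG G hG)
  -- a point of `Y` off the divisors
  have hkfin : {G | k G ≠ 0}.Finite := h𝒢.1.subset fun G hG => hkG G hG
  have hkpr : ∀ G, k G ≠ 0 → IsPrimeDivisor (Cm p) G := fun G hG => h𝒢.2.1 G (hkG G hG)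
  have hy₀ : ∀ G, k G ≠ 0 → y₀ ∉ G := by
    intro G hG hy
    obtain ⟨g, hg, hg0⟩ := hky₀ G hG
    exact hg0 (IsLocalEq.mem_iff hg |>.1 hy)
  have hodY := H713.SA.ind_open_dense (n := p) (κ := k) (s := σ) hkfin hkpr hσ ⟨y₀, hy₀, hσ0, hσl⟩
  have h𝒢od := dense_compl_finite (X := Y) h𝒢.1 (fun G hG => (h𝒢.2.1 G hG).1) (fun G hG => by
    rw [dense_iff_inter_open]
    intro U hU hUne
    obtain ⟨x, hxU, hxD⟩ := IsLocalEq.exists_notMem (h𝒢.2.1 G hG).2.1 hU hUne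
    exact ⟨x, hxU, hxD⟩)
  -- the fibre
  have ht₀off : t₀ ∈ off (eqF n (fun t => j (i t))) T := by
    rw [off_eqF hρ hTex]
    intro D hD hmem
    have hk0 : k₁ D ≠ 0 := by
      intro h0
      have h3 := hk₁ D
      rw [h0, Nat.cast_zero] at h3
      exact (mul_ne_zero (by exact_mod_cast hm₁.ne') ((hTΔ D).1 hD)) h3.symm
    obtain ⟨g, ⟨e, he, hev⟩, hg0⟩ := hkt₀ D hk0
    rw [hev.self_of_nhds] at hg0
    exact hg0 (J.IsLocalEq.mem_iff' he |>.1 hmem)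
  have hdF := (hsF.dense_ind hk₁T ht ⟨t₀, ht₀off, ht0, htl⟩)
  obtain ⟨t₃, ⟨ht₃off, ht₃0, ht₃l⟩, ht₃R⟩ := (hdF.1.inter_of_isOpen_left hRFd hdF.2).nonempty
  obtain ⟨a₀, ha₀⟩ := hP0F t₃ ht₃R
  set PF : ι → F → ℂ := fun a t => P a (j (i t)) with hPF
  have hPFr : ∀ a b w, PF a w / PF b w = P a (j (i w)) / P b (j (i w)) := fun a b w => rfl
  have hPF0 : PF a₀ t₃ ≠ 0 := ha₀
  have hcard := H713.SA.li_card_le (α := fun a => dV (Cm d) (fun w => PF a w / PF a₀ w) t₃)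
    (β := fun b : Fin j₁ => dV (Cm d) (fun w => t b.succ w / t 0 w) t₃) (fun v hv b =>
      hflatF t₃ ht₃R m₁ k₁ hk₁ (t 0) (t b.succ) (ht 0) (ht b.succ) ht₃0 a₀ hPF0 v hv) ht₃l
  rw [Fintype.card_fin] at hcard
  obtain ⟨c, hcl⟩ := H713.SA.exists_li_sub hcard
  -- the point `z₁`
  set z₁ : Z := i t₃ with hz₁
  have hoff₁ : j z₁ ∈ off (eqL n) T := by
    rw [off_eqL hTex]
    exact (off_eqF hρ hTex).1 ht₃off
  have hb₀' : P a₀ (j z₁) ≠ 0 := ha₀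
  have hrat : ∀ a b x, x ∈ off (eqL n) T → P b x ≠ 0 → HolV (Cm n) (fun w => P a w / P b w) x :=
    fun a b x hx h => hsX.holV_ratio hkPT (hP b) (hP a) hx h
  set u : Fin j₁ → Z → ℂ := fun b z => P (c b) (j z) / P a₀ (j z) with hu
  have huh : ∀ b z, j z ∈ off (eqL n) T → P a₀ (j z) ≠ 0 → HolV (Cm n) (u b) z :=
    fun b z hz h => HolV.comp (h := fun w => P (c b) w / P a₀ w) (hrat (c b) a₀ (j z) hz h) (hjh z)
  set ψ := chartAt (Cm p) (f z₁) with hψ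
  have hy₁ : f z₁ ∈ ψ.source := mem_chart_source (Cm p) (f z₁)
  have hψf : ∀ z, f z ∈ ψ.source → HolV (Cm n) (fun z => ψ (f z)) z := fun z h =>
    HolV.comp (h := (ψ : Y → Cm p)) (HolV.chart h) (hfh z)
  have hψd : ∀ z, f z ∈ ψ.source → ∀ ξ, dV (Cm n) (fun z => ψ (f z)) z ξ =
      dV (Cm p) (ψ : Y → Cm p) (f z) (dM (Cm n) (Cm p) f z ξ) := by
    intro z h ξ
    have h3 := dV_comp (h := (ψ : Y → Cm p)) (HolV.chart h) (hfh z)
    exact congrArg (fun T : Cm n →L[ℂ] Cm p => T ξ) h3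
  set h : Fin j₁ ⊕ Fin p → Z → ℂ := Sum.elim u fun a z => ψ (f z) a with hh
  have hhol : ∀ l, HolV (Cm n) (h l) z₁ := by
    rintro (b | a)
    · exact huh b z₁ hoff₁ hb₀'
    · exact (hψf z₁ hy₁).eval a
  -- linear independence at `z₁`
  have hli₁ : LinearIndependent ℂ (fun l => dif (Cm n) (h l) z₁) := by
    refine JB.linearIndependent_of_surjective fun y => ?_
    obtain ⟨η₀, hη₀⟩ := H713.SA.surj_of_isUnit (H713.SA.isUnit_dV_chart (E := Cm p) hy₁)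
      fun a => y (Sum.inr a)
    obtain ⟨ξ₀, hξ₀⟩ : ∃ ξ₀ : Cm n, dM (Cm n) (Cm p) f z₁ ξ₀ = η₀ := hi.submersive t₃ η₀
    have hcs := JB.surjective_of_linearIndependent hcl
    obtain ⟨ζ, hζ⟩ := hcs fun b => y (Sum.inl b) - dif (Cm n) (u b) z₁ ξ₀
    refine ⟨ξ₀ + dM (Cm d) (Cm n) i t₃ ζ, ?_⟩
    funext l
    rcases l with b | a
    · show dif (Cm n) (u b) z₁ (ξ₀ + dM (Cm d) (Cm n) i t₃ ζ) = y (Sum.inl b)
      rw [map_add]
      have h3 : dif (Cm d) (fun t => u b (i t)) t₃ =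
          (dif (Cm n) (u b) (i t₃)).comp (dM (Cm d) (Cm n) i t₃) :=
        dif_comp (huh b z₁ hoff₁ hb₀') (hih t₃)
      have h4 : (fun t => u b (i t)) = fun t => PF (c b) t / PF a₀ t := by
        funext t
        exact (hPFr (c b) a₀ t).symm
      have h5 := congrArg (fun T : Cm d →L[ℂ] ℂ => T ζ) h3
      simp only [ContinuousLinearMap.comp_apply] at h5
      rw [← h5, h4]
      have h6 := congrFun hζ b
      have h7 : dif (Cm d) (fun t => PF (c b) t / PF a₀ t) t₃ ζ =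
        y (Sum.inl b) - dif (Cm n) (u b) z₁ ξ₀ := h6
      rw [h7]
      ring
    · show dif (Cm n) (fun z => ψ (f z) a) z₁ (ξ₀ + dM (Cm d) (Cm n) i t₃ ζ) = y (Sum.inr a)
      have h3 : dif (Cm n) (fun z => ψ (f z) a) z₁ (ξ₀ + dM (Cm d) (Cm n) i t₃ ζ) =
          dV (Cm n) (fun z => ψ (f z)) z₁ (ξ₀ + dM (Cm d) (Cm n) i t₃ ζ) a :=
        (dV_apply (hψf z₁ hy₁) a _).symm
      rw [h3, hψd z₁ hy₁, map_add]
      have h4 : dM (Cm n) (Cm p) f z₁ (dM (Cm d) (Cm n) i t₃ ζ) = 0 := by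
        have h5 := mfderiv_comp (I := 𝓘(ℂ, Cm d)) (I' := 𝓘(ℂ, Cm n)) (I'' := 𝓘(ℂ, Cm p))
          (g := f) (f := i) t₃ ((hf (i t₃)).mdifferentiableAt (by simp))
          ((hi.hol t₃).mdifferentiableAt (by simp))
        have h6 : (f ∘ i) = fun _ => f (i t₃) := by
          funext t
          exact hi.const t t₃
        rw [h6, mfderiv_const] at h5
        exact (congrArg (fun T : Cm d →L[ℂ] Cm p => T ζ) h5).symm
      have h5 : dM (Cm n) (Cm p) f z₁ ξ₀ = η₀ := hξ₀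
      rw [h4, h5, add_zero, hη₀]
  -- the open set
  have hev : ∀ᶠ z in 𝓝 z₁, LinearIndependent ℂ (fun l => dif (Cm n) (h l) z) ∧
      P a₀ (j z) ≠ 0 ∧ f z ∈ ψ.source ∧ j z ∈ off (eqL n) T := by
    filter_upwards [linearIndependent_dif_eventually hhol hli₁,
      (hjh z₁).continuousAt.eventually (hsX.ev_ne hkPT (hP a₀) hoff₁ hb₀'),
      (hfh z₁).continuousAt.eventually (ψ.open_source.mem_nhds hy₁),
      (hjh z₁).continuousAt.eventually (hsX.isOpen_off.mem_nhds hoff₁)] with z h3 h4 h5 h6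
    exact ⟨h3, h4, h5, h6⟩
  obtain ⟨O, hO, hOo, hzO⟩ := eventually_nhds_iff.1 hev
  have hjRd : Dense (j ⁻¹' R) := hRd.preimage hj.2.1.isOpenMap
  obtain ⟨z', hz'O, hz'R⟩ := hjRd.inter_open_nonempty O hOo ⟨z₁, hzO⟩
  have hsurj : ∀ z ∈ O, ∀ (a : Fin j₁ → ℂ) (η : Cm p), ∃ ξ, (∀ b, dif (Cm n) (u b) z ξ = a b) ∧
      dM (Cm n) (Cm p) f z ξ = η := by
    intro z hz a η
    obtain ⟨h3, -, h5, -⟩ := hO z hz
    obtain ⟨ξ, hξ⟩ := JB.surjective_of_linearIndependent h3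
      (Sum.elim a (dV (Cm p) (ψ : Y → Cm p) (f z) η))
    refine ⟨ξ, fun b => congrFun hξ (Sum.inl b), ?_⟩
    have h6 : dV (Cm n) (fun z => ψ (f z)) z ξ = dV (Cm p) (ψ : Y → Cm p) (f z) η := by
      funext l
      rw [dV_apply (hψf z h5) l]
      exact congrFun hξ (Sum.inr l)
    rw [hψd z h5] at h6
    obtain ⟨A, hA⟩ := dV_chart_leftInv (E := Cm p) h5
    have h7 : ∀ v, A (dV (Cm p) (ψ : Y → Cm p) (f z) v) = v := fun v =>
      congrArg (fun T : Cm p →L[ℂ] Cm p => T v) hA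
    rw [← h7 (dM (Cm n) (Cm p) f z ξ), h6, h7]
  have hsub : ∀ z ∈ O, Function.Surjective (dM (Cm n) (Cm p) f z) := fun z hz η => by
    obtain ⟨ξ, -, h3⟩ := hsurj z hz 0 η
    exact ⟨ξ, h3⟩
  have hO' : O ∩ j ⁻¹' R ∈ 𝓝 z' := (hOo.inter (hRo.preimage hj.1.continuous)).mem_nhds ⟨hz'O, hz'R⟩
  have himg : f '' (O ∩ j ⁻¹' R) ∈ 𝓝 (f z') :=
    H713.SA.nhds_le_map (hfh z') (hsub z' hz'O) (image_mem_map hO')
  have hYd : Dense (H713.SA.Ind (n := p) k σ ∩ {y | ∀ G ∈ 𝒢, y ∉ G}) :=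
    hodY.2.inter_of_isOpen_left h𝒢od.2 hodY.1
  obtain ⟨y₂, hy₂I, hy₂⟩ := hYd.inter_nhds_nonempty himg
  obtain ⟨z₂, ⟨hz₂O, hz₂R⟩, rfl⟩ := hy₂
  obtain ⟨⟨hkz, hσz, hσlz⟩, h𝒢z⟩ := hy₂I
  have hb₂ : P a₀ (j z₂) ≠ 0 := (hO z₂ hz₂O).2.1
  have hoff₂ : j z₂ ∈ off (eqL n) T := (hO z₂ hz₂O).2.2.2
  have he : At (chartAt (Cm n) (j z₂)) (j z₂) :=
    ⟨chart_mem_atlas (Cm n) (j z₂), mem_chart_source (Cm n) (j z₂)⟩
  -- powers of the sections of `m₂ (K_Y + B)`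
  have hσh : ∀ b : Fin j₂, HolV (Cm p) (fun w => σ b.succ w / σ 0 w) (f z₂) := fun b =>
    (secAt_of hkpr (hσ b.succ) hkz).div_holV (secAt_of hkpr (hσ 0) hkz) hσz
  set σ' : Fin (j₂ + 1) → Y → ℂ := fun b y => σ 0 y ^ N₀ * σ b y with hσ'
  have hσ's : ∀ b, J.IsSection (Cm p) (eqL p) ((N₀ + 1) * m₂) ((N₀ + 1) • k) (σ' b) := fun b =>
    hsY.pow_mul hkGT (hσ 0) (hσ b) N₀ (fun G hG => hkGT G fun h0 => hG (by
      rw [Pi.smul_apply, h0, smul_zero])) fun G => by rw [Pi.smul_apply, smul_eq_mul]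
  have hσ'r : ∀ b : Fin j₂, dif (Cm n) (fun z => σ b.succ (f z) / σ 0 (f z)) z₂ =
      dif (Cm n) (fun z => σ' b.succ (f z) / σ' 0 (f z)) z₂ := by
    intro b
    refine dV_congr ?_
    have h3 : ∀ᶠ y in 𝓝 (f z₂), σ 0 y ≠ 0 := (secAt_of hkpr (hσ 0) hkz).ev_ne hσz
    filter_upwards [(hfh z₂).continuousAt.eventually h3] with z hz
    simp only [hσ']
    rw [mul_div_mul_left _ _ (pow_ne_zero _ hz)]
  have hk' : ∀ G, ((((N₀ + 1) • k) G : ℕ) : ℝ) ≤ ((N₀ + 1) * m₂ : ℕ) *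
      J.orbBase' (Cm n) (Cm p) f Δ' G := by
    intro G
    rw [Pi.smul_apply, smul_eq_mul]
    push_cast
    rw [hk G, mul_assoc]
  have hmΔ : ∃ K : Set X → ℕ, ∀ D, (K D : ℝ) = ((N₀ + 1) * m₂ : ℕ) * Δ D := by
    refine ⟨fun D => m₂ * K₀ D, fun D => ?_⟩
    push_cast
    rw [hK₀ D]
    push_cast
    ring
  set α : ι → (Cm n →L[ℂ] ℂ) := fun a => dif (Cm n) (fun z => P a (j z) / P a₀ (j z)) z₂
    with hα
  set al : ι → (Cm n →L[ℂ] ℂ) := fun a => dif (Cm n) (fun w => P a w / P a₀ w) (j z₂) with hal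
  have hαj : ∀ a, α a = (al a).comp (dM (Cm n) (Cm n) j z₂) := fun a =>
    dif_comp (g := fun w => P a w / P a₀ w) (hrat a a₀ (j z₂) hoff₂ hb₂) (hjh z₂)
  have hkey : ∀ v, (∀ a, α a v = 0) → ∀ b : Fin j₂,
      dif (Cm n) (fun z => σ b.succ (f z) / σ 0 (f z)) z₂ v = 0 := by
    intro v hv b
    rw [hσ'r]
    obtain ⟨K, hK⟩ := hmΔ
    refine hX _ _ K (Nat.mul_pos (Nat.succ_pos _) hm₂) hK hk' (fun G hG => hkG G fun h0 =>
      hG (by rw [Pi.smul_apply, h0, smul_zero])) _ _ (hσ's 0) (hσ's b.succ) z₂ hz₂R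
      (fun D hD => (off_eqL hTex).1 hoff₂ D ((hTΔ D).2 hD)) ?_
      (hsub z₂ hz₂O) (mul_ne_zero (pow_ne_zero _ hσz) hσz) a₀ hb₂ v ?_
    · rintro ⟨G, hG, hGz⟩
      exact h𝒢z G hG hGz
    · intro a
      have h3 := hv a
      rw [hαj] at h3
      exact h3
  -- the linearly independent family
  set β : Fin j₁ ⊕ Fin j₂ → (Cm n →L[ℂ] ℂ) := Sum.elim (fun b => dif (Cm n) (u b) z₂)
    fun b => dif (Cm n) (fun z => σ b.succ (f z) / σ 0 (f z)) z₂ with hβ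
  have hβl : LinearIndependent ℂ β := by
    refine JB.linearIndependent_of_surjective fun y => ?_
    obtain ⟨η, hη⟩ := JB.surjective_of_linearIndependent hσlz fun b => y (Sum.inr b)
    obtain ⟨ξ, hξ1, hξ2⟩ := hsurj z₂ hz₂O (fun b => y (Sum.inl b)) η
    refine ⟨ξ, ?_⟩
    funext l
    rcases l with b | b
    · exact hξ1 b
    · have h3 : dif (Cm n) (fun z => σ b.succ (f z) / σ 0 (f z)) z₂ =
          (dif (Cm p) (fun w => σ b.succ w / σ 0 w) (f z₂)).comp (dM (Cm n) (Cm p) f z₂) :=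
        dif_comp (g := fun w => σ b.succ w / σ 0 w) (hσh b) (hfh z₂)
      show dif (Cm n) (fun z => σ b.succ (f z) / σ 0 (f z)) z₂ ξ = y (Sum.inr b)
      rw [h3, ContinuousLinearMap.comp_apply, hξ2]
      exact congrFun hη b
  have h3 := H713.SA.li_card_le (α := α) (β := β) (fun v hv => by
    rintro (b | b)
    · exact hv (c b)
    · exact hkey v hv b) hβl
  have h4 : α = fun a => (al a).comp (dM (Cm n) (Cm n) j z₂) := funext hαj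
  rw [Fintype.card_sum, Fintype.card_fin, Fintype.card_fin, h4, H713.SA.finrank_span_comp _
    (H713.SA.surj_of_isUnit (H713.SA.isUnit_of_det_ne (det_ne_of_inj (hj.2.2.1 z₂))))] at h3
  obtain ⟨c', hc'⟩ := H713.SA.exists_li_sub h3
  -- the sections of `m (K_X + Δ)`
  have hkfin' : ∀ D, (mP * K₀ D) ≠ 0 → D ∈ T := by
    intro D hD
    refine (hTΔ D).2 fun h0 => hD ?_
    have h5 := hK₀ D
    rw [h0, mul_zero] at h5
    have h6 : K₀ D = 0 := by exact_mod_cast h5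
    rw [h6, mul_zero]
  have hsec : ∀ a, J.IsSection (Cm n) (eqL n) ((N₀ + 1) * mP) (fun D => mP * K₀ D)
      (fun z => P a₀ z ^ N₀ * P a z) := fun a =>
    hsX.pow_mul hkPT (hP a₀) (hP a) N₀ hkfin' fun D => by
      have h5 : (((N₀ + 1) * kP D : ℕ) : ℝ) ≤ ((mP * K₀ D : ℕ) : ℝ) := by
        push_cast
        have h6 := hK₀ D
        push_cast at h6
        rw [h6]
        have h7 := mul_le_mul_of_nonneg_left (hkP D) (by positivity : (0 : ℝ) ≤ (N₀ : ℝ) + 1)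
        calc ((N₀ : ℝ) + 1) * kP D ≤ ((N₀ : ℝ) + 1) * (mP * Δ D) := h7
          _ = mP * (((N₀ : ℝ) + 1) * Δ D) := by ring
      exact_mod_cast h5
  have hP0ev : ∀ᶠ w in 𝓝 (j z₂), P a₀ w ≠ 0 := hsX.ev_ne hkPT (hP a₀) hoff₂ hb₂
  refine ⟨(N₀ + 1) * mP, fun D => mP * K₀ D, fun b z => P a₀ z ^ N₀ *
    P ((Fin.cons a₀ c' : Fin (j₁ + j₂ + 1) → ι) b) z, j z₂, Nat.mul_pos (Nat.succ_pos _) hmP,
    fun D => ?_, fun b => hsec _, fun D hD => ?_, mul_ne_zero (pow_ne_zero _ hb₂) hb₂, ?_⟩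
  · push_cast
    have h6 := hK₀ D
    push_cast at h6
    rw [h6]
    ring
  · obtain ⟨g, hg⟩ := hTex D (hkfin' D hD) (j z₂)
    exact ⟨g, hg, fun h0 => (off_eqL hTex).1 hoff₂ D (hkfin' D hD) (hg.mem_iff'.2 h0)⟩
  · have h5 : (fun b : Fin (j₁ + j₂) => dif (Cm n) (fun w => (P a₀ w ^ N₀ *
        P ((Fin.cons a₀ c' : Fin (j₁ + j₂ + 1) → ι) b.succ) w) / (P a₀ w ^ N₀ *
        P ((Fin.cons a₀ c' : Fin (j₁ + j₂ + 1) → ι) 0) w)) (j z₂)) = fun b => al (c' b) := by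
      funext b
      refine dV_congr ?_
      filter_upwards [hP0ev] with w hw
      rw [Fin.cons_succ, Fin.cons_zero, mul_div_mul_left _ _ (pow_ne_zero _ hw)]
    rw [h5]
    exact hc'

end Vale.Agent.P281.H716
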