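import Vale.Agent.P281.H167.SA.X1

/-! P281, theorem SAL, block X: the Bochner inequality for line bundle valued holomorphic covariant
tensors on a Kähler manifold X with metric g, with `Ric(g) = -κ`, `κ ≥ 0` (local form). -/

open scoped Manifold ContDiff ComplexOrder Topology Matrix Kronecker
open Filter
open Vale.Agent.P272.K Vale.Agent.P272.K.C2 Vale.Agent.P272.K.AMP Vale.Agent.P299
open Vale.Agent.P299.H954 Vale.Agent.P299.H937
open Vale.Agent.P281.H167.SA

set_option linter.all false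

noncomputable section

namespace Vale.Agent.P281.H716

variable {n p : ℕ} {X : Type*} [TopologicalSpace X] [ChartedSpace (Cm n) X]
  {w κ θ : D.FormM n X} {s : D.Ten n p X} {e : Chart n X} {x : X}

/-- the weight `-ψ`, as a function of charts -/
def mw (ψ : Cm n → ℝ) : Chart n X → Cm n → ℝ := fun _ z => -ψ z

/-- `exp (-ψ) |s|²` in the chart `e` -/
def nL (w : D.FormM n X) (ψ : Cm n → ℝ) (s : D.Ten n p X) (e : Chart n X) (z : Cm n) : ℝ :=
  nTen w (mw ψ) 1 s e z

lemma nL_eq (ψ : Cm n → ℝ) (s : D.Ten n p X) (e : Chart n X) (z : Cm n) :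
    nL w ψ s e z = Real.exp (-ψ z) *
      (∑ I, ∑ J, s e z I * (starRingEnd ℂ) (s e z J) * ∏ a, (w e z)⁻¹ (J a) (I a)).re := by
  unfold nL nTen mw
  rw [Nat.cast_one, one_mul]

/-- `u` is, near `x`, the square of the norm of the holomorphic tensor `s` for the metric `w` and the
weight `ψ` -/
structure LocRep (w : D.FormM n X) (ψ : Cm n → ℝ) (s : D.Ten n p X) (e : Chart n X) (x : X)
    (u : X → ℝ) : Prop where
  at' : At e x
  holo : ∀ I, AnalyticAt ℂ (fun z => s e z I) (e x)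
  smooth : ContDiffAt ℝ ∞ ψ (e x)
  eq : ∀ᶠ z in 𝓝 (e x), u (e.symm z) = nL w ψ s e z

variable [IsManifold 𝓘(ℂ, Cm n) ω X] {ψ : Cm n → ℝ} {u : X → ℝ}

lemma contDiff_sqL' (hw : IsHermitian w) (hx : At e x)
    (hs : ∀ I, AnalyticAt ℂ (fun z => s e z I) (e x)) (hψ : ContDiffAt ℝ ∞ ψ (e x)) :
    ContDiffAt ℝ ∞ (sqL w (mw ψ) 1 s e) (e x) := by
  have h1 : MC ∞ (rowT s e) (e x) := MC_of_analyticAt fun _ I => hs I
  have h2 : MC ∞ (metL p 1 w (mw ψ) e) (e x) :=
    MC_metL (hw.smooth e x hx) (hw.posDef e x hx).det_pos.ne' hψ.neg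
  exact ((h1.mul h2).mul h1.conjTranspose) () ()

/-- `Δ u ≥ |∇ s|² - (p tr_g κ + tr_g i∂∂̄ψ) u` -/
theorem lap_loc (hw : IsKahler w) (hκ : (κ e (e x)).PosSemidef)
    (hric : D.ric w e (e x) = -κ e (e x)) (hus : SmoothFn (n := n) u)
    (h : LocRep w ψ s e x u) :
    gradT w (mw ψ) 1 s e (e x) - (p * trE w κ e (e x) +
      ((w e (e x))⁻¹ * cHess ψ (e x)).trace.re) * u x ≤ lapX w u x := by
  obtain ⟨hx, hs, hψ, heq⟩ := h
  have hwH := hw.toIsHermitian
  have hwP := hwH.posDef e x hx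
  have hS : MC 2 (rowT s e) (e x) := MC_of_analyticAt fun _ I => hs I
  have hψ2 : ContDiffAt ℝ 2 ψ (e x) := hψ.of_le (by norm_cast)
  have hφ2 : ContDiffAt ℝ 2 (mw (X := X) ψ e) (e x) := hψ2.neg
  have hG : MC 2 (w e) (e x) := IsHermitian.MC hwH hx
  have hH : MC 2 (metL p 1 w (mw ψ) e) (e x) := MC_metL hG hwP.det_pos.ne' hφ2
  have hHh : ∀ᶠ y in 𝓝 (e x), (metL p 1 w (mw ψ) e y).IsHermitian := by
    filter_upwards [eventually_at hx] with y hy
    have := (metL_posDef (p := p) (m := 1) (φ := mw ψ) (hwH.posDef e _ hy.1)).isHermitian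
    rwa [hy.2] at this
  have hue : ∀ᶠ y in 𝓝 (e x), u (e.symm y) = (sqL w (mw ψ) 1 s e y).re := by
    filter_upwards [heq] with y hy
    rw [hy, nL, nTen_eq]
  have hux : (u x : ℂ) = sqL w (mw ψ) 1 s e (e x) := by
    have h1 := hue.self_of_nhds
    rw [hx.left_inv] at h1
    rw [h1, sqL_real hwP, Complex.ofReal_re]
  have hcj : ∀ᶠ y in 𝓝 (e x), (starRingEnd ℂ) (sqL w (mw ψ) 1 s e y) = sqL w (mw ψ) 1 s e y := by
    filter_upwards [eventually_at hx] with y hy
    have := sqL_real (s := s) (m := 1) (φ := mw ψ) (hwH.posDef e _ hy.1)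
    rw [hy.2] at this
    rw [this, Complex.conj_ofReal]
  rw [lapX_chart hwH hus hx hue hcj]
  have e1 : ∀ k l, dz k (dzb l (sqL w (mw ψ) 1 s e)) (e x) =
      (nab k (rowT s e) (metL p 1 w (mw ψ) e) (e x) * metL p 1 w (mw ψ) e (e x) *
        (nab l (rowT s e) (metL p 1 w (mw ψ) e) (e x))ᴴ) () () -
        (rowT s e (e x) * RM k l (metL p 1 w (mw ψ) e) (e x) * (rowT s e (e x))ᴴ) () () := by
    intro k l
    have := D2_sandwich (k := k) (l := l) hS hH (holNear_of_analyticAt fun _ I => hs I) hHh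
      (metL_posDef hwP).det_pos.ne'
    have h2 := congrFun (congrFun this ()) ()
    rw [Matrix.sub_apply] at h2
    exact h2
  have e2 : ∑ l, ∑ k, (w e (e x))⁻¹ l k *
      (rowT s e (e x) * RM k l (metL p 1 w (mw ψ) e) (e x) * (rowT s e (e x))ᴴ) () () =
      (rowT s e (e x) * RmS (w e) (metL p 1 w (mw ψ) e) (e x) * (rowT s e (e x))ᴴ) () () := by
    rw [RmS]
    simp only [Matrix.mul_sum, Matrix.sum_mul, Matrix.mul_smul, Matrix.smul_mul,
      Matrix.sum_apply, Matrix.smul_apply, smul_eq_mul]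
  set E : ℝ := Real.exp (((1 : ℕ) : ℝ) * mw (X := X) ψ e (e x)) with hE
  have f0 : 0 < E := Real.exp_pos _
  have hT : MC 2 (fun y => tp p (dual (w e) y)) (e x) := MC_tp p (MC_dual hG hwP.det_pos.ne')
  have hTd : (tp p (dual (w e) (e x))).det ≠ 0 := (metT_posDef (p := p) hwP).det_pos.ne'
  have e3 : RmS (w e) (metL p 1 w (mw ψ) e) (e x) =
      (E : ℂ) • RmS (w e) (fun y => tp p (dual (w e) y)) (e x) +
        ((w e (e x))⁻¹ * cHess ψ (e x)).trace • metL p 1 w (mw ψ) e (e x) := by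
    have h1 := RmS_smul (G := w e) (f := fun z => Real.exp (((1 : ℕ) : ℝ) * mw (X := X) ψ e z))
      (H := fun y => tp p (dual (w e) y)) (contDiff_exp (m := 1) hφ2) f0 hT hTd
    have h2 : (fun y => Real.log (Real.exp (((1 : ℕ) : ℝ) * mw (X := X) ψ e y))) =
        fun y => (-1 : ℝ) * ψ y := by
      funext y; rw [Real.log_exp]; simp [mw]
    rw [h2, C2.cHess_const_mul (-1 : ℝ) hψ2] at h1
    have h3 : metL p 1 w (mw ψ) e = fun y =>
      ((Real.exp (((1 : ℕ) : ℝ) * mw (X := X) ψ e y) : ℝ) : ℂ) • tp p (dual (w e) y) := rfl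
    rw [h3, h1, Matrix.mul_smul, Matrix.trace_smul]
    simp only [smul_smul, smul_eq_mul, ← hE]
    rw [sub_eq_add_neg, ← neg_smul]
    congr 2
    push_cast
    ring
  have hpos : 0 ≤ (rowT s e (e x) * ((((p : ℂ) * ((w e (e x))⁻¹ * κ e (e x)).trace) •
      tp p (dual (w e) (e x)) - RmS (w e) (fun y => tp p (dual (w e) y)) (e x))) *
        (rowT s e (e x))ᴴ) () () :=
    Matrix.PosSemidef.diag_nonneg ((RmS_tp_le (G := w e) p (MC_dual hG hwP.det_pos.ne')
      (dual_posDef hwP) (RmS_dual_le hw hκ hric hx)).mul_mul_conjTranspose_same _)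
  have htr : ((w e (e x))⁻¹ * κ e (e x)).trace = ((trE w κ e (e x) : ℝ) : ℂ) := by
    have h1 : (κ e (e x)).IsHermitian := hκ.isHermitian
    have h2 : star ((w e (e x))⁻¹ * κ e (e x)).trace = ((w e (e x))⁻¹ * κ e (e x)).trace := by
      rw [← Matrix.trace_conjTranspose, Matrix.conjTranspose_mul, h1.eq,
        hwP.inv.isHermitian.eq, Matrix.trace_mul_comm]
    exact (Complex.conj_eq_iff_re.1 h2).symm
  set B : ℝ := ((w e (e x))⁻¹ * cHess ψ (e x)).trace.re with hB
  have htr2 : ((w e (e x))⁻¹ * cHess ψ (e x)).trace = (B : ℂ) := by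
    have h1 : (cHess ψ (e x)).IsHermitian := C2.cHess_isHermitian hψ2
    have h2 : star ((w e (e x))⁻¹ * cHess ψ (e x)).trace =
        ((w e (e x))⁻¹ * cHess ψ (e x)).trace := by
      rw [← Matrix.trace_conjTranspose, Matrix.conjTranspose_mul, h1.eq,
        hwP.inv.isHermitian.eq, Matrix.trace_mul_comm]
    exact (Complex.conj_eq_iff_re.1 h2).symm
  -- `|s|²` with and without the weight
  set b : ℂ := (rowT s e (e x) * tp p (dual (w e) (e x)) * (rowT s e (e x))ᴴ) () () with hb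
  have hsq : sqL w (mw ψ) 1 s e (e x) = (E : ℂ) * b := by
    rw [sqL, metL, Matrix.mul_smul, Matrix.smul_mul, Matrix.smul_apply, smul_eq_mul]
  have e4 : (rowT s e (e x) * RmS (w e) (metL p 1 w (mw ψ) e) (e x) * (rowT s e (e x))ᴴ) () () =
      (E : ℂ) * (rowT s e (e x) * RmS (w e) (fun y => tp p (dual (w e) y)) (e x) *
        (rowT s e (e x))ᴴ) () () + (B : ℂ) * ((E : ℂ) * b) := by
    rw [e3, ← hsq, sqL, htr2]
    simp only [Matrix.mul_add, Matrix.add_mul, Matrix.mul_smul, Matrix.smul_mul, Matrix.add_apply,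
      Matrix.smul_apply, smul_eq_mul]
  have e5 : (rowT s e (e x) * ((((p : ℂ) * ((w e (e x))⁻¹ * κ e (e x)).trace) •
      tp p (dual (w e) (e x)) - RmS (w e) (fun y => tp p (dual (w e) y)) (e x))) *
        (rowT s e (e x))ᴴ) () () = (p : ℂ) * ((trE w κ e (e x) : ℝ) : ℂ) * b -
      (rowT s e (e x) * RmS (w e) (fun y => tp p (dual (w e) y)) (e x) *
        (rowT s e (e x))ᴴ) () () := by
    rw [Matrix.mul_sub, Matrix.sub_mul, Matrix.sub_apply, Matrix.mul_smul, Matrix.smul_mul,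
      Matrix.smul_apply, smul_eq_mul, htr]
  rw [e5] at hpos
  have hpos2 := mul_nonneg (show (0 : ℂ) ≤ (E : ℂ) by exact_mod_cast f0.le) hpos
  simp only [e1, mul_sub, Finset.sum_sub_distrib, e2]
  rw [e4]
  have hux' : (E : ℂ) * b = (u x : ℂ) := by rw [hux, hsq]
  have e6 : (E : ℂ) * ((p : ℂ) * ((trE w κ e (e x) : ℝ) : ℂ) * b -
      (rowT s e (e x) * RmS (w e) (fun y => tp p (dual (w e) y)) (e x) *
        (rowT s e (e x))ᴴ) () ()) = ((p * trE w κ e (e x) * u x : ℝ) : ℂ) -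
      (E : ℂ) * (rowT s e (e x) * RmS (w e) (fun y => tp p (dual (w e) y)) (e x) *
        (rowT s e (e x))ᴴ) () () := by
    push_cast
    rw [← hux']
    ring
  rw [e6] at hpos2
  have h5 := (Complex.le_def.1 hpos2).1
  rw [Complex.zero_re, Complex.sub_re, Complex.ofReal_re] at h5
  rw [Complex.sub_re, gradT, Complex.add_re, hux', ← Complex.ofReal_mul, Complex.ofReal_re]
  linarith

/-- **Bochner inequality.** `Δ log (u + d) ≥ - C tr_g θ`, if `p κ + i∂∂̄ψ ≤ C θ` at `x`. -/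
theorem boch_loc (hw : IsKahler w) (hκ : (κ e (e x)).PosSemidef) (hθf : IsForm θ)
    (hric : D.ric w e (e x) = -κ e (e x)) (hus : SmoothFn (n := n) u) (hu : ∀ y, 0 ≤ u y)
    {C : ℝ} (hC : 0 ≤ trE w θ e (e x)) (hC0 : 0 ≤ C)
    (hle : ((C : ℂ) • θ e (e x) - ((p : ℂ) • κ e (e x) + cHess ψ (e x))).PosSemidef)
    (h : LocRep w ψ s e x u) {d : ℝ} (hd : 0 < d) :
    -(C * trX w θ x) ≤ lapX w (fun y => Real.log (u y + d)) x := by
  have hlap := lap_loc hw hκ hric hus h
  obtain ⟨hx, hs, hψ, heq⟩ := h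
  have hwH := hw.toIsHermitian
  have hwP := hwH.posDef e x hx
  have one := one_ne_zero_inf
  have hu0 : 0 ≤ u x := hu x
  have hS : MC 1 (rowT s e) (e x) := MC_of_analyticAt fun _ I => hs I
  have hφ1 : ContDiffAt ℝ 1 (mw (X := X) ψ e) (e x) := (hψ.of_le (by norm_cast)).neg
  have hG : MC 1 (w e) (e x) := (IsHermitian.MC hwH hx).mono (by norm_num)
  have hH : MC 1 (metL p 1 w (mw ψ) e) (e x) := MC_metL hG hwP.det_pos.ne' hφ1
  have hHh : ∀ᶠ y in 𝓝 (e x), (metL p 1 w (mw ψ) e y).IsHermitian := by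
    filter_upwards [eventually_at hx] with y hy
    have := (metL_posDef (p := p) (m := 1) (φ := mw ψ) (hwH.posDef e _ hy.1)).isHermitian
    rwa [hy.2] at this
  set f : Cm n → ℝ := fun y => u (e.symm y) + d with hf
  have hfx : f (e x) = u x + d := by simp only [hf]; rw [e.left_inv hx.2]
  have hf0 : 0 < f (e x) := by rw [hfx]; linarith
  have hu2 : ContDiffAt ℝ 2 (fun y => u (e.symm y)) (e x) := (hus e x hx).of_le (by norm_cast)
  have hf2 : ContDiffAt ℝ 2 f (e x) := hu2.add contDiffAt_const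
  have hucx : ∀ᶠ y in 𝓝 (e x), ((u (e.symm y) : ℝ) : ℂ) = sqL w (mw ψ) 1 s e y := by
    filter_upwards [eventually_at hx, heq] with y hy h1
    have h2 := sqL_real (s := s) (m := 1) (φ := mw ψ) (hwH.posDef e _ hy.1)
    rw [hy.2] at h2
    rw [h1, h2, nL]
  have hfc : (fun y => ((f y : ℝ) : ℂ)) =ᶠ[𝓝 (e x)] fun y => sqL w (mw ψ) 1 s e y + (d : ℂ) := by
    filter_upwards [hucx] with y hy
    show (((u (e.symm y) + d : ℝ)) : ℂ) = _
    rw [Complex.ofReal_add, hy]
  have hsq : DifferentiableAt ℝ (sqL w (mw ψ) 1 s e) (e x) :=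
    (contDiff_sqL' hwH hx hs hψ).differentiableAt (by simp)
  have hdz : ∀ k, dz k (fun y => ((f y : ℝ) : ℂ)) (e x) =
      (nab k (rowT s e) (metL p 1 w (mw ψ) e) (e x) * metL p 1 w (mw ψ) e (e x) *
        (rowT s e (e x))ᴴ) () () := by
    intro k
    rw [dz_congr k hfc, C2.dz_add k hsq (differentiableAt_const _)]
    have h1 := DM_sandwich' (k := k) hS hH ((holNear_of_analyticAt fun _ I => hs I).self k)
      (metL_posDef hwP).det_pos.ne'
    have h2 := congrFun (congrFun h1 ()) ()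
    rw [← h2]
    have h3 : dz k (fun _ : Cm n => (d : ℂ)) (e x) = 0 := by simp [dz]
    rw [h3, add_zero]
    rfl
  have hdzb : ∀ l, dzb l (fun y => ((f y : ℝ) : ℂ)) (e x) =
      (rowT s e (e x) * metL p 1 w (mw ψ) e (e x) *
        (nab l (rowT s e) (metL p 1 w (mw ψ) e) (e x))ᴴ) () () := by
    intro l
    rw [dzb_congr l hfc, C2.dzb_add l hsq (differentiableAt_const _)]
    have h1 := DMb_sandwich' (l := l) hS hH ((holNear_of_analyticAt fun _ I => hs I).self l)
      hHh (metL_posDef hwP).det_pos.ne'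
    have h2 := congrFun (congrFun h1 ()) ()
    rw [← h2]
    have h3 : dzb l (fun _ : Cm n => (d : ℂ)) (e x) = 0 := by simp [dzb]
    rw [h3, add_zero]
    rfl
  have hcf : cHess f (e x) = cHess (fun y => u (e.symm y)) (e x) := by
    rw [hf, C2.cHess_add hu2 contDiffAt_const, C2.cHess_const, add_zero]
  set T : ℝ := gradT w (mw ψ) 1 s e (e x) with hT
  have htrX : trX w θ x = trE w θ e (e x) := trX_eq hwH hθf hx
  have hux : ((u x : ℝ) : ℂ) = sqL w (mw ψ) 1 s e (e x) := by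
    have h1 := hucx.self_of_nhds
    rwa [hx.left_inv] at h1
  -- the trace inequality
  have hBle : p * trE w κ e (e x) + ((w e (e x))⁻¹ * cHess ψ (e x)).trace.re ≤
      C * trE w θ e (e x) := by
    have h1 := (Complex.le_def.1 (trace_mul_nonneg hwP.inv.posSemidef hle)).1
    rw [Complex.zero_re, Matrix.mul_sub, Matrix.mul_add, Matrix.trace_sub, Matrix.trace_add,
      Matrix.mul_smul, Matrix.mul_smul, Matrix.trace_smul, Matrix.trace_smul, smul_eq_mul,
      smul_eq_mul, Complex.sub_re, Complex.add_re, Complex.re_ofReal_mul] at h1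
    have h2 : ((p : ℂ) * ((w e (e x))⁻¹ * κ e (e x)).trace).re =
        (p : ℝ) * ((w e (e x))⁻¹ * κ e (e x)).trace.re := by
      rw [← Complex.ofReal_natCast, Complex.re_ofReal_mul]
    rw [h2] at h1
    unfold trE
    linarith
  have hcs := cs_step (hwP.inv.posSemidef) (metL_posDef (p := p) (m := 1) (φ := mw ψ)
    hwP).posSemidef (fun k => nab k (rowT s e) (metL p 1 w (mw ψ) e) (e x)) (rowT s e (e x))
    (u := u x) (d := d) hd hux.symm
  have hq : lapX w (fun y => Real.log (u y + d)) x = (f (e x))⁻¹ * lapX w u x -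
      (f (e x) ^ 2)⁻¹ * (∑ l, ∑ k, (w e (e x))⁻¹ l k *
        ((nab k (rowT s e) (metL p 1 w (mw ψ) e) (e x) * metL p 1 w (mw ψ) e (e x) *
          (rowT s e (e x))ᴴ) () () *
        (rowT s e (e x) * metL p 1 w (mw ψ) e (e x) *
          (nab l (rowT s e) (metL p 1 w (mw ψ) e) (e x))ᴴ) () ())).re := by
    have hsl : SmoothFn (n := n) (fun y => Real.log (u y + d)) :=
      smooth_log (sm_add hus (smoothFn_const d)) fun y => by
        have := hu y
        linarith
    rw [lapX_eq hwH hsl hx, lapX_eq hwH hus hx]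
    unfold lapE hess
    rw [trace_mul_cHess, trace_mul_cHess, ← Complex.re_ofReal_mul, ← Complex.re_ofReal_mul,
      ← Complex.sub_re]
    congr 1
    simp only [Finset.mul_sum, ← Finset.sum_sub_distrib]
    refine Finset.sum_congr rfl fun l _ => Finset.sum_congr rfl fun k _ => ?_
    have h1 := C2.cHess_log hf2 hf0 k l
    rw [hcf, hdz, hdzb] at h1
    show (w e (e x))⁻¹ l k * cHess (fun y => Real.log (f y)) (e x) k l = _
    rw [h1]
    push_cast
    ring
  rw [hq, htrX, hfx]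
  set g : ℝ := (∑ l, ∑ k, (w e (e x))⁻¹ l k *
        ((nab k (rowT s e) (metL p 1 w (mw ψ) e) (e x) * metL p 1 w (mw ψ) e (e x) *
          (rowT s e (e x))ᴴ) () () *
        (rowT s e (e x) * metL p 1 w (mw ψ) e (e x) *
          (nab l (rowT s e) (metL p 1 w (mw ψ) e) (e x))ᴴ) () ())).re with hg
  set t : ℝ := trE w θ e (e x) with ht
  have hud : 0 < u x + d := by linarith
  have h1 : ((u x + d) ^ 2)⁻¹ * g ≤ (u x + d)⁻¹ * T := by
    have h2 : ((u x + d) ^ 2)⁻¹ * g ≤ ((u x + d) ^ 2)⁻¹ * ((u x + d) * T) :=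
      mul_le_mul_of_nonneg_left hcs (by positivity)
    have h3 : ((u x + d) ^ 2)⁻¹ * ((u x + d) * T) = (u x + d)⁻¹ * T := by
      field_simp
    rwa [h3] at h2
  have hlap2 : T - C * t * u x ≤ lapX w u x := by
    have := mul_le_mul_of_nonneg_right hBle hu0
    linarith
  have h4 : (u x + d)⁻¹ * (T - C * t * u x) ≤ (u x + d)⁻¹ * lapX w u x :=
    mul_le_mul_of_nonneg_left hlap2 (inv_pos.2 hud).le
  have h5 : (u x + d)⁻¹ * u x ≤ 1 := by
    rw [inv_mul_le_iff₀ hud]; linarith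
  have h6 : (u x + d)⁻¹ * (C * t * u x) ≤ C * t := by
    have : (u x + d)⁻¹ * (C * t * u x) = ((u x + d)⁻¹ * u x) * (C * t) := by ring
    rw [this]
    exact mul_le_of_le_one_left (by positivity) h5
  rw [mul_sub] at h4
  linarith

/-- **Bochner inequality**, in the form used by the flatness theorem. -/
theorem bochIneq_loc (hw : IsKahler w) (hθ : ∀ e x, At e x → (θ e (e x)).PosSemidef)
    (hθf : IsForm θ) (hκ : ∀ e x, At e x → (κ e (e x)).PosSemidef)
    (hric : ∀ e x, At e x → D.ric w e (e x) = -κ e (e x)) (hus : SmoothFn (n := n) u)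
    (hu : ∀ y, 0 ≤ u y) {C : ℝ} (hC0 : 0 ≤ C)
    (h : ∀ x, ∃ (e : Chart n X) (ψ : Cm n → ℝ) (s : D.Ten n p X), LocRep w ψ s e x u ∧
      ((C : ℂ) • θ e (e x) - ((p : ℂ) • κ e (e x) + cHess ψ (e x))).PosSemidef) :
    BochIneqT θ w C u := by
  refine bochIneqT_of hw hus hu fun d hd x => ?_
  obtain ⟨e, ψ, s, h1, h2⟩ := h x
  exact boch_loc hw (hκ e x h1.at') hθf (hric e x h1.at') hus hu
    (trE_nonneg hw.toIsHermitian (hθ e x h1.at') h1.at') hC0 h2 h1 hd

end Vale.Agent.P281.H716
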