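import Vale.Agent.P281.H716.Lin

/-! P281, theorem SAL: the generic rank of `θ`. -/

open scoped Manifold ContDiff Topology ComplexOrder Matrix
open Set Filter Vale.Agent.P281 Vale.Agent.P272.K
open Vale.Agent.P281.H949.SA

set_option linter.all false

noncomputable section

namespace Vale.Agent.P281.H716

variable {n : ℕ} {X : Type} [TopologicalSpace X] [ChartedSpace (Cm n) X]
  [IsManifold 𝓘(ℂ, Cm n) ω X] {κ : Type} {eqn : κ → X → (X → ℂ) → Prop} {T : Finset κ}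

lemma symm_tendsto {e : Chart n X} {x : X} (he : At e x) : Tendsto e.symm (𝓝 (e x)) (𝓝 x) := by
  have := e.continuousAt_symm he.mem_target
  rwa [ContinuousAt, he.left_inv] at this

lemma span_comp {ν : ℕ} {B : Fin ν → (Cm n →L[ℂ] ℂ)} {A : Cm n →L[ℂ] ℂ} {m : ℕ}
    (M : Cm m →L[ℂ] Cm n) (hA : A ∈ Submodule.span ℂ (range B)) :
    A.comp M ∈ Submodule.span ℂ (range fun l => (B l).comp M) := by
  obtain ⟨c, hc⟩ := (Submodule.mem_span_range_iff_exists_fun ℂ).1 hA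
  refine (Submodule.mem_span_range_iff_exists_fun ℂ).2 ⟨c, ?_⟩
  rw [← hc]
  ext v
  simp

namespace IsSys

lemma holV_ratio (h : IsSys n eqn T) {k : κ → ℕ} (hk : ∀ D, k D ≠ 0 → D ∈ T) {m : ℕ}
    {s₀ s₁ : X → ℂ} (hs₀ : J.IsSection (Cm n) eqn m k s₀) (hs₁ : J.IsSection (Cm n) eqn m k s₁)
    {x : X} (hx : x ∈ off eqn T) (h0 : s₀ x ≠ 0) : HolV (Cm n) (fun w => s₁ w / s₀ w) x := by
  set e : Chart n X := chartAt (Cm n) x with hed
  have he : At e x := ⟨chart_mem_atlas _ _, mem_chart_source _ _⟩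
  have hi := h.self_mem_dom x
  have h1 := h.cR_hol hk hs₀ hi he
  have h2 := h.cR_hol hk hs₁ hi he
  have h3 : cR eqn T (h.GG k x) m s₀ e x ≠ 0 := by
    rw [h.cR_eq hk hs₀ hi he hx]
    exact div_ne_zero (mul_ne_zero h0 (h.GG_ne hi hx k)) (pow_ne_zero _ (dj_ne_zero he))
  refine (h2.div h1 h3).congr ?_
  filter_upwards [at_ev he, h.dom_ev hi, h.isOpen_off.mem_nhds hx] with z h4 h5 h6
  rw [h.cR_eq hk hs₀ h5 h4 h6, h.cR_eq hk hs₁ h5 h4 h6,
    div_div_div_cancel_right₀ (pow_ne_zero _ (dj_ne_zero h4)),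
    mul_div_mul_right _ _ (h.GG_ne h5 h6 k)]

theorem core [Nonempty X] (h : IsSys n eqn T) {mP : ℕ} {kP : κ → ℕ}
    (hkP : ∀ D, kP D ≠ 0 → D ∈ T) {ι : Type} [Finite ι] {P : ι → X → ℂ}
    (hP : ∀ i, J.IsSection (Cm n) eqn mP kP (P i))
    {θ : Chart n X → Cm n → Matrix (Fin n) (Fin n) ℂ}
    (hθ : ∀ e x, At e x → ∀ i j, ContinuousAt (fun z => θ e z i j) (e x))
    (hP0 : ∀ x ∈ off eqn T, ∃ i, P i x ≠ 0)
    (hker : ∀ e x, At e x → x ∈ off eqn T → ∀ i₀, P i₀ x ≠ 0 → ∀ v : Cm n,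
      (∀ j, ∑ i, v i * θ e (e x) i j = 0) ↔
        ∀ i, fderiv ℂ (fun z => P i (e.symm z) / P i₀ (e.symm z)) (e x) v = 0) :
    ∃ (ν : ℕ) (p : Fin (ν + 1) → ι), (∀ e x, At e x → (θ e (e x)).rank ≤ ν) ∧
      (∃ x ∈ off eqn T, Ind n (fun b => P (p b)) x) ∧
      ∀ x ∈ off eqn T, Ind n (fun b => P (p b)) x → ∀ e, At e x →
        (θ e (e x)).rank = ν ∧ ∀ A : Cm n →L[ℂ] ℂ,
          (∀ v, (∀ j, ∑ i, v i * θ e (e x) i j = 0) → A v = 0) →
          A.comp (De e x) ∈ Submodule.span ℂ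
            (range fun l : Fin ν => dV (Cm n) (fun w => P (p l.succ) w / P (p 0) w) x) := by
  classical
  -- the differentials
  have hdV : ∀ {x : X} {e : Chart n X} (i i₀ : ι), At e x → x ∈ off eqn T → P i₀ x ≠ 0 →
      dV (Cm n) (fun w => P i w / P i₀ w) x =
        (fderiv ℂ (fun z => P i (e.symm z) / P i₀ (e.symm z)) (e x)).comp (De e x) :=
    fun i i₀ he hx h0 => dV_eq_fderiv he (h.holV_ratio hkP (hP i₀) (hP i) hx h0)
  set R : Set ℕ := {r | ∃ x ∈ off eqn T, ∃ e : Chart n X, At e x ∧ (θ e (e x)).rank = r} with hR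
  have hRb : BddAbove R := by
    refine ⟨n, ?_⟩
    rintro r ⟨x, hx, e, he, rfl⟩
    have := Matrix.rank_le_card_width (θ e (e x))
    simpa using this
  have hRne : R.Nonempty := by
    obtain ⟨x, hx⟩ := h.dense_off.nonempty
    exact ⟨_, x, hx, chartAt (Cm n) x, ⟨chart_mem_atlas _ _, mem_chart_source _ _⟩, rfl⟩
  obtain ⟨ν, hνR, hνmax⟩ : ∃ ν ∈ R, ∀ r ∈ R, r ≤ ν :=
    ⟨sSup R, Nat.sSup_mem hRne hRb, fun r hr => le_csSup hRb hr⟩
  have hle : ∀ e x, At e x → (θ e (e x)).rank ≤ ν := by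
    intro e x he
    by_contra hcon
    have h1 := rank_lsc (r := ν + 1) (hθ e x he) (by omega)
    have h2 : ∀ᶠ y in 𝓝 x, ν + 1 ≤ (θ e (e y)).rank :=
      (e.continuousAt he.2).tendsto.eventually h1
    obtain ⟨y, hy, hy1, hy2⟩ := ((h.freq_off x).and_eventually (h2.and (at_ev he))).exists
    have := hνmax _ ⟨y, hy, e, hy2, rfl⟩
    omega
  obtain ⟨x₁, hx₁, e₁, he₁, hrk₁⟩ := hνR
  obtain ⟨i₀, hi₀⟩ := hP0 x₁ hx₁
  obtain ⟨g, hg⟩ : ∃ g : Fin ν → ι, LinearIndependent ℂ fun l => fderiv ℂ (fun z =>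
      P (g l) (e₁.symm z) / P i₀ (e₁.symm z)) (e₁ x₁) := by
    rw [← hrk₁]
    exact exists_indep
      (fun i => fderiv ℂ (fun z => P i (e₁.symm z) / P i₀ (e₁.symm z)) (e₁ x₁))
      (H := θ e₁ (e₁ x₁)) (fun v => mem_KH.trans (hker e₁ x₁ he₁ hx₁ i₀ hi₀ v))
  have hone : ∀ B : Cm n →L[ℂ] ℂ, (1 : ℂ) • B = B := fun B => one_smul _ B
  refine ⟨ν, Fin.cons i₀ g, hle, ⟨x₁, hx₁, ?_⟩, ?_⟩
  · refine ⟨hi₀, ?_⟩
    have h1 : (fun b : Fin ν => dV (Cm n) (fun w => P ((Fin.cons i₀ g : Fin (ν + 1) → ι) b.succ) w /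
        P ((Fin.cons i₀ g : Fin (ν + 1) → ι) 0) w) x₁) = fun b : Fin ν => ((1 : ℂ) •
        fderiv ℂ (fun z => P (g b) (e₁.symm z) / P i₀ (e₁.symm z)) (e₁ x₁)).comp (De e₁ x₁) := by
      funext b
      rw [Fin.cons_succ, Fin.cons_zero, hdV (g b) i₀ he₁ hx₁ hi₀, hone]
    show LinearIndependent ℂ (fun b : Fin ν => dV (Cm n)
      (fun w => P ((Fin.cons i₀ g : Fin (ν + 1) → ι) b.succ) w /
        P ((Fin.cons i₀ g : Fin (ν + 1) → ι) 0) w) x₁)
    rw [h1]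
    exact (indep_comp_iff (dj_ne_zero he₁) one_ne_zero).2 hg
  · generalize (Fin.cons i₀ g : Fin (ν + 1) → ι) = p
    intro x hx hind e he
    have h0 : P (p 0) x ≠ 0 := hind.1
    set B : Fin ν → (Cm n →L[ℂ] ℂ) := fun l =>
      fderiv ℂ (fun z => P (p l.succ) (e.symm z) / P (p 0) (e.symm z)) (e x) with hBdef
    have h1 : (fun l : Fin ν => dV (Cm n) (fun w => P (p l.succ) w / P (p 0) w) x) =
        fun l => ((1 : ℂ) • B l).comp (De e x) := by
      funext l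
      rw [hdV _ _ he hx h0, hone]
    have hB : LinearIndependent ℂ B := by
      have h2 : LinearIndependent ℂ
        (fun l : Fin ν => dV (Cm n) (fun w => P (p l.succ) w / P (p 0) w) x) := hind.2
      rw [h1] at h2
      exact (indep_comp_iff (dj_ne_zero he) one_ne_zero).1 h2
    obtain ⟨hrk, hsp⟩ := span_of_kills hB (hle e x he) (fun l v hv =>
      (hker e x he hx (p 0) h0 v).1 (mem_KH.1 hv) (p l.succ))
    refine ⟨hrk, fun A hA => ?_⟩
    have h3 := span_comp (De e x) (hsp A fun v hv => hA v (mem_KH.1 hv))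
    have h4 : (fun l => (B l).comp (De e x)) =
        fun l : Fin ν => dV (Cm n) (fun w => P (p l.succ) w / P (p 0) w) x := by
      rw [h1]
      funext l
      rw [hone]
    rwa [h4] at h3

end IsSys

end Vale.Agent.P281.H716
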