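import Vale.Agent.P281.H716.Main

/-! P281, theorem SAL. -/

open scoped Manifold ContDiff Topology ComplexOrder Matrix
open Set Filter Vale.Agent.P281 Vale.Agent.P272.K Vale.Agent.P299.D
open Vale.Agent.P281.H949.SA Vale.Agent.P281.H716.IsSys Vale.Agent.P281.MF Vale.Agent.P281.ISO
open Vale.Agent.P281.H713

set_option linter.all false

noncomputable section

namespace Vale.Agent.P281.H716

theorem mainPartL_of (hT : TensorPartL) : MainPartL := by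
  intro n p d hnpd X Z Y F _ _ _ _ _ _ _ _ _ _ _ _ _ _ _ _ _ _ _ _ χ hχ Δ hΔ hsa hsp j hj f hf
    𝒢 h𝒢 Δ' hΔ' hres hbase i hi hne
  obtain ⟨m₁, N, s, hm₁, hs, hs0⟩ := hsa
  obtain ⟨t, ht0, ht1, m, M, k, r, hm, hk, hr, hrg⟩ := hsp
  replace hk : ∀ D, (k D : ℝ) = m * (t * Δ D) := hk
  set T : Finset (Set X) := hΔ.1.toFinset with hTdef
  have hTΔ : ∀ D, D ∈ T ↔ Δ D ≠ 0 := fun D => Set.Finite.mem_toFinset _
  have hTex : ∀ D ∈ T, ∀ x, ∃ g, J.IsLocalEq (Cm n) D g x := fun D hD =>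
    (hΔ.2.1 D ((hTΔ D).1 hD)).2.1
  have hsX : IsSys n (eqL n) T := isSys_eqL hTex
  have hΔ0 : ∀ D, 0 ≤ Δ D := by
    intro D
    obtain ⟨q, hq, hq0, -⟩ := hΔ.2.2.1 D
    rw [hq]
    exact_mod_cast hq0
  have hsupp : ∀ D, k D ≠ 0 → D ∈ T := by
    intro D hD
    refine (hTΔ D).2 fun h0 => hD ?_
    have h3 := hk D
    rw [h0, mul_zero, mul_zero] at h3
    exact_mod_cast h3
  have hgen : Gen n (eqL n) T k m r := ⟨hsupp, hr, hrg⟩
  have hjh : ∀ z, HolM (Cm n) (Cm n) j z := fun z => hj.1 z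
  have hfh : ∀ z, HolM (Cm n) (Cm p) f z := fun z => hf z
  have hih : ∀ z, HolM (Cm d) (Cm n) i z := fun z => hi.hol z
  have hρ : ∀ t, HolM (Cm d) (Cm n) (fun t => j (i t)) t := fun t =>
    ContMDiffAt.comp t (hjh (i t)) (hih t)
  have hsF : IsSys d (eqF n (fun t => j (i t))) T := isSys_eqF hρ hTex fun D hD =>
    hne D ((hTΔ D).1 hD)
  have hjd : ∀ z, (dM (Cm n) (Cm n) j z).det ≠ 0 := fun z => det_ne_of_inj (hj.2.2.1 z)
  obtain ⟨G, hG0, hG⟩ := adjF (n := n) (p := p) (d := d) hnpd hjh hjd hfh hi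
  -- on `X`
  obtain ⟨R, hRo, hRd, hflat⟩ := exists_flatTen hχ (Δ := Δ) hsX hm₁ hm hs hs0 hgen ht0 hk
  -- on `F`
  have himm : ∀ t, Function.Injective (mfderiv 𝓘(ℂ, Cm d) 𝓘(ℂ, Cm n) (fun t => j (i t)) t) := by
    intro t
    have h1 : mfderiv 𝓘(ℂ, Cm d) 𝓘(ℂ, Cm n) (fun t => j (i t)) t =
        (mfderiv 𝓘(ℂ, Cm n) 𝓘(ℂ, Cm n) j (i t)).comp (mfderiv 𝓘(ℂ, Cm d) 𝓘(ℂ, Cm n) i t) :=
      mfderiv_comp t ((hjh (i t)).mdifferentiableAt (by simp))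
        ((hih t).mdifferentiableAt (by simp))
    rw [h1]
    exact (hj.2.2.1 (i t)).comp (hi.immersive t)
  obtain ⟨χF, hχF⟩ := H167.SA.pullPart n d X F (fun t => j (i t)) hρ himm χ hχ
  have hsF' : ∀ b, SA.IsPluri (n := d) m₁ (fun t => s b (j (i t)) * G t ^ m₁) := fun b =>
    section_zero (restr_sec hρ hG (hs b))
  have hsF0 : ∀ t, ∃ b, s b (j (i t)) * G t ^ m₁ ≠ 0 := by
    intro t
    obtain ⟨b, hb⟩ := hs0 (j (i t))
    exact ⟨b, mul_ne_zero hb (pow_ne_zero _ (hG0 t))⟩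
  have hgenF : Gen d (eqF n (fun t => j (i t))) T k m (fun c t => r c (j (i t)) * G t ^ m) := by
    refine ⟨hsupp, fun c => restr_sec hρ hG (hr c), fun t => ?_⟩
    obtain ⟨c, hc⟩ := hrg (j (i t))
    exact ⟨c, restr_gen hρ hG hc⟩
  obtain ⟨RF, hRFd, hRF0, hflatF⟩ := exists_flatSec hχF (Δ := Δ) hsF hm₁ hm hsF' hsF0 hgenF ht0 hk
  have hPF : PP (fun b t => s b (j (i t)) * G t ^ m₁) (fun c t => r c (j (i t)) * G t ^ m) =
      fun a t => PP s r a (j (i t)) * G t ^ (m₁ + m) := by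
    funext a t
    simp only [PP]
    rw [pow_add]
    ring
  rw [hPF] at hflatF hRF0
  refine main_abs hT hnpd hΔ hj hf h𝒢 hΔ' hres hbase hi hne (mP := m₁ + m) (by omega) (kP := k)
    (fun D => ?_) (P := PP s r) (hsX.PP_sec hs hgen) hG0 hG hRo hRd hflat hRFd hflatF ?_
  · rw [hk, Nat.cast_add]
    have h1 : t * Δ D ≤ 1 * Δ D := mul_le_mul_of_nonneg_right ht1 (hΔ0 D)
    have h2 : (m : ℝ) * (t * Δ D) ≤ m * Δ D := by
      rw [one_mul] at h1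
      exact mul_le_mul_of_nonneg_left h1 (Nat.cast_nonneg m)
    have h3 : 0 ≤ (m₁ : ℝ) * Δ D := mul_nonneg (Nat.cast_nonneg _) (hΔ0 D)
    rw [add_mul]
    linarith
  · intro t ht
    obtain ⟨a, ha⟩ := hRF0 t ht
    exact ⟨a, left_ne_zero_of_mul ha⟩

/-- **Theorem SAL** -/
theorem mainPartL : MainPartL := mainPartL_of Vale.Agent.P281.H787.tensorPartL

end Vale.Agent.P281.H716
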