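import Vale.Agent.P281.H716.Boch
import Vale.Agent.P281.H716.Iface
import Vale.Agent.P281.H156.SA.Core
import Vale.Agent.P285.H591.TM.Cv

/-! P281, theorem SAL, block X: from the flatness theorem for a closed semipositive form `θ` to
`XPartL` (line bundle valued tensors). -/

open scoped Manifold ContDiff ComplexOrder Topology Matrix
open Filter
open Vale.Agent.P272.K Vale.Agent.P272.K.AMP Vale.Agent.P299
open Vale.Agent.P299.H937 (nTen sqL sqL_eq nTen_eq metL rowT)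
open Vale.Agent.P299.H882 (xi)
open Vale.Agent.P281.H167.SA
open Vale.Agent.P284.H248 Vale.Agent.P285.TM Vale.Agent.P285.H591.TM
open Vale.Agent.P299.D (tenPull)

set_option linter.all false

noncomputable section

namespace Vale.Agent.P281.H716

section sum

variable {n p : ℕ} {X : Type*} [TopologicalSpace X] [ChartedSpace (Cm n) X]
  {w : D.FormM n X} {e e' : Chart n X} {x : X}

/-- `|s|²` at a point -/
def sq0 (A : Matrix (Fin n) (Fin n) ℂ) (s : (Fin p → Fin n) → ℂ) : ℂ :=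
  ∑ I, ∑ J, s I * (starRingEnd ℂ) (s J) * ∏ a, A⁻¹ (J a) (I a)

lemma sq0_smul (A : Matrix (Fin n) (Fin n) ℂ) (c : ℂ) (s : (Fin p → Fin n) → ℂ) :
    sq0 A (fun I => c * s I) = ((‖c‖ ^ 2 : ℝ) : ℂ) * sq0 A s := by
  unfold sq0
  rw [Finset.mul_sum]
  refine Finset.sum_congr rfl fun I _ => ?_
  rw [Finset.mul_sum]
  refine Finset.sum_congr rfl fun J _ => ?_
  rw [Complex.ofReal_pow, ← Complex.mul_conj', map_mul]
  ring

/-- the metric of covariant tensors -/
lemma sq0_eq (s : (Fin p → Fin n) → ℂ) (e : Chart n X) (z : Cm n) :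
    sq0 (w e z) s = ((Matrix.of fun _ I => s I : Matrix Unit (Fin p → Fin n) ℂ) *
      H954.tp p (H954.dual (w e) z) *
      (Matrix.of fun _ I => s I : Matrix Unit (Fin p → Fin n) ℂ)ᴴ) () () := by
  have h1 := sqL_eq (w := w) (φ := fun _ _ => 0) (m := 0) (s := (fun _ _ => s : D.Ten n p X)) e z
  have h2 : sqL w (fun _ _ => 0) 0 (fun _ _ => s : D.Ten n p X) e z =
      ((Matrix.of fun _ I => s I : Matrix Unit (Fin p → Fin n) ℂ) *
      H954.tp p (H954.dual (w e) z) *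
      (Matrix.of fun _ I => s I : Matrix Unit (Fin p → Fin n) ℂ)ᴴ) () () := by
    unfold sqL metL rowT
    simp
  rw [← h2, h1]
  simp [sq0]

/-- change of charts -/
theorem sq0_change [IsManifold 𝓘(ℂ, Cm n) ω X] (hw : IsHermitian w) (hx : At e x) (hx' : At e' x)
    {s s' : (Fin p → Fin n) → ℂ} (hs : ∀ I, s I = tenPull (jacM e e' x) s' I) :
    sq0 (w e (e x)) s = sq0 (w e' (e' x)) s' := by
  set J := jacM e e' x with hJ
  have hJu : IsUnit J.det := jacM_isUnit hx hx'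
  have hw1 := hw.change e e' x hx hx'
  rw [← hJ] at hw1
  have hd : H954.dual (w e) (e x) = J⁻¹ * H954.dual (w e') (e' x) * (J⁻¹)ᴴ := by
    unfold H954.dual
    rw [hw1, inv_form hJu]
    simp only [Matrix.transpose_mul, Matrix.transpose_nonsing_inv, Matrix.transpose_transpose,
      Matrix.mul_assoc]
    congr 3
    rw [Matrix.conjTranspose_nonsing_inv]
    rfl
  have hm : H954.tp p (H954.dual (w e) (e x)) = H954.tp p J⁻¹ * H954.tp p (H954.dual (w e') (e' x)) *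
      (H954.tp p J⁻¹)ᴴ := by
    rw [hd, H954.tp_mul, H954.tp_mul, H954.tp_conjTranspose]
  have h1 : H954.tp p J * H954.tp p J⁻¹ = 1 := by
    rw [← H954.tp_mul, Matrix.mul_nonsing_inv _ hJu, H954.tp_one]
  have h2 : (H954.tp p J⁻¹)ᴴ * (H954.tp p J)ᴴ = 1 := by
    rw [← Matrix.conjTranspose_mul, h1, Matrix.conjTranspose_one]
  have hrow : (Matrix.of fun _ I => s I : Matrix Unit (Fin p → Fin n) ℂ) =
      (Matrix.of fun _ I => s' I : Matrix Unit (Fin p → Fin n) ℂ) * H954.tp p J := by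
    ext i I
    show s I = _
    rw [hs I, tenPull, Matrix.mul_apply]
    refine Finset.sum_congr rfl fun K _ => ?_
    show _ = s' K * ∏ a, J (K a) (I a)
    rw [mul_comm]
  rw [sq0_eq, sq0_eq, hrow, hm, Matrix.conjTranspose_mul]
  congr 1
  set R : Matrix Unit (Fin p → Fin n) ℂ := Matrix.of fun _ I => s' I
  have e1 : R * H954.tp p J * (H954.tp p J⁻¹ * H954.tp p (H954.dual (w e') (e' x)) *
      (H954.tp p J⁻¹)ᴴ) * ((H954.tp p J)ᴴ * Rᴴ) = R * H954.tp p (H954.dual (w e') (e' x)) * Rᴴ := by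
    calc _ = R * (H954.tp p J * H954.tp p J⁻¹) * H954.tp p (H954.dual (w e') (e' x)) *
        ((H954.tp p J⁻¹)ᴴ * (H954.tp p J)ᴴ) * Rᴴ := by simp only [Matrix.mul_assoc]
      _ = _ := by rw [h1, h2]; simp only [Matrix.mul_assoc, Matrix.mul_one]
  exact congrFun (congrFun e1 ()) ()

end sum

section

variable {n q : ℕ} {X : Type} [TopologicalSpace X] [ChartedSpace (Cm n) X]
  {g : Chart n X → Cm n → Matrix (Fin n) (Fin n) ℂ}
  {L : LineBundle n X} {ψ : L.ι → X → ℝ} {τ0 τ1 : TSec L q} {e : Chart n X} {x : X}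

lemma nL_eq' (ψ : Cm n → ℝ) (s : D.Ten n q X) (e : Chart n X) (z : Cm n) :
    nL g ψ s e z = Real.exp (-ψ z) * (sq0 (g e z) (s e z)).re := nL_eq ψ s e z

/-- the square of the norm of a section of the bundle of L-valued covariant q-tensors -/
def nT (g : Chart n X → Cm n → Matrix (Fin n) (Fin n) ℂ) (ψ : L.ι → X → ℝ) (τ : TSec L q)
    (x : X) : ℝ :=
  Real.exp (-ψ (idx L x) x) *
    (sq0 (g (chartAt (Cm n) x) (chartAt (Cm n) x x)) (τ.f (idx L x) (chartAt (Cm n) x)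
      (chartAt (Cm n) x x))).re

variable [IsManifold 𝓘(ℂ, Cm n) ω X]

lemma nT_eq (hg : IsHermitian g) (hψ : Wt L ψ) (τ : TSec L q) (hx : At e x) {i : L.ι}
    (hi : x ∈ L.U i) : nT g ψ τ x = Real.exp (-ψ i x) * (sq0 (g e (e x)) (τ.f i e (e x))).re := by
  have hc := at_chartAt (n := n) x
  set c : Chart n X := chartAt (Cm n) x with hcd
  have hj := mem_idx L x
  set j := idx L x with hjd
  have h1 : sq0 (g c (c x)) (τ.f j c (c x)) = sq0 (g e (e x)) (τ.f j e (e x)) :=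
    sq0_change hg hc hx fun I => τ.change j c e x hc hx hj I
  have h2 : τ.f j e (e x) = fun I => L.g j i x * τ.f i e (e x) I :=
    funext fun I => τ.glue j i e x hx hj hi I
  have hne : (0 : ℝ) < ‖L.g j i x‖ := norm_pos_iff.2 (L.ne_zero j i x hj hi)
  show Real.exp (-ψ j x) * (sq0 (g c (c x)) (τ.f j c (c x))).re = _
  rw [h1, h2, sq0_smul, Complex.re_ofReal_mul, hψ.change j i x hj hi, neg_add, Real.exp_add,
    Real.exp_neg (Real.log _), Real.exp_log (by positivity)]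
  field_simp

lemma nT_loc (hg : IsHermitian g) (hψ : Wt L ψ) (τ : TSec L q) (hx : At e x) {i : L.ι}
    (hi : x ∈ L.U i) : LocRep g (fun z => ψ i (e.symm z)) (τ.f i) e x (nT g ψ τ) := by
  refine ⟨hx, τ.holo i e x hx hi, hψ.smooth i e x hx hi, ?_⟩
  filter_upwards [mem_U_nhds hx hi, hx.nhds_target] with z h1 h2
  have h3 := At.of_target hx.1 h2
  rw [nL_eq', nT_eq hg hψ τ h3 h1, e.right_inv h2]

lemma nT_smooth (hg : IsHermitian g) (hψ : Wt L ψ) (τ : TSec L q) :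
    SmoothFn (n := n) (nT g ψ τ) := by
  intro e x hx
  obtain ⟨i, hi⟩ := L.cover x
  have h := nT_loc hg hψ τ hx hi
  have h1 := contDiff_sqL' (ψ := fun z => ψ i (e.symm z)) hg hx h.holo h.smooth
  refine (Complex.reCLM.contDiff.contDiffAt.comp (e x) h1).congr_of_eventuallyEq ?_
  filter_upwards [h.eq] with z hz
  rw [hz, nL, nTen_eq]
  rfl

lemma nT_nonneg (hg : IsHermitian g) (hψ : Wt L ψ) (τ : TSec L q) (x : X) : 0 ≤ nT g ψ τ x := by
  have hx := at_chartAt (n := n) x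
  have hi := mem_idx L x
  have h := (nT_loc hg hψ τ hx hi).eq.self_of_nhds
  rw [hx.left_inv] at h
  rw [h]
  exact H937.nTen_nonneg (hg.posDef _ x hx)

lemma nT_eq_zero_iff (hg : IsHermitian g) (hψ : Wt L ψ) (τ : TSec L q) (hx : At e x) {i : L.ι}
    (hi : x ∈ L.U i) : nT g ψ τ x = 0 ↔ ∀ I, τ.f i e (e x) I = 0 := by
  have h := (nT_loc hg hψ τ hx hi).eq.self_of_nhds
  rw [hx.left_inv] at h
  rw [h]
  exact H937.nTen_eq_zero_iff (hg.posDef e x hx)

lemma nT_pos (hg : IsHermitian g) (hψ : Wt L ψ) (τ : TSec L q) (hx : At e x) {i : L.ι}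
    (hi : x ∈ L.U i) {I : Fin q → Fin n} (hI : τ.f i e (e x) I ≠ 0) : 0 < nT g ψ τ x :=
  lt_of_le_of_ne (nT_nonneg hg hψ τ x) fun h0 =>
    hI ((nT_eq_zero_iff hg hψ τ hx hi).1 h0.symm I)

/-- `log |τ1|² - log |τ0|²` -/
def uL (g : Chart n X → Cm n → Matrix (Fin n) (Fin n) ℂ) (ψ : L.ι → X → ℝ)
    (τ0 τ1 : TSec L q) : X → ℝ :=
  fun x => Real.log (nT g ψ τ1 x) - Real.log (nT g ψ τ0 x)

lemma uL_eq (hg : IsHermitian g) (hψ : Wt L ψ) (hx : At e x) {i : L.ι} (hi : x ∈ L.U i)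
    {I : Fin q → Fin n} (hI : τ0.f i e (e x) I ≠ 0) {c : ℂ} (hc0 : c ≠ 0)
    (hc : ∀ I, τ1.f i e (e x) I = c * τ0.f i e (e x) I) : uL g ψ τ0 τ1 x = Real.log (‖c‖ ^ 2) := by
  have p0 := nT_pos hg hψ τ0 hx hi hI
  have hn := norm_pos_iff.2 hc0
  have h1 : nT g ψ τ1 x = ‖c‖ ^ 2 * nT g ψ τ0 x := by
    rw [nT_eq hg hψ τ1 hx hi, nT_eq hg hψ τ0 hx hi, show τ1.f i e (e x) =
      fun I => c * τ0.f i e (e x) I from funext hc, sq0_smul, Complex.re_ofReal_mul]
    ring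
  rw [uL, h1, Real.log_mul (by positivity) p0.ne', add_sub_cancel_right]

/-- proportional sections -/
def Prop1 (τ0 τ1 : TSec L q) : Prop := ∀ i e x, At e x → x ∈ L.U i → ∀ I J,
    τ0.f i e (e x) I * τ1.f i e (e x) J = τ0.f i e (e x) J * τ1.f i e (e x) I

lemma prop_const' (hp : Prop1 τ0 τ1) (hx : At e x) {i : L.ι} (hi : x ∈ L.U i)
    {J : Fin q → Fin n} (hJ : τ0.f i e (e x) J ≠ 0) (I : Fin q → Fin n) :
    τ1.f i e (e x) I = τ1.f i e (e x) J / τ0.f i e (e x) J * τ0.f i e (e x) I := by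
  have := hp i e x hx hi I J
  field_simp
  linear_combination -this

/-- the open set where `τ0` and `τ1` do not vanish -/
def nzL (g : Chart n X → Cm n → Matrix (Fin n) (Fin n) ℂ) (ψ : L.ι → X → ℝ)
    (τ0 τ1 : TSec L q) : Set X := {x | 0 < nT g ψ τ0 x ∧ 0 < nT g ψ τ1 x}

lemma isOpen_nzL [T2Space X] [CompactSpace X] (hg : IsHermitian g) (hψ : Wt L ψ) :
    IsOpen (nzL g ψ τ0 τ1) :=
  (isOpen_lt continuous_const (sm_continuous (nT_smooth hg hψ τ0))).inter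
    (isOpen_lt continuous_const (sm_continuous (nT_smooth hg hψ τ1)))

variable {χ : Chart n X → Cm n → Matrix (Fin n) (Fin n) ℂ} {φ : Chart n X → Cm n → ℝ}
  {θ : Chart n X → Cm n → Matrix (Fin n) (Fin n) ℂ} {C : ℝ}

lemma exists_ne_of_pos (hg : IsHermitian g) (hψ : Wt L ψ) {τ : TSec L q} (hx : At e x)
    {i : L.ι} (hi : x ∈ L.U i) (h : 0 < nT g ψ τ x) : ∃ I, τ.f i e (e x) I ≠ 0 := by
  by_contra hcon
  push Not at hcon
  exact h.ne' ((nT_eq_zero_iff hg hψ τ hx hi).2 hcon)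

/-- the structure used by the core -/
theorem uL_struct (hχ : IsKahler χ) (hφ : IsCanonicalMetric φ)
    (hK : ∀ e x, At e x → (cHess (φ e) (e x)).PosSemidef) (hθc : INT.IsClosedForm θ)
    (hθ : ∀ e x, At e x → (θ e (e x)).PosSemidef) (hC : 0 ≤ C)
    (hKC : ∀ e x, At e x → ((C : ℂ) • θ e (e x) - cHess (φ e) (e x)).PosSemidef) (hψ : Wt L ψ)
    (hLC : ∀ i e x, At e x → x ∈ L.U i → ((C : ℂ) • θ e (e x) - hess (ψ i) e (e x)).PosSemidef)
    (hp : Prop1 τ0 τ1) (hg : IsKahler g)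
    (hdet : ∃ c : ℝ, ∀ e x, At e x → Real.log (g e (e x)).det.re = φ e (e x) + c) :
    ∃ S S0 : X → ℝ, SmoothFn (n := n) S ∧ SmoothFn (n := n) S0 ∧ (∀ x, 0 ≤ S x) ∧
      (∀ x, 0 ≤ S0 x) ∧ (∀ x ∈ nzL χ ψ τ0 τ1, 0 < S x ∧ 0 < S0 x ∧
        uL χ ψ τ0 τ1 x = Real.log (S x) - Real.log (S0 x)) ∧
      BochIneqT θ g ((q + 1) * C) S ∧ BochIneqT θ g ((q + 1) * C) S0 := by
  have hgH := hg.toIsHermitian
  have hχH := hχ.toIsHermitian
  have hq : 0 ≤ ((q : ℝ) + 1) * C := by positivity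
  have hB : ∀ τ : TSec L q, BochIneqT θ g ((q + 1) * C) (nT g ψ τ) := by
    intro τ
    refine bochIneq_loc (p := q) (κ := fun e z => cHess (φ e) z) hg hθ hθc.form hK
      (fun e x hx => ric_of_logdet hdet hφ hx) (nT_smooth hgH hψ τ) (nT_nonneg hgH hψ τ) hq
      fun x => ?_
    have hx := at_chartAt (n := n) x
    have hi := mem_idx L x
    refine ⟨_, _, _, nT_loc hgH hψ τ hx hi, ?_⟩
    have h1 := hKC _ x hx
    have h2 := hLC _ _ x hx hi
    have h3 : ((((q : ℝ) + 1) * C : ℝ) : ℂ) • θ (chartAt (Cm n) x) (chartAt (Cm n) x x) -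
        ((q : ℂ) • cHess (φ (chartAt (Cm n) x)) (chartAt (Cm n) x x) +
          cHess (fun z => ψ (idx L x) ((chartAt (Cm n) x).symm z)) (chartAt (Cm n) x x)) =
        (q : ℂ) • ((C : ℂ) • θ (chartAt (Cm n) x) (chartAt (Cm n) x x) -
          cHess (φ (chartAt (Cm n) x)) (chartAt (Cm n) x x)) +
        ((C : ℂ) • θ (chartAt (Cm n) x) (chartAt (Cm n) x x) -
          hess (ψ (idx L x)) (chartAt (Cm n) x) (chartAt (Cm n) x x)) := by
      rw [smul_sub, smul_smul]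
      have h4 : ((((q : ℝ) + 1) * C : ℝ) : ℂ) = (q : ℂ) * C + C := by push_cast; ring
      rw [h4, add_smul]
      unfold hess
      abel
    rw [h3]
    refine Matrix.PosSemidef.add ?_ h2
    have h5 := h1.smul (show (0 : ℂ) ≤ (q : ℂ) by exact_mod_cast Nat.zero_le q)
    exact h5
  refine ⟨nT g ψ τ1, nT g ψ τ0, nT_smooth hgH hψ τ1, nT_smooth hgH hψ τ0, nT_nonneg hgH hψ τ1,
    nT_nonneg hgH hψ τ0, ?_, hB τ1, hB τ0⟩
  rintro x ⟨hx0, hx1⟩
  have hx := at_chartAt (n := n) x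
  have hi := mem_idx L x
  obtain ⟨J, hJ⟩ := exists_ne_of_pos hχH hψ hx hi hx0
  obtain ⟨J1, hJ1⟩ := exists_ne_of_pos hχH hψ hx hi hx1
  have hprop := prop_const' hp hx hi hJ
  have hc0 : τ1.f (idx L x) (chartAt (Cm n) x) (chartAt (Cm n) x x) J /
      τ0.f (idx L x) (chartAt (Cm n) x) (chartAt (Cm n) x x) J ≠ 0 := by
    intro h
    apply hJ1
    rw [hprop J1, h, zero_mul]
  refine ⟨nT_pos hgH hψ τ1 hx hi hJ1, nT_pos hgH hψ τ0 hx hi hJ, ?_⟩
  have r1 := uL_eq hχH hψ hx hi hJ hc0 hprop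
  have r2 := uL_eq hgH hψ hx hi hJ hc0 hprop
  rw [r1, ← r2, uL]

/-- the covector of `log |τ1|² - log |τ0|²` is `∂f/f` -/
theorem xi_uL (hg : IsHermitian g) (hψ : Wt L ψ) (hp : Prop1 τ0 τ1) (hx : At e x) {i : L.ι}
    (hi : x ∈ L.U i) {I : Fin q → Fin n} (hI : τ0.f i e (e x) I ≠ 0)
    (hI1 : τ1.f i e (e x) I ≠ 0) (l : Fin n) :
    xi (uL g ψ τ0 τ1) e (e x) l = dz l (fun z => τ1.f i e z I / τ0.f i e z I) (e x) /
      (τ1.f i e (e x) I / τ0.f i e (e x) I) := by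
  have a0 := τ0.holo i e x hx hi I
  have a1 := τ1.holo i e x hx hi I
  have hf : AnalyticAt ℂ (fun z => τ1.f i e z I / τ0.f i e z I) (e x) := a1.div a0 hI
  have hloc : (fun y => ((uL g ψ τ0 τ1 (e.symm y) : ℝ) : ℂ)) =ᶠ[𝓝 (e x)]
      fun y => ((Real.log (‖τ1.f i e y I / τ0.f i e y I‖ ^ 2) : ℝ) : ℂ) := by
    filter_upwards [a0.continuousAt.eventually_ne hI, a1.continuousAt.eventually_ne hI1,
      hx.nhds_target, mem_U_nhds hx hi] with z hz1 hz2 hz4 hz5
    have hz : At e (e.symm z) := At.of_target hx.1 hz4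
    have er : e (e.symm z) = z := e.right_inv hz4
    have hz1' : τ0.f i e (e (e.symm z)) I ≠ 0 := by rwa [er]
    have := uL_eq hg hψ hz hz5 hz1' (τ1 := τ1)
      (c := τ1.f i e (e (e.symm z)) I / τ0.f i e (e (e.symm z)) I)
      (by rw [er]; exact div_ne_zero hz2 hz1) (prop_const' hp hz hz5 hz1')
    rw [this, er]
  have hne : τ1.f i e (e x) I / τ0.f i e (e x) I ≠ 0 := div_ne_zero hI1 hI
  unfold xi
  rw [INT.dz_congr hloc]
  exact H882.dz_log_norm_sq (f := fun z => τ1.f i e z I / τ0.f i e z I) hf.differentiableAt hne l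

/-- `τ1 + c τ0` -/
def TSec.addSmul (τ1 τ0 : TSec L q) (c : ℂ) : TSec L q where
  f i e z I := τ1.f i e z I + c * τ0.f i e z I
  holo i e x hx hi I := (τ1.holo i e x hx hi I).add (analyticAt_const.mul (τ0.holo i e x hx hi I))
  change i e e' x hx hx' hi I := by
    rw [τ1.change i e e' x hx hx' hi I, τ0.change i e e' x hx hx' hi I]
    simp only [tenPull, mul_add, Finset.sum_add_distrib, Finset.mul_sum]
    congr 1
    exact Finset.sum_congr rfl fun K _ => by ring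
  glue i j e x hx hi hj I := by
    rw [τ1.glue i j e x hx hi hj I, τ0.glue i j e x hx hi hj I]
    ring

end

/-- **Block XL.** -/
theorem xPartL : XPartL := by
  intro n q X _ _ _ _ _ _ χ hχ φ hφ hK θ hθc hθ C hKC L ψ hψ hLC ν hν τ0 τ1 hp i e x hx hi I hI
    hr v hv
  -- a nonnegative constant
  wlog hC : 0 ≤ C generalizing C
  · refine this (C := 0) (fun e x hx => ?_) (fun i e x hx hi => ?_) le_rfl
    · have h1 := hKC e x hx
      have h2 := (hθ e x hx).smul (show (0 : ℂ) ≤ ((-C : ℝ) : ℂ) by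
        exact_mod_cast (neg_nonneg.2 (not_le.1 hC).le))
      have h3 := h1.add h2
      have h4 : ((C : ℂ) • θ e (e x) - cHess (φ e) (e x)) + ((-C : ℝ) : ℂ) • θ e (e x) =
          ((0 : ℝ) : ℂ) • θ e (e x) - cHess (φ e) (e x) := by
        rw [Complex.ofReal_neg, neg_smul, Complex.ofReal_zero, zero_smul]; abel
      rwa [h4] at h3
    · have h1 := hLC i e x hx hi
      have h2 := (hθ e x hx).smul (show (0 : ℂ) ≤ ((-C : ℝ) : ℂ) by
        exact_mod_cast (neg_nonneg.2 (not_le.1 hC).le))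
      have h3 := h1.add h2
      have h4 : ((C : ℂ) • θ e (e x) - hess (ψ i) e (e x)) + ((-C : ℝ) : ℂ) • θ e (e x) =
          ((0 : ℝ) : ℂ) • θ e (e x) - hess (ψ i) e (e x) := by
        rw [Complex.ofReal_neg, neg_smul, Complex.ofReal_zero, zero_smul]; abel
      rwa [h4] at h3
  have a0 := τ0.holo i e x hx hi I
  have a1 := τ1.holo i e x hx hi I
  -- make the quotient nonzero at `x`
  obtain ⟨c, hc⟩ : ∃ c : ℂ, τ1.f i e (e x) I + c * τ0.f i e (e x) I ≠ 0 := by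
    by_cases h : τ1.f i e (e x) I = 0
    · exact ⟨1, by rw [h, zero_add, one_mul]; exact hI⟩
    · exact ⟨0, by rwa [zero_mul, add_zero]⟩
  set τ2 : TSec L q := τ1.addSmul τ0 c with hτ2
  have hp2 : Prop1 τ0 τ2 := by
    intro i e x hx hi I J
    show τ0.f i e (e x) I * (τ1.f i e (e x) J + c * τ0.f i e (e x) J) =
      τ0.f i e (e x) J * (τ1.f i e (e x) I + c * τ0.f i e (e x) I)
    linear_combination hp i e x hx hi I J
  have hI2 : τ2.f i e (e x) I ≠ 0 := hc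
  obtain ⟨w, c0, hw, hdet⟩ := Vale.Agent.P281.H156.SA.exists_yau' hχ hφ
  have hwH := hw.toIsHermitian
  have hmem : x ∈ nzL w ψ τ0 τ2 := ⟨nT_pos hwH hψ τ0 hx hi hI, nT_pos hwH hψ τ2 hx hi hI2⟩
  have hm : (0 : ℝ) ≤ (q + 1) * C := by positivity
  have hq := Vale.Agent.P281.H156.SA.flat_core (θ := θ) H882.yau hw hθc hθ hm hm
    (isOpen_nzL hwH hψ (τ0 := τ0) (τ1 := τ2)) (u := uL w ψ τ0 τ2)
    (fun g hg hc => uL_struct hw hφ hK hθc hθ hC hKC hψ hLC hp2 hg (by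
      obtain ⟨c, hc⟩ := hc
      exact ⟨c0 + c, fun e x hx => by rw [hc e x hx, hdet e x hx]; ring⟩)) hν hx hmem
  rw [← hr] at hq
  have hcore := Vale.Agent.P281.H156.SA.kills_of_qn hw hθc hθ hx hq.le v hv
  simp only [xi_uL hwH hψ hp2 hx hi hI hI2] at hcore
  have hne : τ2.f i e (e x) I / τ0.f i e (e x) I ≠ 0 := div_ne_zero hI2 hI
  have hsum : ∑ l, dz l (fun z => τ2.f i e z I / τ0.f i e z I) (e x) * v l = 0 := by
    have : (∑ l, dz l (fun z => τ2.f i e z I / τ0.f i e z I) (e x) * v l) =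
        (τ2.f i e (e x) I / τ0.f i e (e x) I) *
          ∑ l, dz l (fun z => τ2.f i e z I / τ0.f i e z I) (e x) /
          (τ2.f i e (e x) I / τ0.f i e (e x) I) * v l := by
      rw [Finset.mul_sum]
      refine Finset.sum_congr rfl fun l _ => ?_
      field_simp
    rw [this, hcore, mul_zero]
  have hf1 : DifferentiableAt ℂ (fun z => τ1.f i e z I / τ0.f i e z I) (e x) :=
    (a1.div a0 hI).differentiableAt
  have hf2 : DifferentiableAt ℂ (fun z => τ2.f i e z I / τ0.f i e z I) (e x) :=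
    ((τ2.holo i e x hx hi I).div a0 hI).differentiableAt
  rw [← fderiv_eq_sum_dz hf2] at hsum
  rw [← hsum]
  have hev : (fun z => τ2.f i e z I / τ0.f i e z I) =ᶠ[𝓝 (e x)]
      fun z => τ1.f i e z I / τ0.f i e z I + c := by
    filter_upwards [a0.continuousAt.eventually_ne hI] with z hz
    show (τ1.f i e z I + c * τ0.f i e z I) / τ0.f i e z I = _
    field_simp
  rw [hev.fderiv_eq, fderiv_add_const]

end Vale.Agent.P281.H716
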