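import Vale.Agent.P281.H716.Met
import Vale.Agent.P281.H716.XL
import Vale.Agent.P285.H716.AB.Fin
import Vale.Agent.P299.H800.KOD.PX1

/-! P281, theorem SAL: ratios of sections of `m' (K_X + Δ)`, and of proportional tensors with poles,
are constant along the kernel of `θ`. -/

open scoped Manifold ContDiff Topology ComplexOrder Matrix
open Set Filter Vale.Agent.P281 Vale.Agent.P272.K Vale.Agent.P299.H223
open Vale.Agent.P284.H248 Vale.Agent.P285.TM Vale.Agent.P285.H591.TM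
open Vale.Agent.P281.H949.SA Vale.Agent.P299.D
open Vale.Agent.P272.K.AMP (hess)

set_option linter.all false

noncomputable section

namespace Vale.Agent.P281.J

theorem IsLocalEq.mem_iff' {E : Type} [NormedAddCommGroup E] [NormedSpace ℂ E] {X : Type}
    [TopologicalSpace X] [ChartedSpace E X] {D : Set X} {g : X → ℂ} {x : X}
    (h : IsLocalEq E D g x) : x ∈ D ↔ g x = 0 := by
  obtain ⟨V, -, hx, -, h2, -⟩ := h
  exact h2 x hx

end Vale.Agent.P281.J

namespace Vale.Agent.P281.H716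

section can

variable {n : ℕ} {X : Type} [TopologicalSpace X] [ChartedSpace (Cm n) X]
  [IsManifold 𝓘(ℂ, Cm n) ω X] {e e' : Chart n X} {x : X} {φ : Chart n X → Cm n → ℝ}

lemma can_local (hφ : IsCanonicalMetric φ) (he : At e x) (he' : At e' x) :
    (fun z => φ e' (e' (e.symm z))) =ᶠ[𝓝 (e x)]
      fun z => φ e z + (-1 : ℝ) * Real.log (‖(jacM e e' (e.symm z)).det‖ ^ 2) := by
  filter_upwards [he.nhds_at he'] with z hz
  have h1 := hφ.change e e' (e.symm z) hz.2.1 hz.2.2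
  rw [e.right_inv hz.1] at h1
  rw [h1]; ring

theorem wt_can (hφ : IsCanonicalMetric φ) :
    Wt (can n X) (fun i x => φ i.1 (i.1 x)) where
  smooth i e x he hi := by
    have he' : At i.1 x := ⟨i.2, hi⟩
    have h1 := jacM_det_holo he he'
    have h2 : (jacM e i.1 (e.symm (e x))).det ≠ 0 := by
      rw [he.left_inv]; exact jacM_det_ne_zero he he'
    have h3 : ContDiffAt ℝ ∞ (fun z => Real.log (‖(jacM e i.1 (e.symm z)).det‖ ^ 2)) (e x) := by
      have h4 : ContDiffAt ℝ ∞ (fun z => (jacM e i.1 (e.symm z)).det) (e x) :=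
        (h1.of_le le_top).restrict_scalars ℝ
      refine ContDiffAt.log (h4.norm_sq ℝ) ?_
      exact pow_ne_zero _ (norm_ne_zero_iff.2 h2)
    refine ContDiffAt.congr_of_eventuallyEq ?_ (can_local hφ he he')
    exact (hφ.smooth e x he).add (contDiffAt_const.mul h3)
  change i j x hi hj := hφ.change i.1 j.1 x ⟨i.2, hi⟩ ⟨j.2, hj⟩

lemma hess_can (hφ : IsCanonicalMetric φ) (he : At e x) (he' : At e' x) :
    hess (fun y => φ e' (e' y)) e (e x) = cHess (φ e) (e x) := by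
  have h1 := jacM_det_holo he he'
  have h2 : (jacM e e' (e.symm (e x))).det ≠ 0 := by
    rw [he.left_inv]; exact jacM_det_ne_zero he he'
  have h3 : ContDiffAt ℝ 2 (fun z => Real.log (‖(jacM e e' (e.symm z)).det‖ ^ 2)) (e x) := by
    have h4 : ContDiffAt ℝ 2 (fun z => (jacM e e' (e.symm z)).det) (e x) :=
      (h1.of_le le_top).restrict_scalars ℝ
    refine ContDiffAt.log (h4.norm_sq ℝ) ?_
    exact pow_ne_zero _ (norm_ne_zero_iff.2 h2)
  show cHess (fun z => φ e' (e' (e.symm z))) (e x) = _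
  rw [cHess_congr (can_local hφ he he'), cHess_add ((hφ.smooth e x he).of_le IsSys.two_le_infty)
    (contDiffAt_const.mul h3), cHess_const_mul _ h3, cHess_log_norm_sq h1 h2, smul_zero, add_zero]

end can

namespace IsSys

variable {n : ℕ} {X : Type} [TopologicalSpace X] [T2Space X] [CompactSpace X] [ConnectedSpace X]
  [ChartedSpace (Cm n) X] [IsManifold 𝓘(ℂ, Cm n) ω X] {κ : Type}
  {eqn : κ → X → (X → ℂ) → Prop} {T : Finset κ} {M : ℕ} {k : κ → ℕ} {m : ℕ} {r : Fin M → X → ℂ}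
  {φ : Chart n X → Cm n → ℝ}

/-- sections of `m' (K_X + Δ)` -/
theorem flat_sec (h : IsSys n eqn T) (hr : Gen n eqn T k m r) (hφ : IsCanonicalMetric φ)
    (hK : ∀ e x, At e x → (cHess (φ e) (e x)).PosSemidef) (hm : 0 < m)
    {χ : Chart n X → Cm n → Matrix (Fin n) (Fin n) ℂ} (hχ : IsKahler χ) {ν : ℕ}
    (hν : ∀ e x, At e x → (h.theta k m r φ e (e x)).rank ≤ ν) {m' : ℕ} {k' : κ → ℕ} {c : ℝ}
    (hc : 0 ≤ c) (hk' : ∀ D, (k' D : ℝ) = c * k D) {s₀ s₁ : X → ℂ}
    (hs₀ : J.IsSection (Cm n) eqn m' k' s₀) (hs₁ : J.IsSection (Cm n) eqn m' k' s₁)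
    {e : Chart n X} {x : X} (he : At e x) (hx : x ∈ off eqn T) (h0 : s₀ x ≠ 0)
    (hrk : (h.theta k m r φ e (e x)).rank = ν) {v : Cm n}
    (hv : ∀ j, ∑ i, v i * h.theta k m r φ e (e x) i j = 0) :
    fderiv ℂ (fun z => s₁ (e.symm z) / s₀ (e.symm z)) (e x) v = 0 := by
  have hkT' : ∀ D, k' D ≠ 0 → D ∈ T := by
    intro D hD
    refine hr.supp D fun h1 => hD ?_
    have h2 := hk' D
    rw [h1, Nat.cast_zero, mul_zero] at h2
    exact_mod_cast h2
  set L : LineBundle n X := mul (pow (can n X) m') (h.OL k') with hL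
  have hψ : Wt L (fun (i : {e : Chart n X // e ∈ atlas (Cm n) X} × X) x =>
      (m' : ℝ) * φ i.1.1 (i.1.1 x) + c * h.psi k m r φ i.2 x) :=
    Vale.Agent.P285.H716.AB.wt_mul (L := pow (can n X) m') (L' := h.OL k') (Vale.Agent.P285.H716.AB.wt_pow (wt_can hφ) m')
      (h.wt_mul_psi hr hφ fun D _ => hk' D)
  set C : ℝ := 1 + m' + c with hC
  have hm'0 : (0 : ℝ) ≤ m' := Nat.cast_nonneg _
  have hC1 : 1 ≤ C := by rw [hC]; linarith
  have hcurv : ∀ (i : L.ι) e x, At e x → x ∈ L.U i → ((C : ℂ) • h.theta k m r φ e (e x) -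
      hess ((fun (i : {e : Chart n X // e ∈ atlas (Cm n) X} × X) x =>
      (m' : ℝ) * φ i.1.1 (i.1.1 x) + c * h.psi k m r φ i.2 x) i) e (e x)).PosSemidef := by
    intro i e x he hi
    have he' : At i.1.1 x := ⟨i.1.2, hi.1⟩
    have h1 := (wt_can hφ).smooth i.1 e x he hi.1
    have h2 := (h.wt_psi hr hφ).smooth i.2 e x he hi.2
    have h3 : hess (fun x => (m' : ℝ) * φ i.1.1 (i.1.1 x) + c * h.psi k m r φ i.2 x) e (e x) =
        (m' : ℂ) • cHess (φ e) (e x) + hess (fun y => c * h.psi k m r φ i.2 y) e (e x) := by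
      have h4 : ContDiffAt ℝ ∞ (fun z => (m' : ℝ) * φ i.1.1 (i.1.1 (e.symm z))) (e x) :=
        contDiffAt_const.mul h1
      have h5 : ContDiffAt ℝ ∞ (fun z => c * h.psi k m r φ i.2 (e.symm z)) (e x) :=
        contDiffAt_const.mul h2
      rw [Vale.Agent.P285.H716.AB.hess_add' (e := e) (x := x)
        (f := fun x => (m' : ℝ) * φ i.1.1 (i.1.1 x)) (g := fun x => c * h.psi k m r φ i.2 x) h4 h5,
        Vale.Agent.P285.H716.AB.hess_mul_const (e := e) (x := x) (m' : ℝ)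
          (f := fun x => φ i.1.1 (i.1.1 x)) h1, hess_can hφ he he']
      push_cast
      rfl
    show ((C : ℂ) • h.theta k m r φ e (e x) - hess (fun x => (m' : ℝ) * φ i.1.1 (i.1.1 x) +
      c * h.psi k m r φ i.2 x) e (e x)).PosSemidef
    have h6 := h.theta_psd hr hφ hK he
    have h7 := h.can_le_theta hr hφ hK hm le_rfl he
    have h8 := h.psi_le_theta hr hφ hK hc le_rfl hi.2 he
    have h9 : (C : ℂ) • h.theta k m r φ e (e x) -
        ((m' : ℂ) • cHess (φ e) (e x) + hess (fun y => c * h.psi k m r φ i.2 y) e (e x)) =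
        h.theta k m r φ e (e x) + (m' : ℂ) • (((1 : ℝ) : ℂ) • h.theta k m r φ e (e x) -
          cHess (φ e) (e x)) + ((c : ℂ) • h.theta k m r φ e (e x) -
          hess (fun y => c * h.psi k m r φ i.2 y) e (e x)) := by
      rw [hC]
      push_cast
      module
    rw [h3, h9]
    exact (h6.add (h7.smul (by exact_mod_cast Nat.zero_le m'))).add h8
  -- the sections
  have key : ∀ {s : X → ℂ}, J.IsSection (Cm n) eqn m' k' s →
      ∃ τ : TSec L 0, ∀ (i : L.ι) e z I, τ.f i e z I = cR eqn T (h.GG k' i.2) m' s i.1.1 (e.symm z) := by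
    intro s hs
    refine ⟨⟨fun i e z I => cR eqn T (h.GG k' i.2) m' s i.1.1 (e.symm z), ?_, ?_, ?_⟩,
      fun i e z I => rfl⟩
    · intro i e x he hi I
      exact (holV_chart he (h.cR_hol hkT' hs hi.2 ⟨i.1.2, hi.1⟩)).analyticAt
    · intro i e e' x he he' hi I
      simp only [tenPull, he.left_inv, he'.left_inv]
      rw [Finset.sum_eq_single (default : Fin 0 → Fin n) (fun b _ hb => absurd
        (Subsingleton.elim _ _) hb) (fun hb => absurd (Finset.mem_univ _) hb)]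
      simp
    · intro i j e x he hi hj I
      simp only [he.left_inv]
      have hi1 : At i.1.1 x := ⟨i.1.2, hi.1⟩
      have hj1 : At j.1.1 x := ⟨j.1.2, hj.1⟩
      rw [h.cR_change hkT' hs hi.2 hi1 hj1, h.cR_glue hkT' hs hi.2 hj.2 hj1]
      show _ = ((jacM i.1.1 j.1.1 x).det ^ m' * (h.OL k').g i.2 j.2 x) * _
      ring
  obtain ⟨τ0, hτ0⟩ := key hs₀
  obtain ⟨τ1, hτ1⟩ := key hs₁
  have hxi : x ∈ L.U (⟨e, he.1⟩, x) := ⟨he.2, h.self_mem_dom x⟩
  have hmain := xPartL n 0 X χ hχ φ hφ hK (h.theta k m r φ) (h.theta_closed hr hφ)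
    (fun e x he => h.theta_psd hr hφ hK he) C
    (fun e x he => h.can_le_theta hr hφ hK hm hC1 he) L _ hψ hcurv ν hν τ0 τ1
    (fun i e x he hi I J => by rw [Subsingleton.elim I J])
    (⟨e, he.1⟩, x) e x he hxi default ?_ hrk v hv
  · have h1 : (fun z => τ1.f (⟨e, he.1⟩, x) e z default / τ0.f (⟨e, he.1⟩, x) e z default)
        =ᶠ[𝓝 (e x)] fun z => s₁ (e.symm z) / s₀ (e.symm z) := by
      have h5 : Tendsto e.symm (𝓝 (e x)) (𝓝 x) := by
        have := e.continuousAt_symm he.mem_target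
        rwa [ContinuousAt, he.left_inv] at this
      filter_upwards [he.nhds_target, h5.eventually (h.dom_ev (h.self_mem_dom x)),
        h5.eventually (h.isOpen_off.mem_nhds hx)] with z h6 h7 h8
      have h9 := At.of_target he.1 h6
      rw [show τ1.f (⟨e, he.1⟩, x) e z default = _ from hτ1 (⟨e, he.1⟩, x) e z default,
        show τ0.f (⟨e, he.1⟩, x) e z default = _ from hτ0 (⟨e, he.1⟩, x) e z default]
      show cR eqn T (h.GG k' x) m' s₁ e (e.symm z) / cR eqn T (h.GG k' x) m' s₀ e (e.symm z) = _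
      rw [h.cR_eq hkT' hs₁ h7 h9 h8, h.cR_eq hkT' hs₀ h7 h9 h8,
        div_div_div_cancel_right₀ (pow_ne_zero _ (dj_ne_zero h9)),
        mul_div_mul_right _ _ (h.GG_ne h7 h8 k')]
    rw [h1.fderiv_eq] at hmain
    exact hmain
  · rw [show τ0.f (⟨e, he.1⟩, x) e (e x) default = _ from hτ0 (⟨e, he.1⟩, x) e (e x) default]
    show cR eqn T (h.GG k' x) m' s₀ e (e.symm (e x)) ≠ 0
    rw [he.left_inv, h.cR_eq hkT' hs₀ (h.self_mem_dom x) he hx]
    exact div_ne_zero (mul_ne_zero h0 (h.GG_ne (h.self_mem_dom x) hx k'))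
      (pow_ne_zero _ (dj_ne_zero he))

/-! ### tensors -/

/-- the local equations of the closed sets `D` -/
abbrev eqL (n : ℕ) {X : Type} [TopologicalSpace X] [ChartedSpace (Cm n) X] (D : Set X) (z : X)
    (g : X → ℂ) : Prop := J.IsLocalEq (Cm n) D g z

variable {T : Finset (Set X)} {k : Set X → ℕ} {q : ℕ} {K : Set X → ℕ}

omit [T2Space X] [CompactSpace X] [ConnectedSpace X] in
lemma ten_rep (h : IsSys n (eqL n) T) (hK : ∀ D, K D ≠ 0 → D ∈ T) {τ : Ten n q X}
    (hτ : IsTenP q K τ) {i x : X} (hi : x ∈ h.dom i) {e : Chart n X} (he : At e x)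
    (I : Fin q → Fin n) : ∃ H, HolV (Cm n) H x ∧
      ext (off (eqL n) T) (fun y => τ e (e y) I * h.GG K i y) =ᶠ[𝓝 x] H ∧
      ∀ᶠ z in 𝓝 x, z ∈ off (eqL n) T → τ e (e z) I * h.GG K i z = H z := by
  obtain ⟨a, ha, hev⟩ := hτ.holo e x he T (fun D => h.gg D i) hK
    (fun D hD => h.dom_spec hi hD) I
  have h1 : HolV (Cm n) (fun y => a (e y)) x :=
    HolV.comp_contDiff (G := a) ha.contDiffAt (chart_contMDiffAt he)
  have h2 : ∀ᶠ z in 𝓝 x, z ∈ off (eqL n) T → τ e (e z) I * h.GG K i z = a (e z) := by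
    have h3 : Tendsto e (𝓝 x) (𝓝 (e x)) := e.continuousAt he.2
    filter_upwards [h3.eventually hev, e.open_source.mem_nhds he.2, h.dom_ev hi] with z h4 h5 h6 hz
    rw [e.left_inv h5] at h4
    exact h4 (h.GG_ne h6 hz K)
  exact ⟨_, h1, ext_ev h.dense_off h1 h2, h2⟩

omit [T2Space X] [CompactSpace X] [ConnectedSpace X] in
lemma ten_eq (h : IsSys n (eqL n) T) (hK : ∀ D, K D ≠ 0 → D ∈ T) {τ : Ten n q X}
    (hτ : IsTenP q K τ) {i x : X} (hi : x ∈ h.dom i) {e : Chart n X} (he : At e x)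
    (I : Fin q → Fin n) (hx : x ∈ off (eqL n) T) :
    ext (off (eqL n) T) (fun y => τ e (e y) I * h.GG K i y) x = τ e (e x) I * h.GG K i x := by
  obtain ⟨H, -, h1, h2⟩ := h.ten_rep hK hτ hi he I
  rw [h1.self_of_nhds, h2.self_of_nhds hx]

omit [T2Space X] [CompactSpace X] [ConnectedSpace X] in
lemma ten_cont (h : IsSys n (eqL n) T) (hK : ∀ D, K D ≠ 0 → D ∈ T) {τ : Ten n q X}
    (hτ : IsTenP q K τ) {i x : X} (hi : x ∈ h.dom i) {e : Chart n X} (he : At e x)
    (I : Fin q → Fin n) :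
    HolV (Cm n) (ext (off (eqL n) T) (fun y => τ e (e y) I * h.GG K i y)) x := by
  obtain ⟨H, h0, h1, h2⟩ := h.ten_rep hK hτ hi he I
  exact h0.congr h1

/-- the section of `O(K)` valued tensors given by a tensor with poles -/
def tsec (h : IsSys n (eqL n) T) (hK : ∀ D, K D ≠ 0 → D ∈ T) {τ : Ten n q X}
    (hτ : IsTenP q K τ) : TSec (h.OL K) q where
  f i e z I := ext (off (eqL n) T) (fun y => τ e (e y) I * h.GG K i y) (e.symm z)
  holo i e x he hi I := (holV_chart he (h.ten_cont hK hτ hi he I)).analyticAt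
  change i e e' x he he' hi I := by
    have hi' : x ∈ h.dom i := hi
    simp only [tenPull, he.left_inv, he'.left_inv]
    refine eq_of_dense (f := ext (off (eqL n) T) (fun y => τ e (e y) I * h.GG K i y))
      (g := fun x => ∑ J : Fin q → Fin n, (∏ a, jacM e e' x (J a) (I a)) *
        ext (off (eqL n) T) (fun y => τ e' (e' y) J * h.GG K i y) x) h.dense_off
      (h.ten_cont hK hτ hi' he I).continuousAt ?_ ?_
    · refine tendsto_finset_sum _ fun J _ => ?_
      refine Tendsto.mul (tendsto_finset_prod _ fun a _ => ?_)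
        (h.ten_cont hK hτ hi' he' J).continuousAt
      exact Vale.Agent.P299.H800.KOD.jacM_contAt he he' _ _
    · filter_upwards [at_ev he, at_ev he', h.dom_ev hi'] with z h1 h2 h3 hz
      rw [h.ten_eq hK hτ h3 h1 I hz]
      have h4 : ∀ D, K D ≠ 0 → z ∉ D := by
        intro D hD hzD
        have h5 := h.dom_spec h3 (hK D hD)
        exact hz D (hK D hD) _ h5 ((J.IsLocalEq.mem_iff' h5).1 hzD)
      rw [hτ.change e e' z h1 h2 h4 I, tenPull, Finset.sum_mul]
      refine Finset.sum_congr rfl fun J _ => ?_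
      rw [h.ten_eq hK hτ h3 h2 J hz]
      ring
  glue i j e x he hi hj I := by
    have hi' : x ∈ h.dom i := hi
    have hj' : x ∈ h.dom j := hj
    have hg : HolV (Cm n) ((h.OL K).g i j) x :=
      HolV.prod fun D hD => (h.uu_hol hD hi hj).pow _
    simp only [he.left_inv]
    refine eq_of_dense (f := ext (off (eqL n) T) (fun y => τ e (e y) I * h.GG K i y))
      (g := fun x => (h.OL K).g i j x *
        ext (off (eqL n) T) (fun y => τ e (e y) I * h.GG K j y) x) h.dense_off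
      (h.ten_cont hK hτ hi' he I).continuousAt
      (hg.continuousAt.mul (h.ten_cont hK hτ hj' he I).continuousAt) ?_
    filter_upwards [at_ev he, h.dom_ev hi', h.dom_ev hj'] with z h1 h2 h3 hz
    rw [h.ten_eq hK hτ h2 h1 I hz, h.ten_eq hK hτ h3 h1 I hz, h.GG_eq K h2 h3]
    ring

/-- proportional tensors with poles -/
theorem flat_ten (h : IsSys n (eqL n) T) (hr : Gen n (eqL n) T k m r) (hφ : IsCanonicalMetric φ)
    (hP : ∀ e x, At e x → (cHess (φ e) (e x)).PosSemidef) (hm : 0 < m)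
    {χ : Chart n X → Cm n → Matrix (Fin n) (Fin n) ℂ} (hχ : IsKahler χ) {ν : ℕ}
    (hν : ∀ e x, At e x → (h.theta k m r φ e (e x)).rank ≤ ν) {c : ℝ} (hc : 0 ≤ c)
    (hK' : ∀ D, (K D : ℝ) = c * k D) {τ₀ τ₁ : Ten n q X} (hτ₀ : IsTenP q K τ₀)
    (hτ₁ : IsTenP q K τ₁) {S : Set X} (hS : Dense S) (hprop : ∀ x ∈ S, ∀ e, At e x → ∀ I J,
      τ₀ e (e x) I * τ₁ e (e x) J = τ₀ e (e x) J * τ₁ e (e x) I)
    {e : Chart n X} {x : X} (he : At e x) (hx : x ∈ off (eqL n) T) {I : Fin q → Fin n}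
    (h0 : τ₀ e (e x) I ≠ 0) (hrk : (h.theta k m r φ e (e x)).rank = ν) {v : Cm n}
    (hv : ∀ j, ∑ i, v i * h.theta k m r φ e (e x) i j = 0) :
    fderiv ℂ (fun z => τ₁ e z I / τ₀ e z I) (e x) v = 0 := by
  have hKT : ∀ D, K D ≠ 0 → D ∈ T := by
    intro D hD
    refine hr.supp D fun h1 => hD ?_
    have h2 := hK' D
    rw [h1, Nat.cast_zero, mul_zero] at h2
    exact_mod_cast h2
  have hC1 : 1 ≤ 1 + c := by linarith
  have hSd : Dense (S ∩ off (eqL n) T) := hS.inter_of_isOpen_right h.dense_off h.isOpen_off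
  have hmain := xPartL n q X χ hχ φ hφ hP (h.theta k m r φ) (h.theta_closed hr hφ)
    (fun e x he => h.theta_psd hr hφ hP he) (1 + c)
    (fun e x he => h.can_le_theta hr hφ hP hm hC1 he) (h.OL K) _
    (h.wt_mul_psi hr hφ fun D _ => hK' D)
    (fun i e x he hi => h.psi_le_theta hr hφ hP hc (by linarith) hi he) ν hν (h.tsec hKT hτ₀)
    (h.tsec hKT hτ₁) (fun i e x he hi I J => ?_) x e x he (h.self_mem_dom x) I ?_ hrk v hv
  · have h1 : (fun z => (h.tsec hKT hτ₁).f x e z I / (h.tsec hKT hτ₀).f x e z I)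
        =ᶠ[𝓝 (e x)] fun z => τ₁ e z I / τ₀ e z I := by
      have h5 : Tendsto e.symm (𝓝 (e x)) (𝓝 x) := by
        have := e.continuousAt_symm he.mem_target
        rwa [ContinuousAt, he.left_inv] at this
      filter_upwards [he.nhds_target, h5.eventually (h.dom_ev (h.self_mem_dom x)),
        h5.eventually (h.isOpen_off.mem_nhds hx)] with z h6 h7 h8
      have h9 := At.of_target he.1 h6
      show ext (off (eqL n) T) (fun y => τ₁ e (e y) I * h.GG K x y) (e.symm z) /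
        ext (off (eqL n) T) (fun y => τ₀ e (e y) I * h.GG K x y) (e.symm z) = _
      rw [h.ten_eq hKT hτ₁ h7 h9 I h8, h.ten_eq hKT hτ₀ h7 h9 I h8, e.right_inv h6,
        mul_div_mul_right _ _ (h.GG_ne h7 h8 K)]
    rw [h1.fderiv_eq] at hmain
    exact hmain
  · have hi' : x ∈ h.dom i := hi
    show ext (off (eqL n) T) (fun y => τ₀ e (e y) I * h.GG K i y) (e.symm (e x)) *
      ext (off (eqL n) T) (fun y => τ₁ e (e y) J * h.GG K i y) (e.symm (e x)) =
      ext (off (eqL n) T) (fun y => τ₀ e (e y) J * h.GG K i y) (e.symm (e x)) *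
      ext (off (eqL n) T) (fun y => τ₁ e (e y) I * h.GG K i y) (e.symm (e x))
    rw [he.left_inv]
    refine eq_of_dense (f := fun x => ext (off (eqL n) T) (fun y => τ₀ e (e y) I * h.GG K i y) x *
      ext (off (eqL n) T) (fun y => τ₁ e (e y) J * h.GG K i y) x)
      (g := fun x => ext (off (eqL n) T) (fun y => τ₀ e (e y) J * h.GG K i y) x *
      ext (off (eqL n) T) (fun y => τ₁ e (e y) I * h.GG K i y) x) hSd
      ((h.ten_cont hKT hτ₀ hi' he I).continuousAt.mul (h.ten_cont hKT hτ₁ hi' he J).continuousAt)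
      ((h.ten_cont hKT hτ₀ hi' he J).continuousAt.mul (h.ten_cont hKT hτ₁ hi' he I).continuousAt) ?_
    filter_upwards [at_ev he, h.dom_ev hi'] with z h1 h2 hz
    rw [h.ten_eq hKT hτ₀ h2 h1 I hz.2, h.ten_eq hKT hτ₁ h2 h1 J hz.2,
      h.ten_eq hKT hτ₀ h2 h1 J hz.2, h.ten_eq hKT hτ₁ h2 h1 I hz.2]
    linear_combination (h.GG K i z) ^ 2 * hprop z hz.1 e h1 I J
  · show ext (off (eqL n) T) (fun y => τ₀ e (e y) I * h.GG K x y) (e.symm (e x)) ≠ 0
    rw [he.left_inv, h.ten_eq hKT hτ₀ (h.self_mem_dom x) he I hx]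
    exact mul_ne_zero h0 (h.GG_ne (h.self_mem_dom x) hx K)

end IsSys

end Vale.Agent.P281.H716
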