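import Vale.Agent.P281.H716.Core
import Vale.Agent.P281.H716.Flat
import Vale.Agent.P281.H76.Ord4
import Vale.Agent.P281.H597.SA.R

/-! P281, theorem SAL: the divisor systems on `X`, `Y` and on the fibre; adjunction. -/

open scoped Manifold ContDiff Topology ComplexOrder Matrix
open Set Filter Vale.Agent.P281 Vale.Agent.P272.K
open Vale.Agent.P281.H949.SA Vale.Agent.P281.H716.IsSys Vale.Agent.P281.MF

set_option linter.all false

noncomputable section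

namespace Vale.Agent.P281.H716

section inst

variable {n : ℕ} {X : Type} [TopologicalSpace X] [ChartedSpace (Cm n) X]
  [IsManifold 𝓘(ℂ, Cm n) ω X]

theorem isSys_eqL {T : Finset (Set X)} (hT : ∀ D ∈ T, ∀ x, ∃ g, J.IsLocalEq (Cm n) D g x) :
    IsSys n (eqL n) T where
  ex D hD x := hT D hD x
  hol D x g hg := IsLocalEq.holAt (E := Cm n) (D := D) hg
  per D x g hg := IsLocalEq.eventually (E := Cm n) (D := D) hg
  unit D x g g' hg hg' := H76.unit_ratio_red (E := Cm n) (D := D) hg hg'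
  nz D hD x g hg := H76.frequently_ne (E := Cm n) (D := D) hg

variable {d : ℕ} {F : Type} [TopologicalSpace F] [ChartedSpace (Cm d) F]
  [IsManifold 𝓘(ℂ, Cm d) ω F] {ρ : F → X}

/-- the pull-back of the local equations -/
def eqF (n : ℕ) {X F : Type} [TopologicalSpace X] [ChartedSpace (Cm n) X] [TopologicalSpace F]
    (ρ : F → X) (D : Set X) (t : F) (g : F → ℂ) : Prop :=
  ∃ e, J.IsLocalEq (Cm n) D e (ρ t) ∧ ∀ᶠ t' in 𝓝 t, g t' = e (ρ t')

theorem isSys_eqF [PreconnectedSpace F] (hρ : ∀ p, HolM (Cm d) (Cm n) ρ p) {T : Finset (Set X)}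
    (hT : ∀ D ∈ T, ∀ x, ∃ g, J.IsLocalEq (Cm n) D g x) (hne : ∀ D ∈ T, ∃ t, ρ t ∉ D) :
    IsSys d (eqF n ρ) T where
  ex D hD t := by
    obtain ⟨g, hg⟩ := hT D hD (ρ t)
    exact ⟨fun t' => g (ρ t'), g, hg, Eventually.of_forall fun _ => rfl⟩
  hol D t g hg := eqnF_hol (E := Cm n) hρ hg
  per D t g hg := by
    obtain ⟨e, he, hev⟩ := hg
    filter_upwards [(hρ t).continuousAt.eventually
      (IsLocalEq.eventually (E := Cm n) (D := D) he), eventually_eventually_nhds.2 hev] with t' h1 h2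
    exact ⟨e, h1, h2⟩
  unit D t g g' hg hg' := by
    obtain ⟨e, he, hev⟩ := hg
    obtain ⟨e', he', hev'⟩ := hg'
    obtain ⟨w, hw, hw0, hwe⟩ := H76.unit_ratio_red (E := Cm n) (D := D) he he'
    refine ⟨fun t' => w (ρ t'), HolV.comp hw (hρ t), hw0, ?_⟩
    filter_upwards [hev, hev', (hρ t).continuousAt.eventually hwe] with t' h1 h2 h3
    rw [h1, h2, h3]
  nz D hD t g hg := by
    have h1 : Dense {p | ρ p ∉ D} := H76.dense_restrict (E := Cm n) hρ (hT D hD) (hne D hD)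
    have h2 : ∃ᶠ p in 𝓝 t, ρ p ∉ D := mem_closure_iff_frequently.1 (h1 t)
    refine (h2.and_eventually (eqnF_mem (E := Cm n) hρ hg)).mono ?_
    rintro p ⟨h3, h4⟩ h0
    exact h3 (h4.2 h0)

/-- the complement of the divisors, on `X` -/
lemma off_eqL {T : Finset (Set X)} (hT : ∀ D ∈ T, ∀ x, ∃ g, J.IsLocalEq (Cm n) D g x) {x : X} :
    x ∈ off (eqL n) T ↔ ∀ D ∈ T, x ∉ D := by
  constructor
  · intro hx D hD hxD
    obtain ⟨g, hg⟩ := hT D hD x
    exact hx D hD g hg (hg.mem_iff'.1 hxD)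
  · intro hx D hD g hg h0
    exact hx D hD (hg.mem_iff'.2 h0)

/-- the complement of the divisors, on the fibre -/
lemma off_eqF (hρ : ∀ p, HolM (Cm d) (Cm n) ρ p) {T : Finset (Set X)}
    (hT : ∀ D ∈ T, ∀ x, ∃ g, J.IsLocalEq (Cm n) D g x) {t : F} :
    t ∈ off (eqF n ρ) T ↔ ∀ D ∈ T, ρ t ∉ D := by
  constructor
  · intro hx D hD hxD
    obtain ⟨g, hg⟩ := hT D hD (ρ t)
    exact hx D hD (fun t' => g (ρ t')) ⟨g, hg, Eventually.of_forall fun _ => rfl⟩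
      (hg.mem_iff'.1 hxD)
  · rintro hx D hD g ⟨e, he, hev⟩ h0
    rw [hev.self_of_nhds] at h0
    exact hx D hD (he.mem_iff'.2 h0)

end inst

/-! ### operations on sections -/

section ops

variable {n : ℕ} {X : Type} [TopologicalSpace X] [ChartedSpace (Cm n) X]
  [IsManifold 𝓘(ℂ, Cm n) ω X] {κ κ' : Type} {eqn : κ → X → (X → ℂ) → Prop} {T : Finset κ}

omit [IsManifold 𝓘(ℂ, Cm n) ω X] in
/-- sections of `m K_X` -/
lemma section_zero {eqn' : κ' → X → (X → ℂ) → Prop} {m : ℕ} {s : X → ℂ}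
    (hs : J.IsSection (Cm n) eqn m 0 s) : J.IsSection (Cm n) eqn' m 0 s := by
  intro x
  obtain ⟨T, g, a, -, -, ha, hev⟩ := hs x
  refine ⟨∅, fun _ _ => 0, a, fun D hD => absurd rfl hD, fun D hD =>
    absurd hD (Finset.notMem_empty D), ha, ?_⟩
  filter_upwards [hev] with z hz _
  rw [Finset.prod_empty, mul_one]
  have h4 : ∏ D ∈ T, g D z ^ (0 : κ → ℕ) D = 1 := by
    refine Finset.prod_eq_one fun D _ => ?_
    rw [Pi.zero_apply, pow_zero]
  have h5 := hz (by rw [h4]; exact one_ne_zero)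
  rwa [h4, mul_one] at h5

lemma IsSys.rep' (h : IsSys n eqn T) {k : κ → ℕ} (hk : ∀ D, k D ≠ 0 → D ∈ T) {m : ℕ} {s : X → ℂ}
    (hs : J.IsSection (Cm n) eqn m k s) (x : X) : ∃ a, HolV (Cm n) a x ∧
      ∀ᶠ z in 𝓝 x, h.GG k x z ≠ 0 → s z * h.GG k x z = a z * jac (Cm n) (chartAt (Cm n) x) z ^ m := by
  obtain ⟨T', g, a, hT', hg, ha, hev⟩ := hs x
  obtain ⟨w, hw, hw0, hwe⟩ := h.prod_unit hk hT' hg (h.self_mem_dom x)
  refine ⟨fun z => a z / w z, HolV.div ha hw hw0, ?_⟩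
  filter_upwards [hev, hwe, hw.continuousAt.eventually_ne hw0] with z h1 h2 h3 h4
  rw [h2] at h1
  have h5 := h1 (mul_ne_zero h3 h4)
  rw [div_mul_eq_mul_div, eq_div_iff h3]
  have h6 : s z * (w z * h.GG k x z) = a z * jac (Cm n) (chartAt (Cm n) x) z ^ m := h5
  linear_combination h6

lemma IsSys.of_rep (h : IsSys n eqn T) {k : κ → ℕ} (hk : ∀ D, k D ≠ 0 → D ∈ T) {m : ℕ}
    {s : X → ℂ} (hs : ∀ x, ∃ a, HolV (Cm n) a x ∧
      ∀ᶠ z in 𝓝 x, h.GG k x z ≠ 0 → s z * h.GG k x z = a z * jac (Cm n) (chartAt (Cm n) x) z ^ m) :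
    J.IsSection (Cm n) eqn m k s := by
  intro x
  obtain ⟨a, ha, hev⟩ := hs x
  exact ⟨T, fun D => h.gg D x, a, hk, fun D hD => h.gg_spec hD x, ha, hev⟩

lemma IsSys.GG_add (h : IsSys n eqn T) (k k' : κ → ℕ) (i x : X) :
    h.GG (k + k') i x = h.GG k i x * h.GG k' i x := by
  unfold IsSys.GG
  rw [← Finset.prod_mul_distrib]
  exact Finset.prod_congr rfl fun D _ => by rw [Pi.add_apply, pow_add]

lemma supp_add {k k' : κ → ℕ} (hk : ∀ D, k D ≠ 0 → D ∈ T) (hk' : ∀ D, k' D ≠ 0 → D ∈ T) :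
    ∀ D, (k + k') D ≠ 0 → D ∈ T := by
  intro D hD
  rw [Pi.add_apply] at hD
  by_cases h0 : k D = 0
  · exact hk' D (by omega)
  · exact hk D h0

theorem IsSys.mul (h : IsSys n eqn T) {k k' : κ → ℕ} (hk : ∀ D, k D ≠ 0 → D ∈ T)
    (hk' : ∀ D, k' D ≠ 0 → D ∈ T) {m m' : ℕ} {s s' : X → ℂ}
    (hs : J.IsSection (Cm n) eqn m k s) (hs' : J.IsSection (Cm n) eqn m' k' s') :
    J.IsSection (Cm n) eqn (m + m') (k + k') (fun z => s z * s' z) := by
  refine h.of_rep (supp_add hk hk') fun x => ?_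
  obtain ⟨a, ha, hev⟩ := h.rep' hk hs x
  obtain ⟨a', ha', hev'⟩ := h.rep' hk' hs' x
  refine ⟨fun z => a z * a' z, ha.mul ha', ?_⟩
  filter_upwards [hev, hev'] with z h1 h2 h3
  rw [h.GG_add] at h3 ⊢
  have h4 := h1 (left_ne_zero_of_mul h3)
  have h5 := h2 (right_ne_zero_of_mul h3)
  rw [pow_add]
  linear_combination (s' z * h.GG k' x z) * h4 +
    a z * jac (Cm n) (chartAt (Cm n) x) z ^ m * h5

theorem IsSys.one (h : IsSys n eqn T) : J.IsSection (Cm n) eqn 0 0 (fun _ => 1) := by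
  refine h.of_rep (fun D hD => absurd rfl hD) fun x => ⟨fun _ => 1, HolV.const 1 x, ?_⟩
  refine Eventually.of_forall fun z _ => ?_
  have h1 : h.GG (fun _ => 0) x z = 1 := Finset.prod_eq_one fun D _ => pow_zero _
  show 1 * h.GG (fun _ => 0) x z = 1 * jac (Cm n) (chartAt (Cm n) x) z ^ 0
  rw [h1, pow_zero]

theorem IsSys.pow (h : IsSys n eqn T) {k : κ → ℕ} (hk : ∀ D, k D ≠ 0 → D ∈ T) {m : ℕ}
    {s : X → ℂ} (hs : J.IsSection (Cm n) eqn m k s) (N : ℕ) :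
    J.IsSection (Cm n) eqn (N * m) (N • k) (fun z => s z ^ N) := by
  induction N with
  | zero =>
    have := h.one
    simpa using this
  | succ N ih =>
    have hN : ∀ D, (N • k) D ≠ 0 → D ∈ T := by
      intro D hD
      refine hk D fun h0 => hD ?_
      rw [Pi.smul_apply, h0, smul_zero]
    have h1 := h.mul hN hk ih hs
    have e1 : (N + 1) * m = N * m + m := by ring
    have e2 : (N + 1) • k = N • k + k := by rw [add_smul, one_smul]
    rw [e1, e2]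
    simpa only [pow_succ] using h1

theorem IsSys.mono (h : IsSys n eqn T) {k k' : κ → ℕ} (hk : ∀ D, k D ≤ k' D)
    (hk' : ∀ D, k' D ≠ 0 → D ∈ T) {m : ℕ} {s : X → ℂ} (hs : J.IsSection (Cm n) eqn m k s) :
    J.IsSection (Cm n) eqn m k' s := by
  have hkT : ∀ D, k D ≠ 0 → D ∈ T := fun D hD => hk' D (by have := hk D; omega)
  have e1 : k' = k + fun D => k' D - k D := by
    funext D
    have := hk D
    rw [Pi.add_apply]
    omega
  have e2 : ∀ i x, h.GG k' i x = h.GG k i x * h.GG (fun D => k' D - k D) i x := by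
    intro i x
    rw [← h.GG_add, ← e1]
  refine h.of_rep hk' fun x => ?_
  obtain ⟨a, ha, hev⟩ := h.rep' hkT hs x
  refine ⟨fun z => a z * h.GG (fun D => k' D - k D) x z, ha.mul
    (h.holV_GG (h.self_mem_dom x) _), ?_⟩
  filter_upwards [hev] with z h1 h2
  rw [e2] at h2 ⊢
  have h3 := h1 (left_ne_zero_of_mul h2)
  linear_combination h.GG (fun D => k' D - k D) x z * h3

end ops

/-! ### adjunction -/

section adj

variable {n p d : ℕ} {X Z Y F : Type} [TopologicalSpace X] [ChartedSpace (Cm n) X]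
  [IsManifold 𝓘(ℂ, Cm n) ω X] [TopologicalSpace Z] [ChartedSpace (Cm n) Z]
  [IsManifold 𝓘(ℂ, Cm n) ω Z] [TopologicalSpace Y] [ChartedSpace (Cm p) Y]
  [IsManifold 𝓘(ℂ, Cm p) ω Y] [TopologicalSpace F] [ChartedSpace (Cm d) F]
  [IsManifold 𝓘(ℂ, Cm d) ω F]

theorem adjF (hn : n = p + d) {j : Z → X} (hj : ∀ z, HolM (Cm n) (Cm n) j z)
    (hjd : ∀ z, (dM (Cm n) (Cm n) j z).det ≠ 0) {f : Z → Y}
    (hf : ∀ z, HolM (Cm n) (Cm p) f z) {i : F → Z}
    (hi : H713.IsSmoothFibre (Cm n) (Cm p) (Cm d) f i) :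
    ∃ G : F → ℂ, (∀ t, G t ≠ 0) ∧ ∀ p₀, ∃ η : F → ℂ, HolV (Cm d) η p₀ ∧ η p₀ ≠ 0 ∧
      ∀ᶠ t in 𝓝 p₀, jac (Cm n) (chartAt (Cm n) (j (i p₀))) (j (i t)) * G t =
        η t * jac (Cm d) (chartAt (Cm d) p₀) t := by
  have e : Cm n ≃L[ℂ] (Cm p × Cm d) := ContinuousLinearEquiv.ofFinrankEq (by
    rw [Module.finrank_prod]
    simp [Cm, hn])
  have hih : ∀ p, HolM (Cm d) (Cm n) i p := fun p => hi.hol p
  have himm : ∀ p, Function.Injective (dM (Cm d) (Cm n) i p) := hi.immersive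
  have hsub : ∀ t, Function.Surjective (dM (Cm n) (Cm p) f (i t)) := hi.submersive
  choose Q hQ using fun p => exists_left_inv (himm p)
  have hAD : ∀ t v, dM (Cm n) (Cm p) f (i t) (dM (Cm d) (Cm n) i t v) = 0 := by
    intro t v
    have h1 : (dM (Cm n) (Cm p) f (i t)).comp (dM (Cm d) (Cm n) i t) =
        dM (Cm d) (Cm p) (fun p => f (i p)) t := by
      have := mfderiv_comp t (ContMDiffAt.mdifferentiableAt (hf (i t)) (by simp))
        (ContMDiffAt.mdifferentiableAt (hih t) (by simp))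
      exact this.symm
    have h2 : (fun p => f (i p)) = fun _ => f (i t) := funext fun p' => hi.const p' t
    have h3 : dM (Cm d) (Cm p) (fun p => f (i p)) t = 0 := by
      rw [h2]; unfold dM; rw [mfderiv_const]; rfl
    have h4 := congrArg (fun T : Cm d →L[ℂ] Cm p => T v) (h1.trans h3)
    exact h4
  have hJ : ∀ t, JP e (dM (Cm n) (Cm p) f (i t)) (Q t) ≠ 0 := fun t =>
    JP_ne_zero e (hAD t) (hQ t) (hsub t)
  refine ⟨fun t => (dM (Cm n) (Cm n) j (i t)).det * (JP e (dM (Cm n) (Cm p) f (i t)) (Q t))⁻¹,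
    fun t => mul_ne_zero (hjd _) (inv_ne_zero (hJ t)), ?_⟩
  intro p₀
  obtain ⟨η, hη, hηe⟩ := H597.SA.adj_local e hf hih p₀ (fun p => hi.const p p₀) (hsub p₀) (himm p₀)
  have h1 : HolV (Cm n) (fun w => chartAt (Cm n) (j (i p₀)) (j w)) (i p₀) :=
    HolV.comp (h := (chartAt (Cm n) (j (i p₀)) : X → Cm n))
      (HolV.chart (mem_chart_source (Cm n) (j (i p₀)))) (hj (i p₀))
  obtain ⟨R, hR, hRe⟩ := H76.jac_local h1
  have hc := (hih p₀).continuousAt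
  have hev : ∀ᶠ t in 𝓝 p₀, jac (Cm n) (chartAt (Cm n) (j (i p₀))) (j (i t)) *
      ((dM (Cm n) (Cm n) j (i t)).det * (JP e (dM (Cm n) (Cm p) f (i t)) (Q t))⁻¹) =
        R (i t) * η t * jac (Cm d) (chartAt (Cm d) p₀) t := by
    filter_upwards [hηe, hc.eventually hRe, hc.eventually (H76.jac_comp (hj (i p₀)))] with t h2 h3 h4
    have h5 := h2 (Q t) (hQ t)
    have h6 := hJ t
    rw [← mul_assoc, ← h4, h3, h5]
    set jp := JP e (dM (Cm n) (Cm p) f (i t)) (Q t)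
    field_simp
  refine ⟨fun t => R (i t) * η t, (HolV.comp (h := R) hR (hih p₀)).mul hη, ?_, hev⟩
  intro h0
  have h2 := hev.self_of_nhds
  have h3 : R (i p₀) * η p₀ = 0 := h0
  rw [h3, zero_mul] at h2
  exact (mul_ne_zero (jac_chart_ne_zero (mem_chart_source (Cm n) (j (i p₀))))
    (mul_ne_zero (hjd _) (inv_ne_zero (hJ p₀)))) h2

variable {ρ : F → X}

/-- restriction of sections -/
theorem restr_sec (hρ : ∀ p, HolM (Cm d) (Cm n) ρ p) {G : F → ℂ}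
    (hG : ∀ p₀, ∃ η : F → ℂ, HolV (Cm d) η p₀ ∧ η p₀ ≠ 0 ∧
      ∀ᶠ t in 𝓝 p₀, jac (Cm n) (chartAt (Cm n) (ρ p₀)) (ρ t) * G t =
        η t * jac (Cm d) (chartAt (Cm d) p₀) t) {m : ℕ} {k : Set X → ℕ} {s : X → ℂ}
    (hs : J.IsSection (Cm n) (eqL n) m k s) :
    J.IsSection (Cm d) (eqF n ρ) m k (fun t => s (ρ t) * G t ^ m) := by
  intro t
  obtain ⟨T, g, a, hT, hg, ha, hev⟩ := hs (ρ t)
  obtain ⟨η, hη, -, hηe⟩ := hG t
  refine ⟨T, fun D t' => g D (ρ t'), fun t' => a (ρ t') * η t' ^ m, hT, fun D hD =>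
    ⟨g D, hg D hD, Eventually.of_forall fun _ => rfl⟩, (HolV.comp (h := a) ha (hρ t)).mul
      (hη.pow m), ?_⟩
  filter_upwards [(hρ t).continuousAt.eventually hev, hηe] with t' h1 h2 h3
  have h4 := h1 h3
  have h5 : s (ρ t') * ∏ D ∈ T, g D (ρ t') ^ k D =
    a (ρ t') * jac (Cm n) (chartAt (Cm n) (ρ t)) (ρ t') ^ m := h4
  show s (ρ t') * G t' ^ m * ∏ D ∈ T, g D (ρ t') ^ k D =
    a (ρ t') * η t' ^ m * jac (Cm d) (chartAt (Cm d) t) t' ^ m
  rw [mul_assoc (a (ρ t')), ← mul_pow, ← h2, mul_pow]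
  linear_combination G t' ^ m * h5

theorem restr_gen (hρ : ∀ p, HolM (Cm d) (Cm n) ρ p) {G : F → ℂ}
    (hG : ∀ p₀, ∃ η : F → ℂ, HolV (Cm d) η p₀ ∧ η p₀ ≠ 0 ∧
      ∀ᶠ t in 𝓝 p₀, jac (Cm n) (chartAt (Cm n) (ρ p₀)) (ρ t) * G t =
        η t * jac (Cm d) (chartAt (Cm d) p₀) t) {m : ℕ} {k : Set X → ℕ} {s : X → ℂ} {t : F}
    (hs : Generates (Cm n) (eqL n) m k s (ρ t)) :
    Generates (Cm d) (eqF n ρ) m k (fun t => s (ρ t) * G t ^ m) t := by
  obtain ⟨T, g, a, hT, hg, ha, ha0, hev⟩ := hs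
  obtain ⟨η, hη, hη0, hηe⟩ := hG t
  refine ⟨T, fun D t' => g D (ρ t'), fun t' => a (ρ t') * η t' ^ m, hT, fun D hD =>
    ⟨g D, hg D hD, Eventually.of_forall fun _ => rfl⟩, (HolV.comp (h := a) ha (hρ t)).mul
      (hη.pow m), mul_ne_zero ha0 (pow_ne_zero _ hη0), ?_⟩
  filter_upwards [(hρ t).continuousAt.eventually hev, hηe] with t' h1 h2 h3
  have h4 := h1 h3
  have h5 : s (ρ t') * ∏ D ∈ T, g D (ρ t') ^ k D =
    a (ρ t') * jac (Cm n) (chartAt (Cm n) (ρ t)) (ρ t') ^ m := h4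
  show s (ρ t') * G t' ^ m * ∏ D ∈ T, g D (ρ t') ^ k D =
    a (ρ t') * η t' ^ m * jac (Cm d) (chartAt (Cm d) t) t' ^ m
  rw [mul_assoc (a (ρ t')), ← mul_pow, ← h2, mul_pow]
  linear_combination G t' ^ m * h5

end adj

end Vale.Agent.P281.H716
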