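import Vale.Agent.P281.H716.MainB
import Vale.Agent.P281.H949.SA.M
import Vale.Agent.P281.H167.SA.K
import Vale.Agent.P281.H787.TB

/-! P281, theorem SAL: the main part. -/

open scoped Manifold ContDiff Topology ComplexOrder Matrix
open Set Filter Vale.Agent.P281 Vale.Agent.P272.K Vale.Agent.P299.D
open Vale.Agent.P281.H949.SA Vale.Agent.P281.H716.IsSys Vale.Agent.P281.MF Vale.Agent.P281.ISO
open Vale.Agent.P281.H713

set_option linter.all false

noncomputable section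

namespace Vale.Agent.P281.H716

section data

variable {n : ℕ} {X : Type} [TopologicalSpace X] [ChartedSpace (Cm n) X]
  [IsManifold 𝓘(ℂ, Cm n) ω X] {κ : Type} {eqn : κ → X → (X → ℂ) → Prop} {T : Finset κ}

lemma IsSys.gen_ne (h : IsSys n eqn T) {k : κ → ℕ} (hk : ∀ D, k D ≠ 0 → D ∈ T) {m : ℕ}
    {s : X → ℂ} (hs : J.IsSection (Cm n) eqn m k s) {x : X} (hg : Generates (Cm n) eqn m k s x)
    (hx : x ∈ off eqn T) : s x ≠ 0 := by
  have he : At (chartAt (Cm n) x) x := ⟨chart_mem_atlas _ _, mem_chart_source _ _⟩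
  have h1 := h.cR_ne hk hg (h.self_mem_dom x) he
  rw [h.cR_eq hk hs (h.self_mem_dom x) he hx] at h1
  intro h0
  rw [h0, zero_mul, zero_div] at h1
  exact h1 rfl

/-- the products of two families of functions -/
def PP {N M : ℕ} (s : Fin N → X → ℂ) (r : Fin M → X → ℂ) (a : Fin N × Fin M) (z : X) : ℂ :=
  s a.1 z * r a.2 z

variable {N M : ℕ} {s : Fin N → X → ℂ} {r : Fin M → X → ℂ} {m₁ m : ℕ} {k : κ → ℕ}

lemma IsSys.PP_sec (h : IsSys n eqn T) (hs : ∀ b, SA.IsPluri (n := n) m₁ (s b))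
    (hr : Gen n eqn T k m r) (a : Fin N × Fin M) :
    J.IsSection (Cm n) eqn (m₁ + m) k (PP s r a) := by
  have h1 := h.mul (k := 0) (k' := k) (fun D hD => absurd rfl hD) hr.supp
    (section_zero (hs a.1)) (hr.sec a.2)
  rw [zero_add] at h1
  exact h1

theorem IsSys.ker_PP (h : IsSys n eqn T) (hs : ∀ b, SA.IsPluri (n := n) m₁ (s b))
    (hr : Gen n eqn T k m r) {φ : Chart n X → Cm n → ℝ} (hφ : IsCanonicalMetric φ)
    (hK : ∀ e x, At e x → (cHess (φ e) (e x)).PosSemidef)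
    (hφk : ∀ e x, At e x → ∀ b₀, s b₀ x ≠ 0 → ∀ v : Cm n,
      (∀ j, ∑ i, v i * cHess (φ e) (e x) i j = 0) ↔
        ∀ b, fderiv ℂ (fun z => s b (e.symm z) / s b₀ (e.symm z)) (e x) v = 0)
    (hm : 0 < m) {e : Chart n X} {x : X} (he : At e x) (hx : x ∈ off eqn T) {a₀ : Fin N × Fin M}
    (ha₀ : PP s r a₀ x ≠ 0) (v : Cm n) :
    (∀ j, ∑ i, v i * h.theta k m r φ e (e x) i j = 0) ↔
      ∀ a, fderiv ℂ (fun z => PP s r a (e.symm z) / PP s r a₀ (e.symm z)) (e x) v = 0 := by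
  have hs0 : s a₀.1 x ≠ 0 := left_ne_zero_of_mul ha₀
  have hr0 : r a₀.2 x ≠ 0 := right_ne_zero_of_mul ha₀
  have hS : ∀ b, DifferentiableAt ℂ (fun z => s b (e.symm z) / s a₀.1 (e.symm z)) (e x) :=
    fun b => (holV_chart he (h.holV_ratio (k := 0) (fun D hD => absurd rfl hD)
      (section_zero (hs a₀.1)) (section_zero (hs b)) hx hs0)).differentiableAt (by simp)
  have hR : ∀ c, DifferentiableAt ℂ (fun z => r c (e.symm z) / r a₀.2 (e.symm z)) (e x) :=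
    fun c => (holV_chart he (h.holV_ratio hr.supp (hr.sec a₀.2) (hr.sec c) hx
      hr0)).differentiableAt (by simp)
  have hmul : ∀ a : Fin N × Fin M, fderiv ℂ (fun z => PP s r a (e.symm z) /
      PP s r a₀ (e.symm z)) (e x) v =
      (s a.1 x / s a₀.1 x) * fderiv ℂ (fun z => r a.2 (e.symm z) / r a₀.2 (e.symm z)) (e x) v +
      (r a.2 x / r a₀.2 x) * fderiv ℂ (fun z => s a.1 (e.symm z) / s a₀.1 (e.symm z)) (e x) v := by
    intro a
    have h1 : (fun z => PP s r a (e.symm z) / PP s r a₀ (e.symm z)) = fun z =>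
        (s a.1 (e.symm z) / s a₀.1 (e.symm z)) * (r a.2 (e.symm z) / r a₀.2 (e.symm z)) := by
      funext z
      simp only [PP]
      rw [mul_div_mul_comm]
    have h2 := ((hS a.1).hasFDerivAt.mul (hR a.2).hasFDerivAt).fderiv
    rw [h1]
    have h3 := congrArg (fun L : Cm n →L[ℂ] ℂ => L v) h2
    refine h3.trans ?_
    simp only [ContinuousLinearMap.add_apply, ContinuousLinearMap.smul_apply, smul_eq_mul,
      he.left_inv]
  have hs1 : ∀ᶠ z in 𝓝 (e x), s a₀.1 (e.symm z) ≠ 0 :=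
    (symm_tendsto he).eventually (h.ev_ne (k := 0) (fun D hD => absurd rfl hD)
      (section_zero (hs a₀.1)) hx hs0)
  have hr1 : ∀ᶠ z in 𝓝 (e x), r a₀.2 (e.symm z) ≠ 0 :=
    (symm_tendsto he).eventually (h.ev_ne hr.supp (hr.sec a₀.2) hx hr0)
  have hs2 : fderiv ℂ (fun z => s a₀.1 (e.symm z) / s a₀.1 (e.symm z)) (e x) = 0 := by
    have h1 : (fun z => s a₀.1 (e.symm z) / s a₀.1 (e.symm z)) =ᶠ[𝓝 (e x)] fun _ => 1 := by
      filter_upwards [hs1] with z hz using div_self hz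
    rw [h1.fderiv_eq]
    simp
  have hr2 : fderiv ℂ (fun z => r a₀.2 (e.symm z) / r a₀.2 (e.symm z)) (e x) = 0 := by
    have h1 : (fun z => r a₀.2 (e.symm z) / r a₀.2 (e.symm z)) =ᶠ[𝓝 (e x)] fun _ => 1 := by
      filter_upwards [hr1] with z hz using div_self hz
    rw [h1.fderiv_eq]
    simp
  rw [h.theta_ker hr hφ hK hm he hx hr0 v, hφk e x he a₀.1 hs0 v]
  constructor
  · rintro ⟨h1, h2⟩ a
    rw [hmul a, h1, h2, mul_zero, mul_zero, add_zero]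
  · intro h1
    constructor
    · intro b
      have h2 := h1 (b, a₀.2)
      rw [hmul, hr2, div_self hr0, one_mul] at h2
      simpa using h2
    · intro c
      have h2 := h1 (a₀.1, c)
      rw [hmul, hs2, div_self hs0, one_mul] at h2
      simpa using h2

end data

section flat

variable {n : ℕ} {X : Type} [TopologicalSpace X] [T2Space X] [CompactSpace X] [ConnectedSpace X]
  [ChartedSpace (Cm n) X] [IsManifold 𝓘(ℂ, Cm n) ω X]

/-- the analytic output, for tensors -/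
theorem exists_flatTen {χ : Chart n X → Cm n → Matrix (Fin n) (Fin n) ℂ} (hχ : IsKahler χ)
    {Δ : Set X → ℝ} {T : Finset (Set X)} (h : IsSys n (eqL n) T) {N M : ℕ}
    {s : Fin N → X → ℂ} {r : Fin M → X → ℂ} {m₁ m : ℕ} (hm₁ : 0 < m₁) (hm : 0 < m)
    {k : Set X → ℕ} (hs : ∀ b, SA.IsPluri (n := n) m₁ (s b)) (hs0 : ∀ x, ∃ b, s b x ≠ 0)
    (hr : Gen n (eqL n) T k m r) {t : ℝ} (ht : 0 < t) (hk : ∀ D, (k D : ℝ) = m * (t * Δ D)) :
    ∃ R : Set X, IsOpen R ∧ Dense R ∧ FlatTen n Δ (PP s r) R := by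
  obtain ⟨φ, hφ, hK, hφk⟩ := metricPart n X m₁ N hm₁ s hs hs0
  have hP0 : ∀ x ∈ off (eqL n) T, ∃ a, PP s r a x ≠ 0 := by
    intro x hx
    obtain ⟨b, hb⟩ := hs0 x
    obtain ⟨c, hc⟩ := hr.gen x
    exact ⟨(b, c), mul_ne_zero hb (h.gen_ne hr.supp (hr.sec c) hc hx)⟩
  have hker := fun e x (he : At e x) (hx : x ∈ off (eqL n) T) a₀ (ha₀ : PP s r a₀ x ≠ 0) v =>
    h.ker_PP hs hr hφ hK hφk hm he hx ha₀ v
  obtain ⟨ν, p, hν, hne, hR⟩ := h.core (mP := m₁ + m) hr.supp (P := PP s r) (h.PP_sec hs hr)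
    (θ := h.theta k m r φ) (fun e x he i j =>
      ((h.theta_closed hr hφ).smooth e x he i j).continuousAt) hP0 hker
  obtain ⟨hd, ho⟩ := h.dense_ind (m := m₁ + m) hr.supp (s := fun b => PP s r (p b))
    (fun b => h.PP_sec hs hr (p b)) hne
  refine ⟨_, ho, hd, ?_⟩
  rintro x ⟨hxo, hxi⟩ q m' K hKΔ τ₀ τ₁ hτ₀ hτ₁ S hS hprop e he I hI i₀ hi₀ v hv
  have hm0 : (m : ℝ) ≠ 0 := by exact_mod_cast hm.ne'
  refine h.flat_ten hr hφ hK hm hχ hν (c := (m' : ℝ) / (m * t)) (by positivity) (fun D => ?_)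
    hτ₀ hτ₁ hS hprop he hxo hI (hR x hxo hxi e he).1 ((hker e x he hxo i₀ hi₀ v).2 hv)
  rw [hKΔ, hk]
  field_simp

/-- the analytic output, for sections -/
theorem exists_flatSec {χ : Chart n X → Cm n → Matrix (Fin n) (Fin n) ℂ} (hχ : IsKahler χ)
    {κ : Type} {eqn : κ → X → (X → ℂ) → Prop} {Δ : κ → ℝ} {T : Finset κ} (h : IsSys n eqn T)
    {N M : ℕ} {s : Fin N → X → ℂ} {r : Fin M → X → ℂ} {m₁ m : ℕ} (hm₁ : 0 < m₁) (hm : 0 < m)
    {k : κ → ℕ} (hs : ∀ b, SA.IsPluri (n := n) m₁ (s b)) (hs0 : ∀ x, ∃ b, s b x ≠ 0)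
    (hr : Gen n eqn T k m r) {t : ℝ} (ht : 0 < t) (hk : ∀ D, (k D : ℝ) = m * (t * Δ D)) :
    ∃ R : Set X, Dense R ∧ (∀ x ∈ R, ∃ a, PP s r a x ≠ 0) ∧ FlatSec n eqn Δ (PP s r) R := by
  obtain ⟨φ, hφ, hK, hφk⟩ := metricPart n X m₁ N hm₁ s hs hs0
  have hP0 : ∀ x ∈ off eqn T, ∃ a, PP s r a x ≠ 0 := by
    intro x hx
    obtain ⟨b, hb⟩ := hs0 x
    obtain ⟨c, hc⟩ := hr.gen x
    exact ⟨(b, c), mul_ne_zero hb (h.gen_ne hr.supp (hr.sec c) hc hx)⟩
  have hker := fun e x (he : At e x) (hx : x ∈ off eqn T) a₀ (ha₀ : PP s r a₀ x ≠ 0) v =>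
    h.ker_PP hs hr hφ hK hφk hm he hx ha₀ v
  obtain ⟨ν, p, hν, hne, hR⟩ := h.core (mP := m₁ + m) hr.supp (P := PP s r) (h.PP_sec hs hr)
    (θ := h.theta k m r φ) (fun e x he i j =>
      ((h.theta_closed hr hφ).smooth e x he i j).continuousAt) hP0 hker
  obtain ⟨hd, ho⟩ := h.dense_ind (m := m₁ + m) hr.supp (s := fun b => PP s r (p b))
    (fun b => h.PP_sec hs hr (p b)) hne
  refine ⟨_, hd, fun x hx => hP0 x hx.1, ?_⟩
  rintro x ⟨hxo, hxi⟩ m' k' hk' s₀ s₁ hs₀ hs₁ hsx i₀ hi₀ v hv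
  have hm0 : (m : ℝ) ≠ 0 := by exact_mod_cast hm.ne'
  have he : At (chartAt (Cm n) x) x := ⟨chart_mem_atlas _ _, mem_chart_source _ _⟩
  set e : Chart n X := chartAt (Cm n) x with hed
  have hsupp : ∀ D, k' D ≠ 0 → D ∈ T := by
    intro D hD
    refine hr.supp D fun h0 => hD ?_
    have h1 := hk D
    rw [h0, Nat.cast_zero] at h1
    have h2 : Δ D = 0 := by
      rcases mul_eq_zero.1 h1.symm with h3 | h3
      · exact absurd h3 hm0
      · exact (mul_eq_zero.1 h3).resolve_left ht.ne'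
    have h3 := hk' D
    rw [h2, mul_zero] at h3
    exact_mod_cast h3
  have h1 : ∀ a, fderiv ℂ (fun z => PP s r a (e.symm z) / PP s r i₀ (e.symm z)) (e x)
      (De e x v) = 0 := by
    intro a
    have h2 := dV_eq_fderiv he (h.holV_ratio (m := m₁ + m) hr.supp (h.PP_sec hs hr i₀)
      (h.PP_sec hs hr a) hxo hi₀)
    have h3 := congrArg (fun L : Cm n →L[ℂ] ℂ => L v) h2
    exact h3.symm.trans (hv a)
  have h2 := h.flat_sec hr hφ hK hm hχ hν (c := (m' : ℝ) / (m * t)) (by positivity)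
    (fun D => by rw [hk', hk]; field_simp) hs₀ hs₁ he hxo hsx (hR x hxo hxi e he).1
    ((hker e x he hxo i₀ hi₀ _).2 h1)
  have h3 := dV_eq_fderiv he (h.holV_ratio hsupp hs₀ hs₁ hxo hsx)
  rw [h3]
  exact h2

end flat

end Vale.Agent.P281.H716
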