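import Vale.Agent.P281.H716.Inst
import Vale.Agent.P281.H713.SA.G5

/-! P281, theorem SAL: the abstract main part. -/

open scoped Manifold ContDiff Topology ComplexOrder Matrix
open Set Filter Vale.Agent.P281 Vale.Agent.P272.K Vale.Agent.P299.D
open Vale.Agent.P281.H949.SA Vale.Agent.P281.H716.IsSys Vale.Agent.P281.MF Vale.Agent.P281.ISO

set_option linter.all false

noncomputable section

namespace Vale.Agent.P281.H716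

/-- ratios of proportional tensors with poles are constant along the common kernel of the
differentials of the `P i / P i₀`, at the points of `R` -/
def FlatTen (n : ℕ) {X : Type} [TopologicalSpace X] [ChartedSpace (Cm n) X] (Δ : Set X → ℝ)
    {ι : Type} (P : ι → X → ℂ) (R : Set X) : Prop :=
  ∀ x ∈ R, ∀ (q m' : ℕ) (K : Set X → ℕ), (∀ D, (K D : ℝ) = m' * Δ D) → ∀ τ₀ τ₁ : Ten n q X,
    IsTenP q K τ₀ → IsTenP q K τ₁ → ∀ S : Set X, Dense S →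
    (∀ y ∈ S, ∀ e, At e y → ∀ I J, τ₀ e (e y) I * τ₁ e (e y) J = τ₀ e (e y) J * τ₁ e (e y) I) →
    ∀ e, At e x → ∀ I, τ₀ e (e x) I ≠ 0 → ∀ i₀, P i₀ x ≠ 0 → ∀ v : Cm n,
    (∀ i, fderiv ℂ (fun z => P i (e.symm z) / P i₀ (e.symm z)) (e x) v = 0) →
    fderiv ℂ (fun z => τ₁ e z I / τ₀ e z I) (e x) v = 0

/-- ratios of sections of `m' (K + Δ)` are constant along the common kernel of the
differentials of the `P i / P i₀`, at the points of `R` -/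
def FlatSec (d : ℕ) {F : Type} [TopologicalSpace F] [ChartedSpace (Cm d) F] {κ : Type}
    (eqn : κ → F → (F → ℂ) → Prop) (Δ : κ → ℝ) {ι : Type} (P : ι → F → ℂ) (R : Set F) : Prop :=
  ∀ x ∈ R, ∀ (m' : ℕ) (k' : κ → ℕ), (∀ D, (k' D : ℝ) = m' * Δ D) → ∀ s₀ s₁ : F → ℂ,
    J.IsSection (Cm d) eqn m' k' s₀ → J.IsSection (Cm d) eqn m' k' s₁ → s₀ x ≠ 0 →
    ∀ i₀, P i₀ x ≠ 0 → ∀ v : Cm d, (∀ i, dV (Cm d) (fun w => P i w / P i₀ w) x v = 0) →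
    dV (Cm d) (fun w => s₁ w / s₀ w) x v = 0

section const

variable {n p : ℕ} {X Z Y : Type} [TopologicalSpace X] [T2Space X] [CompactSpace X]
  [ConnectedSpace X] [ChartedSpace (Cm n) X] [IsManifold 𝓘(ℂ, Cm n) ω X]
  [TopologicalSpace Z] [ChartedSpace (Cm n) Z] [IsManifold 𝓘(ℂ, Cm n) ω Z]
  [TopologicalSpace Y] [T2Space Y] [ConnectedSpace Y] [ChartedSpace (Cm p) Y]
  [IsManifold 𝓘(ℂ, Cm p) ω Y]

omit [T2Space X] [CompactSpace X] [ConnectedSpace X] in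
lemma tenP_hol {T : Finset (Set X)} (h : IsSys n (eqL n) T) {q : ℕ} {K : Set X → ℕ}
    (hK : ∀ D, K D ≠ 0 → D ∈ T) {τ : Ten n q X} (hτ : IsTenP q K τ) {e : Chart n X} {x : X}
    (he : At e x) (hx : x ∈ off (eqL n) T) (I : Fin q → Fin n) :
    ContDiffAt ℂ ω (fun z => τ e z I) (e x) := by
  obtain ⟨a, ha, hev⟩ := hτ.holo e x he T (fun D => h.gg D x) hK (fun D hD => h.gg_spec hD x) I
  have h1 : ContDiffAt ℂ ω (fun z => h.GG K x (e.symm z)) (e x) :=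
    holV_chart he (h.holV_GG (h.self_mem_dom x) K)
  have h2 : h.GG K x (e.symm (e x)) ≠ 0 := by
    rw [he.left_inv]; exact h.GG_ne (h.self_mem_dom x) hx K
  refine (ha.contDiffAt.div h1 h2).congr_of_eventuallyEq ?_
  filter_upwards [hev, h1.continuousAt.eventually_ne h2] with z h3 h4
  have h5 : τ e z I * h.GG K x (e.symm z) = a z := h3 h4
  show τ e z I = a z / h.GG K x (e.symm z)
  rw [← h5, mul_div_assoc, div_self h4, mul_one]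

theorem sections_constL (hT : TensorPartL) {Δ : Set X → ℝ} (hΔ : J.IsSNC (Cm n) Δ)
    {T : Finset (Set X)} (hTΔ : ∀ D, D ∈ T ↔ Δ D ≠ 0) (h : IsSys n (eqL n) T)
    {ι : Type} {P : ι → X → ℂ} {R : Set X} (hflat : FlatTen n Δ P R)
    {j : Z → X} (hj : J.IsBigOpen (Cm n) j) {f : Z → Y}
    (hf : ContMDiff 𝓘(ℂ, Cm n) 𝓘(ℂ, Cm p) ω f) {𝒢 : Set (Set Y)}
    (h𝒢 : J.IsDivisorial (Cm n) (Cm p) f 𝒢) {Δ' : Set Z → ℝ} (hΔ' : J.IsSNC (Cm n) Δ')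
    (hres : J.IsRestriction j Δ Δ') {m : ℕ} {k : Set Y → ℕ}
    (hk : ∀ G, (k G : ℝ) ≤ m * J.orbBase' (Cm n) (Cm p) f Δ' G) (hkG : ∀ G, k G ≠ 0 → G ∈ 𝒢)
    (hmΔ : ∃ K : Set X → ℕ, ∀ D, (K D : ℝ) = m * Δ D)
    {σ₀ σ₁ : Y → ℂ}
    (hσ₀ : J.IsSection (Cm p) (fun (D : Set Y) z g => J.IsLocalEq (Cm p) D g z) m k σ₀)
    (hσ₁ : J.IsSection (Cm p) (fun (D : Set Y) z g => J.IsLocalEq (Cm p) D g z) m k σ₁)
    {z₂ : Z} (hz₂ : f z₂ ∉ ⋃₀ 𝒢) (hsub : Function.Surjective (dM (Cm n) (Cm p) f z₂))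
    (h0 : σ₀ (f z₂) ≠ 0) {e : Chart n X} (he : At e (j z₂)) (hR : j z₂ ∈ R)
    (hoff : j z₂ ∈ off (eqL n) T) {i₀ : ι} (hi₀ : P i₀ (j z₂) ≠ 0) {ξ : Cm n}
    (hξ : ∀ i, fderiv ℂ (fun z => P i (e.symm z) / P i₀ (e.symm z)) (e (j z₂))
      (dV (Cm n) (fun z => e (j z)) z₂ ξ) = 0) :
    dif (Cm n) (fun z => σ₁ (f z) / σ₀ (f z)) z₂ ξ = 0 := by
  obtain ⟨K, hK⟩ := hmΔ
  have hTex : ∀ D ∈ T, ∀ x, ∃ g, J.IsLocalEq (Cm n) D g x := fun D hD =>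
    (hΔ.2.1 D ((hTΔ D).1 hD)).2.1
  have hKT : ∀ D, K D ≠ 0 → D ∈ T := by
    intro D hD
    refine (hTΔ D).2 fun h1 => hD ?_
    have h2 := hK D
    rw [h1, mul_zero] at h2
    exact_mod_cast h2
  have hoffD : ∀ x, x ∈ off (eqL n) T → ∀ D, Δ D ≠ 0 → x ∉ D := fun x hx D hD =>
    (off_eqL hTex).1 hx D ((hTΔ D).2 hD)
  have hΩ := H713.SA.dense_good hj hf h𝒢
  obtain ⟨q, Tn, hT0, hTσ⟩ := hT n p X Z Y j hj f hf 𝒢 h𝒢 Δ hΔ Δ' hΔ' hres m K hK k hk hkG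
  obtain ⟨τ₀, hτ₀, hτ₀e⟩ := hTσ σ₀ hσ₀
  obtain ⟨τ₁, hτ₁, hτ₁e⟩ := hTσ σ₁ hσ₁
  have hS : Dense ({x : X | ∃ z, j z = x ∧ f z ∉ ⋃₀ 𝒢} ∩ off (eqL n) T) :=
    hΩ.inter_of_isOpen_right h.dense_off h.isOpen_off
  have hprop : ∀ y ∈ {x : X | ∃ z, j z = x ∧ f z ∉ ⋃₀ 𝒢} ∩ off (eqL n) T, ∀ e, At e y → ∀ I J,
      τ₀ e (e y) I * τ₁ e (e y) J = τ₀ e (e y) J * τ₁ e (e y) I := by
    rintro _ ⟨⟨z, rfl, hz⟩, hy⟩ e hey I J
    rw [hτ₀e e z hey hz (hoffD _ hy), hτ₀e e z hey hz (hoffD _ hy), hτ₁e e z hey hz (hoffD _ hy),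
      hτ₁e e z hey hz (hoffD _ hy)]
    ring
  obtain ⟨I, hI⟩ := hT0 e z₂ he hsub
  have hI0 : τ₀ e (e (j z₂)) I ≠ 0 := by
    rw [hτ₀e e z₂ he hz₂ (hoffD _ hoff)]
    exact mul_ne_zero h0 hI
  have h1 := hflat (j z₂) hR q m K hK τ₀ τ₁ hτ₀ hτ₁ _ hS hprop e he I hI0 i₀ hi₀ _ hξ
  have hjh : ∀ z, HolM (Cm n) (Cm n) j z := fun z => hj.1 z
  have hfc : Continuous f := hf.continuous
  have hjc : Continuous j := hj.1.continuous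
  have h𝒢c : IsClosed (⋃₀ 𝒢) := by
    rw [sUnion_eq_biUnion]
    exact h𝒢.1.isClosed_biUnion fun G hG => (h𝒢.2.1 G hG).1
  have ht0 := tenP_hol h hKT hτ₀ he hoff I
  have ht1 := tenP_hol h hKT hτ₁ he hoff I
  have hcont : ContinuousAt (fun y => τ₀ e (e y) I) (j z₂) :=
    ContinuousAt.comp (g := fun z => τ₀ e z I) ht0.continuousAt (e.continuousAt he.2)
  have h2 : (fun z => σ₁ (f z) / σ₀ (f z)) =ᶠ[𝓝 z₂]
      fun z => τ₁ e (e (j z)) I / τ₀ e (e (j z)) I := by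
    have h3 : ∀ᶠ z in 𝓝 z₂, τ₀ e (e (j z)) I ≠ 0 :=
      (ContinuousAt.comp (g := fun y => τ₀ e (e y) I) (f := j) hcont
        hjc.continuousAt).eventually_ne hI0
    filter_upwards [h3, (e.open_source.preimage hjc).mem_nhds he.2,
      (h𝒢c.isOpen_compl.preimage hfc).mem_nhds hz₂,
      (h.isOpen_off.preimage hjc).mem_nhds hoff] with z h4 h5 h6 h7
    rw [hτ₀e e z ⟨he.1, h5⟩ h6 (hoffD _ h7)] at h4
    rw [hτ₀e e z ⟨he.1, h5⟩ h6 (hoffD _ h7), hτ₁e e z ⟨he.1, h5⟩ h6 (hoffD _ h7),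
      mul_div_mul_right _ _ (right_ne_zero_of_mul h4)]
  have h3 : dif (Cm n) (fun z => σ₁ (f z) / σ₀ (f z)) z₂ =
      dif (Cm n) (fun z => τ₁ e (e (j z)) I / τ₀ e (e (j z)) I) z₂ := dV_congr h2
  have h4 : ContDiffAt ℂ ω (fun z => τ₁ e z I / τ₀ e z I) (e (j z₂)) := ht1.div ht0 hI0
  have h5 := dV_comp_contDiff (G := fun z => τ₁ e z I / τ₀ e z I) (v := fun z => e (j z)) h4
    (H713.SA.holV_ej hjh he)
  rw [h3, dif_eq_dV, h5]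
  exact h1

end const

end Vale.Agent.P281.H716
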